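import Vale.Agent.P024.CgB
import Vale.Agent.P024.Grp

/-! # P024 Cf (TASK; helper lemma names start with `cf_` or are private)
The class group of a family of odd characters.  PLAN.  `q = l^k`, `κ`, `Hc` from `exists_cg_cyc`.  Fix `i`, `c = c i`.  The pair `(c, κ)` is onto `ZMod q × ZMod q` (`joint_surj` with `U' = closure {δ} ⊔ U` replaced by a direct argument: `u (δ u δ⁻¹)` has values `(0, 2 κ u)`, `u (δ u δ⁻¹)⁻¹` has values `(2 c u, 0)`; `2` is a unit).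
So `c`, `c - κ`, `c + κ` are onto; `H1`, `H2`, `H3` from `exists_cg`, all of index `q` (`IsCh.relIndex_ker`); the kernels of the pairs `(c,κ)`, `(c-κ,κ)`, `(c-κ,c+κ)`, `(c,c-κ)` all equal `N0`, of relative index `q²`; by `CG.inf`, `CG.unique` the corresponding intersections agree.
`CG.map` and `CG.unique`: `δ H1 = H1`, `δ H2 = H3`, `δ H3 = H2`, `ι0 H1 = H1`, `ι0 H2 = H2`.  `eig_neg`, `eig_triv`, `dvMap_dv`.  `H = ⨅ i, H1 i`; induction over finsets with `CG.inf` (the empty case: `H = ⊤`, `N = U`), index by `isCh_pi`, `IsCh.relIndex_ker`. -/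

namespace Vale.Agent.P024

open NumberField IsDedekindDomain Filter
open scoped Pointwise Topology

set_option linter.unusedSectionVars false

section

variable {l : ℕ} [Fact l.Prime] {U N N' : OpenSubgroup G1} {k : ℕ} {a b : G1 → ZMod (l ^ k)}
  {H H' : AddSubgroup (Dv (Fx U) l)}

theorem cf_odd_inf {X : Type*} [AddCommGroup X] {H K : AddSubgroup X} (h : Odd H.index)
    (h' : Odd K.index) : Odd (H ⊓ K).index := by
  rw [← AddSubgroup.relIndex_mul_index (inf_le_right : H ⊓ K ≤ K), AddSubgroup.inf_relIndex_right]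
  exact (h.of_dvd_nat (AddSubgroup.relIndex_dvd_index_of_normal H K)).mul h'

theorem cf_normIn (h : NormIn N U) (h' : NormIn N' U) : NormIn (N ⊓ N') U :=
  fun g hg n hn => ⟨h g hg n hn.1, h' g hg n hn.2⟩

theorem cf_idx (ha : IsCh U a) (hs : ∀ y, ∃ g ∈ U, a g = y) (h : CG l U ha.ker H) :
    H.index = l ^ k := by
  rw [h.idx, ha.relIndex_ker hs, Nat.card_zmod]

theorem cf_map (hw : FixW U) (ha : IsCh U a) (hb : IsCh U b) (h : CG l U ha.ker H)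
    (h' : CG l U hb.ker H') (ho : Odd H'.index) {g : G1} (hg : ∀ u ∈ U, g⁻¹ * u * g ∈ U)
    (hg' : ∀ u ∈ U, g * u * g⁻¹ ∈ U) (e : ∀ u ∈ U, b (g * u * g⁻¹) = 0 ↔ a u = 0) :
    ∀ x ∈ H, (dvMap l (resEq g U hg hg')).toAddMonoidHom x ∈ H' := by
  intro x hx
  have h1 : ∀ u : G1, g * (g⁻¹ * u * g) * g⁻¹ = u := fun u => by group
  rw [CG.unique hw h' (h.map g hg hg' fun u => ⟨fun hu => ⟨hg u hu.1, (e _ (hg u hu.1)).1
    ((h1 u).symm ▸ hu.2)⟩, fun hu => h1 u ▸ ⟨hg' _ hu.1, (e _ hu.1).2 hu.2⟩⟩) hb.ker_le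
    hb.normIn ho]
  exact AddSubgroup.mem_map_of_mem _ hx

theorem cf_one (hw : FixW U) (hl : l ≠ 2) (ha : IsCh U a) (hu : Unr l U a)
    (hs : ∀ y, ∃ g ∈ U, a g = y) {δ ι0 : G1}
    (hδ : ∀ u ∈ U, δ⁻¹ * u * δ ∈ U) (hδ' : ∀ u ∈ U, δ * u * δ⁻¹ ∈ U)
    (hι : ∀ u ∈ U, ι0⁻¹ * u * ι0 ∈ U) (hι' : ∀ u ∈ U, ι0 * u * ι0⁻¹ ∈ U)
    (eδ : ∀ u ∈ U, a (δ * u * δ⁻¹) = -a u) (eι : ∀ u ∈ U, a (ι0 * u * ι0⁻¹) = a u) :
    ∃ H, CG l U ha.ker H ∧ (∀ D, dvMap l (resEq δ U hδ hδ') D + D ∈ H) ∧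
      ∀ D, dvMap l (resEq ι0 U hι hι') D - D ∈ H := by
  have hp : l.Prime := Fact.out
  obtain ⟨κ, hκ, sκ, uκ, eκ, Hc, cc, ic⟩ := exists_cg_cyc hw hl k
  obtain ⟨t, ht⟩ : ∃ t : ZMod (l ^ k), 2 * t = 1 := by
    have := (ZMod.isUnit_iff_coprime 2 (l ^ k)).2
      (((Nat.coprime_primes Nat.prime_two hp).2 hl.symm).pow_right k)
    exact_mod_cast this.exists_right_inv
  have sj : ∀ y z, ∃ g ∈ U, a g = y ∧ κ g = z := fun y z => by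
    obtain ⟨u, hu, e1⟩ := hs (t * y)
    obtain ⟨v, hv, e2⟩ := sκ (t * z)
    have m1 := U.inv_mem (hδ' u hu)
    have m2 := U.mul_mem hu m1
    have m3 := U.mul_mem hv (hδ' v hv)
    refine ⟨_, U.mul_mem m2 m3, ?_, ?_⟩
    · rw [ha.add _ m2 _ m3, ha.add _ hu _ m1, ha.add _ hv _ (hδ' v hv), ha.inv (hδ' u hu),
        eδ u hu, eδ v hv, e1]
      linear_combination y * ht
    · rw [hκ.add _ m2 _ m3, hκ.add _ hu _ m1, hκ.add _ hv _ (hδ' v hv), hκ.inv (hδ' u hu),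
        eκ, eκ, e2]
      linear_combination z * ht
  have h2 := ha.sub' hκ
  have h3 := ha.add' hκ
  have s2 : ∀ y, ∃ g ∈ U, a g - κ g = y := fun y => by
    obtain ⟨g, hg, e1, e2⟩ := sj y 0
    exact ⟨g, hg, by rw [e1, e2, sub_zero]⟩
  have s3 : ∀ y, ∃ g ∈ U, a g + κ g = y := fun y => by
    obtain ⟨g, hg, e1, e2⟩ := sj y 0
    exact ⟨g, hg, by rw [e1, e2, add_zero]⟩
  obtain ⟨H1, c1⟩ := exists_cg hw hl ha hs hu
  obtain ⟨H2, c2⟩ := exists_cg hw hl h2 s2 fun A p p1 p2 p3 g p4 p5 => by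
    rw [hu A p p1 p2 p3 g p4 p5, uκ A p p1 p2 p3 g p4 p5, sub_zero]
  obtain ⟨H3, c3⟩ := exists_cg hw hl h3 s3 fun A p p1 p2 p3 g p4 p5 => by
    rw [hu A p p1 p2 p3 g p4 p5, uκ A p p1 p2 p3 g p4 p5, add_zero]
  have i1 := cf_idx ha hs c1
  have i2 := cf_idx h2 s2 c2
  have i3 := cf_idx h3 s3 c3
  have i4 := cf_idx hκ sκ cc
  have ho : Odd (l ^ k) := (hp.odd_of_ne_two hl).pow
  have hq : l ^ k ≠ 0 := pow_ne_zero _ hp.ne_zero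
  have c0 := CG.inf hw c1 cc ha.ker_le ha.normIn hκ.ker_le hκ.normIn (i1 ▸ ho) (i4 ▸ ho)
  have h0 : IsCh U fun g => (a g, κ g) := IsCh.of_le
    (fun g hg h hh => Prod.ext (ha.add g hg h hh) (hκ.add g hg h hh)) (ha.ker ⊓ hκ.ker)
    fun g _ h => Prod.ext h.1.2 h.2.2
  have i0 : (H1 ⊓ Hc).index = (l ^ k) ^ 2 := by
    have e : ha.ker ⊓ hκ.ker = h0.ker := OpenSubgroup.ext fun g =>
      ⟨fun h => ⟨h.1.1, Prod.ext h.1.2 h.2.2⟩,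
        fun h => ⟨⟨h.1, congrArg Prod.fst h.2⟩, h.1, congrArg Prod.snd h.2⟩⟩
    rw [c0.idx, e, h0.relIndex_ker fun y => (sj y.1 y.2).imp fun g h =>
      ⟨h.1, Prod.ext h.2.1 h.2.2⟩, Nat.card_prod, Nat.card_zmod, sq]
  have key : ∀ {f f' : G1 → ZMod (l ^ k)} (hf : IsCh U f) (hf' : IsCh U f') {K K'},
      CG l U hf.ker K → CG l U hf'.ker K' → K.index = l ^ k → K'.index = l ^ k →
      (∀ g, f g = 0 ∧ f' g = 0 ↔ a g = 0 ∧ κ g = 0) → K ⊓ K' = H1 ⊓ Hc := by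
    intro f f' hf hf' K K' p1 p2 p3 p4 e
    have e' : ha.ker ⊓ hκ.ker = hf.ker ⊓ hf'.ker := OpenSubgroup.ext fun g =>
      ⟨fun h => ⟨⟨h.1.1, ((e g).2 ⟨h.1.2, h.2.2⟩).1⟩, h.1.1, ((e g).2 ⟨h.1.2, h.2.2⟩).2⟩,
        fun h => ⟨⟨h.1.1, ((e g).1 ⟨h.1.2, h.2.2⟩).1⟩, h.1.1, ((e g).1 ⟨h.1.2, h.2.2⟩).2⟩⟩
    exact CG.unique hw (CG.inf hw p1 p2 hf.ker_le hf.normIn hf'.ker_le hf'.normIn (p3 ▸ ho)
      (p4 ▸ ho)) (e' ▸ c0) (inf_le_left.trans hf.ker_le) (cf_normIn hf.normIn hf'.normIn)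
      (cf_odd_inf (p3 ▸ ho) (p4 ▸ ho))
  have e2 := key h2 hκ c2 cc i2 i4 fun g => ⟨fun h => ⟨by linear_combination h.1 + h.2, h.2⟩,
    fun h => ⟨by linear_combination h.1 - h.2, h.2⟩⟩
  have e3 := key h2 h3 c2 c3 i2 i3 fun g => ⟨fun h =>
    ⟨by linear_combination t * (h.1 + h.2) - a g * ht,
      by linear_combination t * (h.2 - h.1) - κ g * ht⟩,
    fun h => ⟨by linear_combination h.1 - h.2, by linear_combination h.1 + h.2⟩⟩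
  have e4 := key ha h2 c1 c2 i1 i2 fun g => ⟨fun h => ⟨h.1, by linear_combination h.1 - h.2⟩,
    fun h => ⟨h.1, by linear_combination h.1 - h.2⟩⟩
  refine ⟨H1, c1, eig_neg (dvMap l (resEq δ U hδ hδ')).toAddMonoidHom hq i1 i2 i4 i0 e2 e3
    (cf_map hw ha ha c1 c1 (i1 ▸ ho) hδ hδ' fun u hu => by rw [eδ u hu, neg_eq_zero])
    (cf_map hw h2 h3 c2 c3 (i3 ▸ ho) hδ hδ' fun u hu => ?_)
    (cf_map hw h3 h2 c3 c2 (i2 ▸ ho) hδ hδ' fun u hu => ?_) (ic _),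
    eig_triv (dvMap l (resEq ι0 U hι hι')).toAddMonoidHom hq i1 i2 (e4 ▸ i0)
    (e2 ▸ inf_le_left) (cf_map hw ha ha c1 c1 (i1 ▸ ho) hι hι' fun u hu => by rw [eι u hu])
    (cf_map hw h2 h2 c2 c2 (i2 ▸ ho) hι hι' fun u hu => by rw [eι u hu, eκ]) (ic _)⟩
  · rw [eδ u hu, eκ, ← neg_eq_zero, neg_add, neg_neg, ← sub_eq_add_neg]
  · rw [eδ u hu, eκ, ← neg_eq_zero, neg_sub', neg_neg, sub_neg_eq_add]

end

theorem cf {l : ℕ} [Fact l.Prime] {U : OpenSubgroup G1} (hw : FixW U) (hl : l ≠ 2) {k : ℕ}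
    {ι : Type*} [Fintype ι] (c : ι → G1 → ZMod (l ^ k)) (hc : ∀ i, IsCh U (c i))
    (hu : ∀ i, Unr l U (c i)) (hs : ∀ y : ι → ZMod (l ^ k), ∃ g ∈ U, ∀ i, c i g = y i) {δ ι0 : G1}
    (hδ : ∀ u ∈ U, δ⁻¹ * u * δ ∈ U) (hδ' : ∀ u ∈ U, δ * u * δ⁻¹ ∈ U)
    (hι : ∀ u ∈ U, ι0⁻¹ * u * ι0 ∈ U) (hι' : ∀ u ∈ U, ι0 * u * ι0⁻¹ ∈ U)
    (eδ : ∀ i, ∀ u ∈ U, c i (δ * u * δ⁻¹) = -c i u) (eι : ∀ i, ∀ u ∈ U, c i (ι0 * u * ι0⁻¹) = c i u) :
    ∃ H : AddSubgroup (Dv (Fx U) l), (∃ m, 0 < m ∧ Pm (Fx U) l m ≤ H) ∧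
      H.index = l ^ (k * Fintype.card ι) ∧ (∀ D, l ^ k • D ∈ H) ∧
      (∀ P : Pr (Fx U) l, (∀ A : ValuationSubring Qb, Lies A (inc U) P.1 →
        ∀ g ∈ U, g ∈ DD ℚ A → ∀ i, c i g = 0) → Finsupp.single P 1 ∈ H) ∧
      (∀ x y : Fx U, (y : Qb) = δ x → dv l y + dv l x ∈ H) ∧
      ∀ x y : Fx U, (y : Qb) = ι0 x → dv l y - dv l x ∈ H := by
  have hp : l.Prime := Fact.out
  classical
  have hs1 : ∀ i y, ∃ g ∈ U, c i g = y := fun i y => (hs fun _ => y).imp fun g h => ⟨h.1, h.2 i⟩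
  choose K c1 p1 p2 using fun i =>
    cf_one hw hl (hc i) (hu i) (hs1 i) hδ hδ' hι hι' (eδ i) (eι i)
  have i1 := fun i => cf_idx (hc i) (hs1 i) (c1 i)
  have ho : ∀ i, Odd (K i).index := fun i => (i1 i).symm ▸ (hp.odd_of_ne_two hl).pow
  have key : ∀ s : Finset ι, ∃ N H, CG l U N H ∧ NormIn N U ∧ Odd H.index ∧
      (∀ g, g ∈ N ↔ g ∈ U ∧ ∀ i ∈ s, c i g = 0) ∧ ∀ D, D ∈ H ↔ ∀ i ∈ s, D ∈ K i := fun s => by
    induction s using Finset.induction_on with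
    | empty =>
      exact ⟨U, ⊤, ⟨⟨1, one_pos, le_top⟩, fun _ _ => trivial, by
        rw [AddSubgroup.index_top, Subgroup.relIndex_self]⟩,
        fun g hg n hn => U.mul_mem (U.mul_mem hg hn) (U.inv_mem hg),
        by rw [AddSubgroup.index_top]; exact odd_one, by simp, by simp⟩
    | insert i s _ ih =>
      obtain ⟨N, H, q1, q2, q3, q4, q5⟩ := ih
      refine ⟨_, _, CG.inf hw (c1 i) q1 (hc i).ker_le (hc i).normIn (fun g h => ((q4 g).1 h).1) q2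
        (ho i) q3, cf_normIn (hc i).normIn q2, cf_odd_inf (ho i) q3, fun g => ?_, fun D => ?_⟩
      · rw [Finset.forall_mem_insert]
        exact ⟨fun h => ⟨h.1.1, h.1.2, ((q4 g).1 h.2).2⟩,
          fun h => ⟨⟨h.1, h.2.1⟩, (q4 g).2 ⟨h.1, h.2.2⟩⟩⟩
      · rw [Finset.forall_mem_insert, AddSubgroup.mem_inf, q5]
  obtain ⟨N, H, q1, -, -, q4, q5⟩ := key Finset.univ
  have e : N = (isCh_pi hc).ker := OpenSubgroup.ext fun g => (q4 g).trans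
    ⟨fun h => ⟨h.1, funext fun i => h.2 i (Finset.mem_univ i)⟩,
      fun h => ⟨h.1, fun i _ => congrFun h.2 i⟩⟩
  refine ⟨H, q1.ray, ?_, fun D => (q5 _).2 fun i _ => ?_,
    fun P hP => q1.spl P fun A hA g hg hD => (q4 g).2 ⟨hg, fun i _ => hP A hA g hg hD i⟩,
    fun x y h => (q5 _).2 fun i _ => ?_, fun x y h => (q5 _).2 fun i _ => ?_⟩
  · rw [q1.idx, e, (isCh_pi hc).relIndex_ker fun y => (hs y).imp fun g h => ⟨h.1, funext h.2⟩,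
      Nat.card_fun, Nat.card_zmod, Nat.card_eq_fintype_card, pow_mul]
  · rw [← i1 i]
    exact AddSubgroup.nsmul_index_mem _ D
  · rw [show y = resEq δ U hδ hδ' x from Subtype.ext h, ← dvMap_dv]
    exact p1 i _
  · rw [show y = resEq ι0 U hι hι' x from Subtype.ext h, ← dvMap_dv]
    exact p2 i _

end Vale.Agent.P024
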