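import Vale.Agent.P024.PrA
import Vale.Agent.P016.Euler
import Vale.Agent.P319.N.ZetaTwo

/-! # P024 DenA (TASK; helper lemma names start with `denA_` or are private)
Euler products and densities.  PLAN.  Summability: `Vale.Agent.P319.zeta_summable_ideal` (primes inject into nonzero ideals).  `sum_two`: `∑ nrm P ^ (-2)` converges.
`euler_log`: `Vale.Agent.P016.sieve_lim` with `S X` = primes of norm `≤ X` gives `L(s) * ∏ (1 - f P) → 1`, so `L(s) ≠ 0` and `log ‖L(s)‖ = - lim ∑ log ‖1 - f P‖`; for `‖z‖ ≤ 1/2`, `|log ‖1 - z‖ + re z| ≤ ‖z‖²` (`Complex.norm_log_one_add_sub_self_le`, `Complex.log_re`).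
`dens_univ`: `χ = 1`, `Vale.Agent.P319.dedekindZeta_eq_tsum`, `NumberField.tendsto_sub_one_mul_dedekindZeta_nhdsGT`, `dedekindZeta_residue_pos`.
`dens_deg`: `nrm P = p^f` with `f ≥ 2`, at most `finrank` primes over `p` (`Vale.Agent.P319.zetaTwo_primes`-type bound, or `Ideal.card_primesOverFinset_le_finrank`), so the sum is at most `finrank * ∑ p^(-2)`.
The rest: `tsum` over subtypes as `tsum` of indicators (`tsum_subtype`), and `log (1/(s-1)) → ∞`. -/

namespace Vale.Agent.P024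

open NumberField IsDedekindDomain Filter
open scoped Pointwise Topology

set_option linter.unusedSectionVars false

open scoped nonZeroDivisors

variable {M : Type} [Field M] [NumberField M] {S T : Set (HeightOneSpectrum (𝓞 M))} {a b : ℝ}

theorem den_summable {s : ℝ} (hs : 1 < s) :
    Summable fun P : HeightOneSpectrum (𝓞 M) => (nrm P : ℝ) ^ (-s) := by
  have h := (P319.zeta_summable_ideal (F := M) hs).comp_injective
    (i := fun P : HeightOneSpectrum (𝓞 M) => ⟨P.asIdeal, mem_nonZeroDivisors_of_ne_zero P.ne_bot⟩)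
    fun _ _ h => HeightOneSpectrum.ext (congrArg Subtype.val h)
  exact h.congr fun _ => rfl

theorem zsum_eq (S : Set (HeightOneSpectrum (𝓞 M))) (s : ℝ) :
    NumberField.Set.primeIdealZetaSum S s =
      ∑' P : HeightOneSpectrum (𝓞 M), S.indicator (fun P => (nrm P : ℝ) ^ (-s)) P := by
  rw [NumberField.Set.primeIdealZetaSum_def]
  exact tsum_subtype S fun P => (nrm P : ℝ) ^ (-s)

theorem denA_two (P : HeightOneSpectrum (𝓞 M)) : 2 ≤ nrm P := by
  obtain ⟨p, hp, h⟩ := exists_prime_mem P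
  obtain ⟨f, hf, -, h1⟩ := nrm_eq_pow hp h
  rw [h1]
  exact hp.two_le.trans (Nat.le_self_pow hf.ne' p)

theorem denA_log {z : ℂ} {x : ℝ} (hx : 2 ≤ x) (hz : ‖z‖ ≤ x⁻¹) :
    1 - z ≠ 0 ∧ ‖Complex.log (1 - z) + z‖ ≤ x ^ (-2 : ℝ) := by
  have h1 : ‖z‖ ≤ 2⁻¹ := hz.trans (inv_anti₀ two_pos hx)
  refine ⟨fun h => ?_, ?_⟩
  · rw [← sub_eq_zero.1 h, norm_one] at h1
    norm_num at h1
  · have h2 := Complex.norm_log_one_add_sub_self_le (z := -z) (by rw [norm_neg]; linarith)
    rw [← sub_eq_add_neg, sub_neg_eq_add, norm_neg] at h2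
    have h3 : (1 - ‖z‖)⁻¹ ≤ 2 := by
      rw [inv_le_comm₀ (by linarith) two_pos]
      linarith
    have h4 : ‖z‖ ^ 2 * (1 - ‖z‖)⁻¹ ≤ ‖z‖ ^ 2 * 2 := mul_le_mul_of_nonneg_left h3 (sq_nonneg _)
    have h5 : ‖z‖ ^ 2 ≤ x ^ (-2 : ℝ) := by
      rw [Real.rpow_neg (by linarith), Real.rpow_two, ← inv_pow]
      exact pow_le_pow_left₀ (norm_nonneg _) hz 2
    linarith

theorem denA_fin (X : ℕ) : {P : HeightOneSpectrum (𝓞 M) | nrm P ≤ X}.Finite :=
  (Ideal.finite_setOfPred_absNorm_le (S := 𝓞 M) X).preimage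
    (f := HeightOneSpectrum.asIdeal) fun _ _ _ _ h => HeightOneSpectrum.ext h

theorem euler_log (χ : Ideal (𝓞 M) → ℂ) (hm : ∀ I J, χ (I * J) = χ I * χ J) (h1 : χ 1 = 1)
    (hb : ∀ I, ‖χ I‖ ≤ 1) :
    ∃ C : ℝ, ∀ s : ℝ, 1 < s →
      (∑' I : (Ideal (𝓞 M))⁰, χ I.1 * (Ideal.absNorm I.1 : ℂ) ^ (-(s : ℂ))) ≠ 0 ∧
      |Real.log ‖∑' I : (Ideal (𝓞 M))⁰, χ I.1 * (Ideal.absNorm I.1 : ℂ) ^ (-(s : ℂ))‖ -
        (∑' P : HeightOneSpectrum (𝓞 M), χ P.asIdeal * (nrm P : ℂ) ^ (-(s : ℂ))).re| ≤ C := by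
  classical
  refine ⟨∑' P : HeightOneSpectrum (𝓞 M), (nrm P : ℝ) ^ (-2 : ℝ), fun s hs => ?_⟩
  obtain ⟨f, hf⟩ : ∃ f : Ideal (𝓞 M) → ℂ,
      f = fun I => χ I * (Ideal.absNorm I : ℂ) ^ (-(s : ℂ)) := ⟨_, rfl⟩
  have hn : ∀ I : (Ideal (𝓞 M))⁰, ‖f I.1‖ ≤ (Ideal.absNorm I.1 : ℝ) ^ (-s) := fun I => by
    rw [hf, norm_mul, P319.zetaTwo_norm, Complex.ofReal_re]
    exact mul_le_of_le_one_left (by positivity) (hb _)
  have hn' : ∀ P : HeightOneSpectrum (𝓞 M), ‖f P.asIdeal‖ ≤ (nrm P : ℝ) ^ (-s) := fun P =>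
    hn ⟨P.asIdeal, mem_nonZeroDivisors_of_ne_zero P.ne_bot⟩
  have hl : ∀ P : HeightOneSpectrum (𝓞 M), 1 - f P.asIdeal ≠ 0 ∧
      ‖Complex.log (1 - f P.asIdeal) + f P.asIdeal‖ ≤ (nrm P : ℝ) ^ (-2 : ℝ) := fun P => by
    have h2 : (2 : ℝ) ≤ nrm P := by exact_mod_cast denA_two P
    refine denA_log h2 ((hn' P).trans ?_)
    rw [← Real.rpow_neg_one]
    exact Real.rpow_le_rpow_of_exponent_le (by linarith) (by linarith)
  have s2 := den_summable (M := M) one_lt_two
  have sf : Summable fun P : HeightOneSpectrum (𝓞 M) => f P.asIdeal :=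
    Summable.of_norm_bounded (den_summable hs) hn'
  have sh : Summable fun P : HeightOneSpectrum (𝓞 M) =>
      Complex.log (1 - f P.asIdeal) + f P.asIdeal := Summable.of_norm_bounded s2 fun P => (hl P).2
  have sg : Summable fun P : HeightOneSpectrum (𝓞 M) => Complex.log (1 - f P.asIdeal) :=
    (sh.sub sf).congr fun P => add_sub_cancel_right _ _
  have hT : Tendsto (fun X : ℕ => (denA_fin (M := M) X).toFinset) atTop atTop :=
    tendsto_atTop_finset_of_monotone
      (fun X Y h => Set.Finite.toFinset_subset_toFinset.2 fun P hP => le_trans hP h)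
      fun P => ⟨nrm P, (Set.Finite.mem_toFinset _).2 (le_refl (nrm P))⟩
  have t1 := P016.sieve_lim (f := f) (fun I J => by
      simp only [hf, hm, map_mul, Nat.cast_mul, Complex.natCast_mul_natCast_cpow]
      ring) (by simp only [hf, h1, map_one, Nat.cast_one, Complex.one_cpow, mul_one])
    (Summable.of_norm_bounded (P319.zeta_summable_ideal M hs) hn)
    (fun X => (denA_fin (M := M) X).toFinset.image HeightOneSpectrum.asIdeal)
    (fun X I hI => by
      obtain ⟨P, -, rfl⟩ := Finset.mem_image.1 hI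
      exact P.prime)
    (fun X I hI h => Finset.mem_image.2
      ⟨⟨I, Ideal.isPrime_of_prime hI, hI.ne_zero⟩, (Set.Finite.mem_toFinset _).2 h, rfl⟩)
  have t2 := (((Complex.continuous_exp.tendsto _).comp
    (Tendsto.comp (f := fun X : ℕ => (denA_fin (M := M) X).toFinset) sg.hasSum hT))).const_mul
      (∑' I : (Ideal (𝓞 M))⁰, f I.1)
  have e1 := tendsto_nhds_unique (t2.congr fun X => by
    rw [Function.comp_apply, Function.comp_apply, Complex.exp_sum,
      Finset.prod_image fun _ _ _ _ h => HeightOneSpectrum.ext h]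
    exact congrArg _ (Finset.prod_congr rfl fun P _ => Complex.exp_log (hl P).1)) t1
  have e2 : ∀ I, χ I * (Ideal.absNorm I : ℂ) ^ (-(s : ℂ)) = f I := fun I => by rw [hf]
  simp only [e2]
  have e0 := left_ne_zero_of_mul_eq_one e1
  refine ⟨e0, ?_⟩
  have e3 := congrArg (fun z => Real.log ‖z‖) e1
  simp only [norm_mul, norm_one, Real.log_one, Complex.norm_exp] at e3
  rw [Real.log_mul (norm_ne_zero_iff.2 e0) (Real.exp_ne_zero _), Real.log_exp] at e3
  rw [eq_neg_of_add_eq_zero_left e3, ← neg_add', abs_neg, ← Complex.add_re, ← sg.tsum_add sf]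
  exact (Complex.abs_re_le_norm _).trans (tsum_of_norm_bounded s2.hasSum fun P => (hl P).2)

theorem dens_univ : Dens (Set.univ : Set (HeightOneSpectrum (𝓞 M))) 1 := by
  obtain ⟨C, hC⟩ := euler_log (M := M) (fun _ => 1) (fun _ _ => (mul_one _).symm) rfl
    fun _ => norm_one.le
  have h1 := ((Real.continuousAt_log (norm_ne_zero_iff.2 (Complex.ofReal_ne_zero.2
    (dedekindZeta_residue_ne_zero M)))).tendsto.comp
      (tendsto_sub_one_mul_dedekindZeta_nhdsGT M).norm).abs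
  refine ⟨C + (|Real.log ‖(dedekindZeta_residue M : ℂ)‖| + 1), ?_⟩
  filter_upwards [h1.eventually (eventually_le_nhds (lt_add_one _)), self_mem_nhdsWithin]
    with s h2 hs
  have hs' : 1 < s := hs
  obtain ⟨h3, h4⟩ := hC s hs'
  simp only [one_mul] at h3 h4
  rw [← P319.dedekindZeta_eq_tsum (F := M) (s := s) (by simpa using hs')] at h3 h4
  have h5 : (∑' P : HeightOneSpectrum (𝓞 M), (nrm P : ℂ) ^ (-(s : ℂ))).re =
      NumberField.Set.primeIdealZetaSum (Set.univ : Set (HeightOneSpectrum (𝓞 M))) s := by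
    rw [zsum_eq, Set.indicator_univ, ← Complex.ofReal_re (tsum _), Complex.ofReal_tsum]
    congr 1
    exact tsum_congr fun P => by
      rw [Complex.ofReal_cpow (Nat.cast_nonneg _), Complex.ofReal_natCast, Complex.ofReal_neg]
  have h6 : ‖(s : ℂ) - 1‖ = s - 1 := by
    rw [← Complex.ofReal_one, ← Complex.ofReal_sub, Complex.norm_real, Real.norm_of_nonneg]
    linarith
  rw [Function.comp_apply, norm_mul, h6, Real.log_mul (by linarith) (norm_ne_zero_iff.2 h3)] at h2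
  rw [h5] at h4
  rw [one_mul, one_div, Real.log_inv]
  rw [abs_le] at h2 h4 ⊢
  constructor <;> linarith [h2.1, h2.2, h4.1, h4.2]

theorem denA_zero {C : ℝ} (h : ∀ s : ℝ, 1 < s → NumberField.Set.primeIdealZetaSum S s ≤ C) :
    Dens S 0 := by
  refine ⟨C, ?_⟩
  filter_upwards [self_mem_nhdsWithin] with s hs
  rw [zero_mul, sub_zero, abs_of_nonneg (NumberField.Set.primeIdealZetaSum_nonneg _ _)]
  exact h s hs

theorem dens_finite (h : S.Finite) : Dens S 0 :=
  denA_zero fun _ hs => NumberField.Set.primeIdealZetaSum_le_card_of_finite h (by linarith)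

theorem denA_card {p : ℕ} (hp : p.Prime) (U : Finset (HeightOneSpectrum (𝓞 M)))
    (h : ∀ P ∈ U, (p : 𝓞 M) ∈ P.asIdeal) : U.card ≤ Module.finrank ℚ M := by
  have hp' : Prime (p : ℤ) := Nat.prime_iff_prime_int.1 hp
  have hmax : (Ideal.span {(p : ℤ)}).IsMaximal :=
    PrincipalIdealRing.isMaximal_of_irreducible hp'.irreducible
  have hne : Ideal.span {(p : ℤ)} ≠ ⊥ := by
    rw [Ne, Ideal.span_singleton_eq_bot]
    exact hp'.ne_zero
  refine le_trans (Finset.card_le_card_of_injOn HeightOneSpectrum.asIdeal (fun P hP => ?_)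
    fun _ _ _ _ h => HeightOneSpectrum.ext h) (Ideal.card_primesOverFinset_le_finrank (𝓞 M) ℚ M hne)
  rw [Finset.mem_coe, IsDedekindDomain.mem_primesOverFinset_iff hne]
  refine ⟨P.isPrime, (Ideal.liesOver_span_iff P.isPrime.ne_top hp').2 ?_⟩
  simpa using h P hP

theorem dens_deg : Dens {P : HeightOneSpectrum (𝓞 M) | ¬(nrm P).Prime} 0 := by
  classical
  choose π hπ using exists_prime_mem (M := M)
  have s2 : Summable fun m : ℕ => (m : ℝ) ^ (-2 : ℝ) := Real.summable_nat_rpow.2 (by norm_num)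
  refine denA_zero (C := Module.finrank ℚ M * ∑' m : ℕ, (m : ℝ) ^ (-2 : ℝ)) fun s hs => ?_
  rw [zsum_eq]
  refine tsum_le_of_sum_le' (mul_nonneg (Nat.cast_nonneg _) (tsum_nonneg fun _ => by positivity))
    fun U => ?_
  have h1 : ∀ P ∈ U, Set.indicator {P : HeightOneSpectrum (𝓞 M) | ¬(nrm P).Prime}
      (fun P => (nrm P : ℝ) ^ (-s)) P ≤ (π P : ℝ) ^ (-2 : ℝ) := fun P _ => by
    refine Set.indicator_apply_le' (fun hP => ?_) fun _ => by positivity
    obtain ⟨f, hf, -, h2⟩ := nrm_eq_pow (hπ P).1 (hπ P).2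
    have h3 : 2 ≤ f := by
      by_contra h3
      rw [show f = 1 by omega, pow_one] at h2
      exact hP (h2 ▸ (hπ P).1)
    have h4 : (2 : ℝ) ≤ f := by exact_mod_cast h3
    rw [h2, Nat.cast_pow, ← Real.rpow_natCast, ← Real.rpow_mul (Nat.cast_nonneg _)]
    exact Real.rpow_le_rpow_of_exponent_le (by exact_mod_cast (hπ P).1.one_le) (by nlinarith)
  refine (Finset.sum_le_sum h1).trans ?_
  rw [Finset.sum_comp (fun m : ℕ => (m : ℝ) ^ (-2 : ℝ)) π]
  refine le_trans ?_ (mul_le_mul_of_nonneg_left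
    (s2.sum_le_tsum (U.image π) fun _ _ => by positivity) (Nat.cast_nonneg _))
  rw [Finset.mul_sum]
  refine Finset.sum_le_sum fun m hm => ?_
  rw [nsmul_eq_mul]
  refine mul_le_mul_of_nonneg_right (Nat.cast_le.2 ?_) (by positivity)
  obtain ⟨P0, -, rfl⟩ := Finset.mem_image.1 hm
  exact denA_card (hπ P0).1 _ fun P hP => (Finset.mem_filter.1 hP).2 ▸ (hπ P).2

theorem denA_split {s : ℝ} (hs : 1 < s) (h : S ⊆ T) :
    NumberField.Set.primeIdealZetaSum T s =
      NumberField.Set.primeIdealZetaSum S s + NumberField.Set.primeIdealZetaSum (T \ S) s := by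
  rw [zsum_eq, zsum_eq, zsum_eq, ← ((den_summable hs).indicator _).tsum_add
    ((den_summable hs).indicator _)]
  refine tsum_congr fun P => ?_
  rw [← Set.indicator_union_of_notMem_inter (by simp), Set.union_sdiff_cancel h]

theorem denA_mono {s : ℝ} (hs : 1 < s) (h : S ⊆ T) :
    NumberField.Set.primeIdealZetaSum S s ≤ NumberField.Set.primeIdealZetaSum T s := by
  rw [denA_split hs h]
  exact le_add_of_nonneg_right (NumberField.Set.primeIdealZetaSum_nonneg _ _)

theorem denA_top : Tendsto (fun s : ℝ => Real.log (1 / (s - 1))) (𝓝[>] 1) atTop := by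
  have h1 : Tendsto (fun s : ℝ => s - 1) (𝓝[>] 1) (𝓝[>] 0) := by
    refine tendsto_nhdsWithin_iff.2 ⟨?_, ?_⟩
    · have h2 : Tendsto (fun s : ℝ => s - 1) (𝓝 1) (𝓝 (1 - 1)) := tendsto_id.sub_const 1
      rw [sub_self] at h2
      exact h2.mono_left nhdsWithin_le_nhds
    · filter_upwards [self_mem_nhdsWithin] with s hs
      exact sub_pos.2 (show 1 < s from hs)
  simp only [one_div]
  exact Real.tendsto_log_atTop.comp (tendsto_inv_nhdsGT_zero.comp h1)

theorem Dens.le (hS : Dens S a) (hT : Dens T b) (h : S ⊆ T) : a ≤ b := by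
  obtain ⟨C, hC⟩ := hS
  obtain ⟨D, hD⟩ := hT
  by_contra hab
  have h1 := (denA_top.const_mul_atTop (sub_pos.2 (not_le.1 hab))).eventually_gt_atTop (C + D)
  obtain ⟨s, ⟨⟨h2, h3⟩, h4⟩, hs⟩ := (((hC.and hD).and h1).and self_mem_nhdsWithin).exists
  have h5 := denA_mono hs h
  rw [abs_le] at h2 h3
  linarith [h2.1, h3.2]

theorem Dens.unique (h : Dens S a) (h' : Dens S b) : a = b :=
  le_antisymm (h.le h' subset_rfl) (h'.le h subset_rfl)

theorem Dens.diff (hS : Dens S a) (hT : Dens T b) (h : S ⊆ T) : Dens (T \ S) (b - a) := by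
  obtain ⟨C, hC⟩ := hS
  obtain ⟨D, hD⟩ := hT
  refine ⟨C + D, ?_⟩
  filter_upwards [hC, hD, self_mem_nhdsWithin] with s h1 h2 hs
  have h3 := denA_split hs h
  rw [abs_le] at h1 h2 ⊢
  constructor <;> linarith [h1.1, h1.2, h2.1, h2.2]

theorem denA_add (hS : Dens S a) (hT : Dens (T \ S) b) (h : S ⊆ T) : Dens T (a + b) := by
  obtain ⟨C, hC⟩ := hS
  obtain ⟨D, hD⟩ := hT
  refine ⟨C + D, ?_⟩
  filter_upwards [hC, hD, self_mem_nhdsWithin] with s h1 h2 hs
  have h3 := denA_split hs h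
  rw [abs_le] at h1 h2 ⊢
  constructor <;> linarith [h1.1, h1.2, h2.1, h2.2]

theorem Dens.subset_zero (hT : Dens T 0) (h : S ⊆ T) : Dens S 0 := by
  obtain ⟨C, hC⟩ := hT
  refine ⟨C, ?_⟩
  filter_upwards [hC, self_mem_nhdsWithin] with s h1 hs
  rw [zero_mul, sub_zero, abs_of_nonneg (NumberField.Set.primeIdealZetaSum_nonneg _ _)] at h1 ⊢
  exact (denA_mono hs h).trans h1

theorem Dens.union_zero (hS : Dens S 0) (hT : Dens T 0) : Dens (S ∪ T) 0 := by
  have h := denA_add hS (hT.subset_zero (S := (S ∪ T) \ S) fun _ h => h.1.resolve_left h.2)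
    Set.subset_union_left
  rwa [add_zero] at h

theorem Dens.congr_zero (hS : Dens S a) {Z : Set (HeightOneSpectrum (𝓞 M))} (hZ : Dens Z 0)
    (h : ∀ P, P ∉ Z → (P ∈ S ↔ P ∈ T)) : Dens T a := by
  have h1 := (hZ.subset_zero (S := S ∩ Z) Set.inter_subset_right).diff hS Set.inter_subset_left
  have h2 : S \ (S ∩ Z) = T \ (T ∩ Z) := by
    rw [Set.sdiff_self_inter, Set.sdiff_self_inter]
    exact Set.ext fun P => and_congr_left (h P)
  rw [h2, sub_zero] at h1
  have h3 := denA_add (hZ.subset_zero (S := T ∩ Z) Set.inter_subset_right) h1 Set.inter_subset_left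
  rwa [zero_add] at h3

theorem Dens.infinite (hS : Dens S a) (ha : 0 < a) :
    {p : ℕ | p.Prime ∧ ∃ P ∈ S, nrm P = p}.Infinite := by
  intro hf
  obtain ⟨X, hX⟩ := hf.bddAbove
  refine absurd (hS.le ((dens_finite (denA_fin X)).union_zero dens_deg) fun P hP => ?_)
    (not_le.2 ha)
  by_cases h : (nrm P).Prime
  · exact Or.inl (hX ⟨h, P, hP, rfl⟩)
  · exact Or.inr h

theorem Dens.of_fibre {M' : Type} [Field M'] [NumberField M'] {S' : Set (HeightOneSpectrum (𝓞 M'))}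
    (π : HeightOneSpectrum (𝓞 M') → HeightOneSpectrum (𝓞 M)) {n : ℕ} (hn : 0 < n)
    (h1 : ∀ P' ∈ S', π P' ∈ S ∧ nrm P' = nrm (π P'))
    (h2 : ∀ P ∈ S, {P' | P' ∈ S' ∧ π P' = P}.ncard = n) (h : Dens S' a) : Dens S (a / n) := by
  obtain ⟨C, hC⟩ := h
  have hn' : (0 : ℝ) < n := Nat.cast_pos.2 hn
  refine ⟨C / n, ?_⟩
  filter_upwards [hC, self_mem_nhdsWithin] with s h3 hs
  have h4 : NumberField.Set.primeIdealZetaSum S' s = n * NumberField.Set.primeIdealZetaSum S s := by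
    rw [zsum_eq, zsum_eq, ← tsum_mul_left,
      ← (((den_summable (M := M') hs).indicator S').hasSum.tsum_fiberwise π).tsum_eq]
    refine tsum_congr fun P => ?_
    have h5 : π ⁻¹' {P} ∩ S' = {P' | P' ∈ S' ∧ π P' = P} := Set.ext fun _ => and_comm
    rw [tsum_subtype (π ⁻¹' {P}) (S'.indicator fun P => (nrm P : ℝ) ^ (-s)),
      Set.indicator_indicator, h5, ← tsum_subtype,
      tsum_congr (g := fun _ => (nrm P : ℝ) ^ (-s)) fun P' => by rw [(h1 _ P'.2.1).2, P'.2.2],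
      tsum_const, nsmul_eq_mul, Nat.card_coe_set_eq]
    by_cases hP : P ∈ S
    · rw [h2 P hP, Set.indicator_of_mem hP]
    · rw [Set.indicator_of_notMem hP, mul_zero, Set.eq_empty_of_forall_notMem
        (s := {P' | P' ∈ S' ∧ π P' = P}) fun P' h => hP (h.2 ▸ (h1 _ h.1).1), Set.ncard_empty,
        Nat.cast_zero, zero_mul]
  rw [le_div_iff₀ hn', ← abs_of_pos hn', ← abs_mul, abs_of_pos hn']
  refine le_of_eq_of_le (congrArg _ ?_) h3
  rw [h4]
  field_simp

end Vale.Agent.P024
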