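import Vale.Agent.P024.DenC1
import Vale.Agent.P024.DenA

/-! # P024 DenC (TASK; helper lemma names start with `denC_` or are private)
Primes in a ray class subgroup of odd index.  PLAN.  `Q = Dv ⧸ H` is finite of odd order `N`.  For `ψ : AddChar Q ℂ` let `χ_ψ I = if IsCoprime I (M0) then ψ (dvI I) else 0` (multiplicative, also at `⊥`; norm `≤ 1`), `F ψ s = re ∑' P, χ_ψ P * nrm P ^ (-s)`.
Orthogonality (`AddChar.sum_apply_eq_ite`): `∑ ψ, F ψ s = N * zsum S0 s ≥ 0`, `S0` = primes prime to `M0` with class in `H`.  `F 1 s = log (1/(s-1)) + O(1)` (`dens_univ`, `dens_finite`); for `ψ ≠ 1`, `F ψ s = log ‖Lf ψ s‖ + O(1) ≤ O(1)` (`euler_log`, `exists_Lf`).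
If `Lf ψ 1 = 0` then `‖Lf ψ s‖ ≤ C (s-1)`, so `F ψ s ≤ -log (1/(s-1)) + O(1)`; `F ψ⁻¹ = F ψ` (complex conjugates) and `ψ⁻¹ ≠ ψ` since `N` is odd; the total would tend to `-∞`.  So all `Lf ψ 1 ≠ 0` and `F ψ = O(1)`. -/

namespace Vale.Agent.P024

open NumberField IsDedekindDomain Filter
open scoped Pointwise Topology

set_option linter.unusedSectionVars false

theorem denC_log : Tendsto (fun s : ℝ => Real.log (1 / (s - 1))) (𝓝[>] 1) atTop := by
  refine Real.tendsto_log_atTop.comp ?_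
  simp only [one_div]
  refine tendsto_inv_nhdsGT_zero.comp ?_
  refine tendsto_nhdsWithin_iff.2 ⟨?_, ?_⟩
  · have : Tendsto (fun s : ℝ => s - 1) (𝓝 1) (𝓝 (1 - 1)) := tendsto_id.sub_const 1
    rw [sub_self] at this
    exact this.mono_left nhdsWithin_le_nhds
  · filter_upwards [self_mem_nhdsWithin] with s hs
    exact Set.mem_Ioi.2 (sub_pos.2 (Set.mem_Ioi.1 hs))

theorem denC_core {ι : Type*} [Fintype ι] {f : Filter ℝ} [f.NeBot] {L : ℝ → ℝ}
    (hL : Tendsto L f atTop) (e : ι) (F : ι → ℝ → ℝ) (h0 : ∀ᶠ s in f, 0 ≤ ∑ i, F i s)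
    (h1 : ∃ C, ∀ᶠ s in f, |F e s - L s| ≤ C)
    (h2 : ∀ i, i ≠ e → (∃ C, ∀ᶠ s in f, |F i s| ≤ C) ∨ (∃ C, ∀ᶠ s in f, F i s ≤ C - L s))
    (h3 : ∀ i, i ≠ e → ∃ j, j ≠ e ∧ j ≠ i ∧ F j = F i) :
    ∃ C, ∀ᶠ s in f, |∑ i, F i s - L s| ≤ C := by
  classical
  have hb : ∀ i, i ≠ e → ∃ C, ∀ᶠ s in f, |F i s| ≤ C := by
    intro i hi
    rcases h2 i hi with h | ⟨C, hC⟩
    · exact h
    exfalso
    obtain ⟨j, hje, hji, hF⟩ := h3 i hi
    have hup : ∀ k, ∃ c : ℝ, ∀ᶠ s in f, F k s ≤ c + ((if k = e then (1 : ℝ) else 0) -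
        (if k = i then (1 : ℝ) else 0) - (if k = j then (1 : ℝ) else 0)) * L s := by
      intro k
      by_cases hk : k = e
      · subst hk
        obtain ⟨c, hc⟩ := h1
        refine ⟨c, hc.mono fun s hs => ?_⟩
        rw [if_pos rfl, if_neg hi.symm, if_neg hje.symm]
        linarith [(abs_le.1 hs).2]
      by_cases hki : k = i
      · subst hki
        refine ⟨C, hC.mono fun s hs => ?_⟩
        rw [if_neg hk, if_pos rfl, if_neg hji.symm]
        linarith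
      by_cases hkj : k = j
      · subst hkj
        refine ⟨C, hC.mono fun s hs => ?_⟩
        rw [if_neg hk, if_neg hki, if_pos rfl, hF]
        linarith
      rw [if_neg hk, if_neg hki, if_neg hkj]
      rcases h2 k hk with ⟨c, hc⟩ | ⟨c, hc⟩
      · refine ⟨c, hc.mono fun s hs => ?_⟩
        linarith [(abs_le.1 hs).2]
      · refine ⟨c, ?_⟩
        filter_upwards [hc, hL.eventually_ge_atTop 0] with s hs hs'
        linarith
    choose c hc using hup
    obtain ⟨s, hs1, hs2, hs3⟩ :=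
      ((eventually_all.2 hc).and (h0.and (hL.eventually_gt_atTop (∑ k, c k)))).exists
    have := Finset.sum_le_sum fun k (_ : k ∈ Finset.univ) => hs1 k
    rw [Finset.sum_add_distrib, ← Finset.sum_mul, Finset.sum_sub_distrib, Finset.sum_sub_distrib]
      at this
    simp only [Finset.sum_ite_eq', Finset.mem_univ, if_true] at this
    linarith
  have hall : ∀ k, ∃ c : ℝ, ∀ᶠ s in f, |F k s - (if k = e then (1 : ℝ) else 0) * L s| ≤ c := by
    intro k
    by_cases hk : k = e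
    · subst hk
      simpa using h1
    · simpa [hk] using hb k hk
  choose c hc using hall
  refine ⟨∑ k, c k, (eventually_all.2 hc).mono fun s hs => ?_⟩
  have e1 : ∑ i, F i s - L s = ∑ k, (F k s - (if k = e then (1 : ℝ) else 0) * L s) := by
    rw [Finset.sum_sub_distrib, ← Finset.sum_mul]
    simp only [Finset.sum_ite_eq', Finset.mem_univ, if_true, one_mul]
  rw [e1]
  exact (Finset.abs_sum_le_sum_abs _ _).trans (Finset.sum_le_sum fun k _ => hs k)

theorem denC_alt {Lf : ℂ → ℂ} (hd : DifferentiableAt ℂ Lf 1) {G : ℝ → ℝ} {C : ℝ}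
    (h : ∀ s : ℝ, 1 < s → Lf s ≠ 0 ∧ |Real.log ‖Lf s‖ - G s| ≤ C) :
    (∃ C, ∀ᶠ s in 𝓝[>] (1 : ℝ), |G s| ≤ C) ∨
      (∃ C, ∀ᶠ s in 𝓝[>] (1 : ℝ), G s ≤ C - Real.log (1 / (s - 1))) := by
  have ht : Tendsto (fun s : ℝ => (s : ℂ)) (𝓝[>] 1) (𝓝 1) := by
    have : Tendsto (fun s : ℝ => (s : ℂ)) (𝓝 1) (𝓝 ((1 : ℝ) : ℂ)) :=
      Complex.continuous_ofReal.tendsto 1
    rw [Complex.ofReal_one] at this
    exact this.mono_left nhdsWithin_le_nhds
  by_cases h1 : Lf 1 = 0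
  · right
    obtain ⟨c, hc0, hc⟩ := hd.isBigO_sub.exists_pos
    refine ⟨Real.log c + C, ?_⟩
    filter_upwards [ht.eventually hc.bound, self_mem_nhdsWithin] with s hs hs1
    have hs1' : 0 < s - 1 := sub_pos.2 hs1
    obtain ⟨h2, h3⟩ := h s hs1
    rw [h1, sub_zero] at hs
    have e1 : ‖(s : ℂ) - 1‖ = s - 1 := by
      rw [← Complex.ofReal_one, ← Complex.ofReal_sub, Complex.norm_real, Real.norm_eq_abs,
        abs_of_pos hs1']
    rw [e1] at hs
    have h4 := Real.log_le_log (norm_pos_iff.2 h2) hs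
    rw [Real.log_mul hc0.ne' hs1'.ne'] at h4
    rw [one_div, Real.log_inv]
    linarith [(abs_le.1 h3).1]
  · left
    have h2 : Tendsto (fun s : ℝ => Real.log ‖Lf s‖) (𝓝[>] 1) (𝓝 (Real.log ‖Lf 1‖)) :=
      ((hd.continuousAt.tendsto.comp ht).norm).log (norm_ne_zero_iff.2 h1)
    refine ⟨|Real.log ‖Lf 1‖| + 1 + C, ?_⟩
    filter_upwards [(Metric.tendsto_nhds.1 h2) 1 one_pos, self_mem_nhdsWithin] with s hs hs1
    obtain ⟨-, h3⟩ := h s hs1
    rw [Real.dist_eq] at hs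
    have h5 := abs_lt.1 hs
    have h6 := abs_le.1 h3
    have h7 := le_abs_self (Real.log ‖Lf 1‖)
    have h8 := neg_abs_le (Real.log ‖Lf 1‖)
    rw [abs_le]
    constructor <;> linarith [h5.1, h5.2, h6.1, h6.2]

section chars

open scoped Classical nonZeroDivisors

variable {K : Type} [Field K] [NumberField K] {l : ℕ} [Fact l.Prime]

/-- the character extended by zero -/
noncomputable def denC_X (M0 : ℕ) (χ : AddChar (Dv K l) ℂ) (I : Ideal (𝓞 K)) : ℂ :=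
  if IsCoprime I (Ideal.span {(M0 : 𝓞 K)}) then χ (dvI l I) else 0

theorem denC_ne_bot {M0 : ℕ} (hl : l ∣ M0) {I : Ideal (𝓞 K)}
    (h : IsCoprime I (Ideal.span {(M0 : 𝓞 K)})) : I ≠ ⊥ := by
  rintro rfl
  rw [Ideal.isCoprime_iff_sup_eq, bot_sup_eq] at h
  obtain ⟨P, hP⟩ := exists_over K (Fact.out : l.Prime)
  obtain ⟨c, rfl⟩ := hl
  refine P.isPrime.ne_top (top_le_iff.1 (h ▸ ?_))
  rw [Ideal.span_singleton_le_iff_mem, Nat.cast_mul]
  exact P.asIdeal.mul_mem_right _ hP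

theorem denC_X_mul {M0 : ℕ} (hl : l ∣ M0) (χ : AddChar (Dv K l) ℂ) (I J : Ideal (𝓞 K)) :
    denC_X M0 χ (I * J) = denC_X M0 χ I * denC_X M0 χ J := by
  unfold denC_X
  by_cases hI : IsCoprime I (Ideal.span {(M0 : 𝓞 K)})
  · by_cases hJ : IsCoprime J (Ideal.span {(M0 : 𝓞 K)})
    · rw [if_pos hI, if_pos hJ, if_pos (hI.mul_left hJ),
        dvI_mul (denC_ne_bot hl hI) (denC_ne_bot hl hJ), AddChar.map_add_eq_mul]
    · rw [if_neg hJ, if_neg fun h => hJ h.of_mul_left_right, mul_zero]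
  · rw [if_neg hI, if_neg fun h => hI h.of_mul_left_left, zero_mul]

theorem denC_X_one (M0 : ℕ) (χ : AddChar (Dv K l) ℂ) : denC_X M0 χ 1 = 1 := by
  unfold denC_X
  rw [if_pos isCoprime_one_left, Ideal.one_eq_top, dvI_top, AddChar.map_zero_eq_one]

theorem denC_X_norm (M0 : ℕ) {χ : AddChar (Dv K l) ℂ} (h : ∀ D, ‖χ D‖ ≤ 1) (I : Ideal (𝓞 K)) :
    ‖denC_X M0 χ I‖ ≤ 1 := by
  unfold denC_X
  split_ifs
  · exact h _
  · simp

/-- the real part of the prime sum -/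
noncomputable def denC_F (M0 : ℕ) (χ : AddChar (Dv K l) ℂ) (s : ℝ) : ℝ :=
  ∑' P : HeightOneSpectrum (𝓞 K), (denC_X M0 χ P.asIdeal).re * (nrm P : ℝ) ^ (-s)

theorem denC_sum (M0 : ℕ) {χ : AddChar (Dv K l) ℂ} (h : ∀ D, ‖χ D‖ ≤ 1) {s : ℝ} (hs : 1 < s) :
    Summable fun P : HeightOneSpectrum (𝓞 K) =>
      (denC_X M0 χ P.asIdeal).re * (nrm P : ℝ) ^ (-s) := by
  refine Summable.of_norm_bounded (den_summable hs) fun P => ?_
  have h0 : 0 ≤ (nrm P : ℝ) ^ (-s) := Real.rpow_nonneg (Nat.cast_nonneg _) _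
  rw [norm_mul, Real.norm_of_nonneg h0]
  exact mul_le_of_le_one_left h0
    ((Complex.abs_re_le_norm _).trans (denC_X_norm M0 h _))

theorem denC_re (M0 : ℕ) {χ : AddChar (Dv K l) ℂ} (h : ∀ D, ‖χ D‖ ≤ 1) {s : ℝ} (hs : 1 < s) :
    (∑' P : HeightOneSpectrum (𝓞 K), denC_X M0 χ P.asIdeal * (nrm P : ℂ) ^ (-(s : ℂ))).re =
      denC_F M0 χ s := by
  have e1 : ∀ P : HeightOneSpectrum (𝓞 K),
      (nrm P : ℂ) ^ (-(s : ℂ)) = (((nrm P : ℝ) ^ (-s) : ℝ) : ℂ) := by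
    intro P
    rw [Complex.ofReal_cpow (Nat.cast_nonneg _), Complex.ofReal_neg, Complex.ofReal_natCast]
  simp only [e1]
  rw [Complex.re_tsum]
  · unfold denC_F
    simp only [Complex.re_mul_ofReal]
  · refine Summable.of_norm_bounded (den_summable hs) fun P => ?_
    have h0 : 0 ≤ (nrm P : ℝ) ^ (-s) := Real.rpow_nonneg (Nat.cast_nonneg _) _
    rw [norm_mul, Complex.norm_real, Real.norm_of_nonneg h0]
    exact mul_le_of_le_one_left h0 (denC_X_norm M0 h _)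

theorem denC_cop {M0 : ℕ} {P : HeightOneSpectrum (𝓞 K)} (h : (M0 : 𝓞 K) ∉ P.asIdeal) :
    IsCoprime P.asIdeal (Ideal.span {(M0 : 𝓞 K)}) := by
  rw [Ideal.isCoprime_iff_sup_eq]
  refine P.isMaximal.out.2 _ (lt_of_le_of_ne le_sup_left fun e => h ?_)
  rw [e]
  exact Ideal.mem_sup_right (Ideal.mem_span_singleton_self _)

theorem denC_one {M0 : ℕ} (h0 : M0 ≠ 0) : ∃ C, ∀ᶠ s in 𝓝[>] (1 : ℝ),
    |denC_F M0 (1 : AddChar (Dv K l) ℂ) s - Real.log (1 / (s - 1))| ≤ C := by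
  have h1 : Dens {P : HeightOneSpectrum (𝓞 K) | IsCoprime P.asIdeal (Ideal.span {(M0 : 𝓞 K)})} 1 :=
    dens_univ.congr_zero (dens_finite (finite_over h0)) fun P hP =>
      ⟨fun _ => denC_cop hP, fun _ => Set.mem_univ _⟩
  obtain ⟨C, hC⟩ := h1
  refine ⟨C, hC.mono fun s hs => ?_⟩
  rw [zsum_eq, one_mul] at hs
  have e1 : denC_F M0 (1 : AddChar (Dv K l) ℂ) s = ∑' P : HeightOneSpectrum (𝓞 K),
      {P : HeightOneSpectrum (𝓞 K) | IsCoprime P.asIdeal (Ideal.span {(M0 : 𝓞 K)})}.indicator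
        (fun P => (nrm P : ℝ) ^ (-s)) P := by
    refine tsum_congr fun P => ?_
    unfold denC_X
    by_cases hP : IsCoprime P.asIdeal (Ideal.span {(M0 : 𝓞 K)})
    · rw [if_pos hP, Set.indicator_of_mem (by exact hP), AddChar.one_apply, Complex.one_re, one_mul]
    · rw [if_neg hP, Set.indicator_of_notMem (by exact hP), Complex.zero_re, zero_mul]
  rwa [e1]

theorem denC_orth (M0 : ℕ) (H : AddSubgroup (Dv K l)) [Fintype (Dv K l ⧸ H)] {s : ℝ} (hs : 1 < s) :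
    ∑ ψ : AddChar (Dv K l ⧸ H) ℂ, denC_F M0 (ψ.compAddMonoidHom (QuotientAddGroup.mk' H)) s =
      (H.index : ℝ) * NumberField.Set.primeIdealZetaSum
        {P : HeightOneSpectrum (𝓞 K) | IsCoprime P.asIdeal (Ideal.span {(M0 : 𝓞 K)}) ∧
          dvI l P.asIdeal ∈ H} s := by
  unfold denC_F
  rw [← Summable.tsum_finsetSum fun ψ _ => denC_sum M0 (fun D => by simp) hs, zsum_eq,
    ← tsum_mul_left]
  refine tsum_congr fun P => ?_
  rw [← Finset.sum_mul, ← Complex.re_sum]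
  unfold denC_X
  by_cases hP : IsCoprime P.asIdeal (Ideal.span {(M0 : 𝓞 K)})
  · simp only [if_pos hP, AddChar.compAddMonoidHom_apply]
    rw [AddChar.sum_apply_eq_ite, QuotientAddGroup.mk'_apply]
    by_cases hH : dvI l P.asIdeal ∈ H
    · rw [if_pos ((QuotientAddGroup.eq_zero_iff _).2 hH), Set.indicator_of_mem (by exact ⟨hP, hH⟩),
        Complex.natCast_re, AddSubgroup.index_eq_card, Nat.card_eq_fintype_card]
    · rw [if_neg fun h => hH ((QuotientAddGroup.eq_zero_iff _).1 h),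
        Set.indicator_of_notMem (by exact fun h => hH h.2), Complex.zero_re, zero_mul, mul_zero]
  · simp only [if_neg hP, Finset.sum_const_zero]
    rw [Set.indicator_of_notMem (by exact fun h => hP h.1), Complex.zero_re, zero_mul, mul_zero]

theorem denC_inv (M0 : ℕ) (H : AddSubgroup (Dv K l)) [Fintype (Dv K l ⧸ H)]
    (ψ : AddChar (Dv K l ⧸ H) ℂ) :
    denC_F M0 (ψ⁻¹.compAddMonoidHom (QuotientAddGroup.mk' H)) =
      denC_F M0 (ψ.compAddMonoidHom (QuotientAddGroup.mk' H)) := by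
  funext s
  refine tsum_congr fun P => ?_
  unfold denC_X
  split_ifs
  · rw [AddChar.compAddMonoidHom_apply, AddChar.compAddMonoidHom_apply, AddChar.inv_apply,
      AddChar.map_neg_eq_conj, Complex.conj_re]
  · rfl

theorem denC_odd {Q : Type*} [AddCommGroup Q] [Fintype Q] (ho : Odd (Fintype.card Q))
    {ψ : AddChar Q ℂ} (h : ψ⁻¹ = ψ) : ψ = 1 := by
  obtain ⟨k, hk⟩ := ho
  have h2 : ψ ^ 2 = 1 := by
    rw [pow_two]
    nth_rewrite 1 [← h]
    exact inv_mul_cancel ψ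
  have h3 : ψ ^ Fintype.card Q = 1 := by
    ext a
    rw [AddChar.pow_apply, ← AddChar.map_nsmul_eq_pow, card_nsmul_eq_zero, AddChar.map_zero_eq_one,
      AddChar.one_apply]
  rwa [hk, pow_succ, pow_mul, h2, one_pow, one_mul] at h3

end chars

theorem dens_ray {K : Type} [Field K] [NumberField K] (hw : ∃ w : K, w ^ 2 + w + 1 = 0) {l : ℕ}
    [Fact l.Prime] {H : AddSubgroup (Dv K l)} {m : ℕ} (hm : 0 < m) (hH : Pm K l m ≤ H)
    (ho : Odd H.index) :
    Dens {P : HeightOneSpectrum (𝓞 K) | ∃ h : (l : 𝓞 K) ∉ P.asIdeal,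
      Finsupp.single (⟨P, h⟩ : Pr K l) (1 : ℤ) ∈ H} (1 / (H.index : ℝ)) := by
  classical
  have hN : H.index ≠ 0 := fun e => by simp [e] at ho
  have : Finite (Dv K l ⧸ H) := Nat.finite_of_card_ne_zero hN
  let _ : Fintype (Dv K l ⧸ H) := Fintype.ofFinite _
  have ho' : Odd (Fintype.card (Dv K l ⧸ H)) := by
    rwa [← Nat.card_eq_fintype_card, ← AddSubgroup.index_eq_card]
  obtain ⟨M0, h0, hl, hL⟩ := exists_Lf K hw l hm
  have hNp : (0 : ℝ) < H.index := Nat.cast_pos.2 (Nat.pos_of_ne_zero hN)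
  obtain ⟨C, hC⟩ := denC_core denC_log (1 : AddChar (Dv K l ⧸ H) ℂ)
    (fun ψ => denC_F M0 (ψ.compAddMonoidHom (QuotientAddGroup.mk' H)))
    (by
      filter_upwards [self_mem_nhdsWithin] with s hs
      rw [denC_orth M0 H hs, zsum_eq]
      exact mul_nonneg hNp.le (tsum_nonneg fun P =>
        Set.indicator_nonneg (fun _ _ => Real.rpow_nonneg (Nat.cast_nonneg _) _) _))
    (denC_one h0)
    (by
      intro ψ hψ
      obtain ⟨Lf, hd, hLf⟩ := hL (ψ.compAddMonoidHom (QuotientAddGroup.mk' H))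
        (fun D hD => by
          rw [AddChar.compAddMonoidHom_apply, QuotientAddGroup.mk'_apply,
            (QuotientAddGroup.eq_zero_iff _).2 (hH hD), AddChar.map_zero_eq_one])
        (fun e => hψ (AddChar.compAddMonoidHom_injective_left _
          (QuotientAddGroup.mk'_surjective H) e))
      have hn : ∀ D, ‖ψ.compAddMonoidHom (QuotientAddGroup.mk' H) D‖ ≤ 1 := fun D => by simp
      obtain ⟨C, hC⟩ := euler_log (denC_X M0 (ψ.compAddMonoidHom (QuotientAddGroup.mk' H)))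
        (denC_X_mul hl _) (denC_X_one M0 _) (denC_X_norm M0 hn)
      refine denC_alt hd (C := C) fun s hs => ?_
      rw [hLf s (by simpa using hs), ← denC_re M0 hn hs]
      exact hC s hs)
    (fun ψ hψ => ⟨ψ⁻¹, inv_ne_one.2 hψ, fun e => hψ (denC_odd ho' e), denC_inv M0 H ψ⟩)
  have h1 : Dens {P : HeightOneSpectrum (𝓞 K) | IsCoprime P.asIdeal (Ideal.span {(M0 : 𝓞 K)}) ∧
      dvI l P.asIdeal ∈ H} (1 / (H.index : ℝ)) := by
    refine ⟨C / H.index, ?_⟩
    filter_upwards [hC, self_mem_nhdsWithin] with s hs hs1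
    rw [denC_orth M0 H hs1] at hs
    rw [le_div_iff₀ hNp, ← abs_of_pos hNp, ← abs_mul, abs_of_pos hNp]
    refine le_of_eq_of_le ?_ hs
    congr 1
    field_simp
  refine h1.congr_zero (dens_finite (finite_over h0)) fun P hP => ?_
  have hP' : (l : 𝓞 K) ∉ P.asIdeal := fun h => hP (by
    obtain ⟨c, rfl⟩ := hl
    show ((l * c : ℕ) : 𝓞 K) ∈ P.asIdeal
    rw [Nat.cast_mul]
    exact P.asIdeal.mul_mem_right _ h)
  have e1 := dvI_prime (⟨P, hP'⟩ : Pr K l)
  constructor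
  · rintro ⟨-, h⟩
    exact ⟨hP', e1 ▸ h⟩
  · rintro ⟨h, h'⟩
    exact ⟨denC_cop hP, e1 ▸ h'⟩

end Vale.Agent.P024
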