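import Vale.Agent.P024.DenB
import Vale.Agent.P024.DenC
import Vale.Agent.P024.Herb

/-! # P024 CgA (TASK; helper lemma names start with `cgA_` or are private)
Class groups.  PLAN.  Write `SH H` for the set of primes in `dens_ray`.  `Spl U N` minus the finitely many primes above `l` lies in `SH H`.  `cg_of_le`: `1/n ≤ 1/index` (`Dens.le`, `Dens.congr_zero`).  `cg_of_iff`: `Dens.unique`.
`CG.inf`: `SH H_i \ Spl` has density zero (`Dens.diff`), `Spl U (N1 ⊓ N2) = Spl U N1 ∩ Spl U N2`, so `SH (H1 ⊓ H2)` and `Spl U (N1 ⊓ N2)` differ by density zero; the index of `H1 ⊓ H2` divides the product of the indices (`AddSubgroup.index_inf_dvd`-type: the quotient embeds in the product), so it is odd.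
`CG.unique`: `H ⊓ H'` has the same index as `H` and `H'`.  `CG.map`: `dvMap_dv`, `cg_map`, `lies_prMap`, `Lies.smul`, `DD_conj`; conjugation preserves the relative index.
`exists_cg`: `N = ker c`, `tow_spec`; `g = res g1` with `c g1 = 1` generates; `hu` from `ordP_eq_of_unram`; `herb`; the quotient has exponent dividing `l^k`, so the index is odd (Cauchy: `exists_prime_addOrderOf_dvd_card`). -/

namespace Vale.Agent.P024

open NumberField IsDedekindDomain Filter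
open scoped Pointwise Topology

set_option linter.unusedSectionVars false

/-- `U` fixes a primitive cube root of unity -/
def FixW (U : OpenSubgroup G1) : Prop := ∃ w : Qb, w ^ 2 + w + 1 = 0 ∧ ∀ g ∈ U, g w = w

/-- the automorphism of the fixed field induced by an element of the normaliser -/
noncomputable def resEq (g : G1) (U : OpenSubgroup G1) (h : ∀ u ∈ U, g⁻¹ * u * g ∈ U)
    (h' : ∀ u ∈ U, g * u * g⁻¹ ∈ U) : Fx U ≃+* Fx U :=
  RingEquiv.ofRingHom (resE g U U h) (resE g⁻¹ U U (by simpa using h'))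
    (RingHom.ext fun x => Subtype.ext (by
      change g (g⁻¹ (x : Qb)) = x
      rw [← AlgEquiv.mul_apply, mul_inv_cancel, AlgEquiv.one_apply]))
    (RingHom.ext fun x => Subtype.ext (by
      change g⁻¹ (g (x : Qb)) = x
      rw [← AlgEquiv.mul_apply, inv_mul_cancel, AlgEquiv.one_apply]))

theorem coe_resEq (g : G1) (U : OpenSubgroup G1) (h : ∀ u ∈ U, g⁻¹ * u * g ∈ U)
    (h' : ∀ u ∈ U, g * u * g⁻¹ ∈ U) (x : Fx U) : (resEq g U h h' x : Qb) = g x := rfl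

variable {l : ℕ} [Fact l.Prime] {U N N' : OpenSubgroup G1} {H H' : AddSubgroup (Dv (Fx U) l)}

/-- the primes whose class lies in `H` -/
def cgA_SH (H : AddSubgroup (Dv (Fx U) l)) : Set (HeightOneSpectrum (𝓞 (Fx U))) :=
  {P | ∃ h : (l : 𝓞 (Fx U)) ∉ P.asIdeal, Finsupp.single (⟨P, h⟩ : Pr (Fx U) l) (1 : ℤ) ∈ H}

theorem cgA_ray (hw : FixW U) (ray : ∃ m, 0 < m ∧ Pm (Fx U) l m ≤ H) (ho : Odd H.index) :
    Dens (cgA_SH H) (1 / (H.index : ℝ)) := by
  obtain ⟨w, hw, hU⟩ := hw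
  obtain ⟨m, hm, hH⟩ := ray
  exact dens_ray ⟨⟨w, mem_Fx.2 hU⟩, Subtype.ext hw⟩ hm hH ho

theorem cgA_Z (U : OpenSubgroup G1) (l : ℕ) [Fact l.Prime] :
    Dens {P : HeightOneSpectrum (𝓞 (Fx U)) | (l : 𝓞 (Fx U)) ∈ P.asIdeal} 0 :=
  dens_finite (finite_over (Fact.out : l.Prime).ne_zero)

theorem cgA_spl (l : ℕ) [Fact l.Prime] (h : N ≤ U) (hn : NormIn N U) :
    Dens {P | P ∈ Spl U N ∧ (l : 𝓞 (Fx U)) ∉ P.asIdeal}
      (1 / (N.toSubgroup.relIndex U.toSubgroup : ℝ)) :=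
  (dens_spl h hn).congr_zero (cgA_Z U l) fun _ hP => ⟨fun a => ⟨a, hP⟩, fun a => a.1⟩

theorem cgA_sub (spl : ∀ P : Pr (Fx U) l, P.1 ∈ Spl U N → Finsupp.single P 1 ∈ H) :
    {P | P ∈ Spl U N ∧ (l : 𝓞 (Fx U)) ∉ P.asIdeal} ⊆ cgA_SH H :=
  fun P hP => ⟨hP.2, spl ⟨P, hP.2⟩ hP.1⟩

theorem cgA_ne (h : N ≤ U) : N.toSubgroup.relIndex U.toSubgroup ≠ 0 := by
  intro e
  have h1 := Subgroup.relIndex_mul_index (H := N.toSubgroup) (K := U.toSubgroup) h
  rw [e, zero_mul, ← finrank_Fx_rat] at h1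
  exact absurd h1 (Module.finrank_pos (R := ℚ) (M := Fx N)).ne

theorem cgA_idx {a b : ℕ} (h : 1 / (a : ℝ) = 1 / (b : ℝ)) : a = b := by
  rw [one_div, one_div, inv_inj] at h
  exact_mod_cast h

theorem cgA_diff (hw : FixW U) (c : CG l U N H) (h : N ≤ U) (hn : NormIn N U) (ho : Odd H.index) :
    Dens (cgA_SH H \ {P | P ∈ Spl U N ∧ (l : 𝓞 (Fx U)) ∉ P.asIdeal}) 0 := by
  have := (cgA_spl l h hn).diff (cgA_ray hw c.ray ho) (cgA_sub c.spl)
  rwa [c.idx, sub_self] at this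

theorem cgA_odd {X : Type*} [AddCommGroup X] {H : AddSubgroup X} {n : ℕ} (hn : Odd n)
    (h0 : H.index ≠ 0) (h : ∀ D, n • D ∈ H) : Odd H.index := by
  rw [← Nat.not_even_iff_odd, even_iff_two_dvd]
  intro h2
  have : Finite (X ⧸ H) := Nat.finite_of_card_ne_zero h0
  obtain ⟨x, hx⟩ := exists_prime_addOrderOf_dvd_card' (G := X ⧸ H) 2 h2
  obtain ⟨D, rfl⟩ := QuotientAddGroup.mk_surjective x
  have h3 : n • (D : X ⧸ H) = 0 := by
    rw [← QuotientAddGroup.mk_nsmul, QuotientAddGroup.eq_zero_iff]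
    exact h D
  have h4 := addOrderOf_dvd_of_nsmul_eq_zero h3
  rw [hx] at h4
  exact (Nat.not_even_iff_odd.2 hn) (even_iff_two_dvd.2 h4)

theorem cg_of_le (hw : FixW U) (h : N ≤ U) (hn : NormIn N U) (ray : ∃ m, 0 < m ∧ Pm (Fx U) l m ≤ H)
    (spl : ∀ P : Pr (Fx U) l, P.1 ∈ Spl U N → Finsupp.single P 1 ∈ H) (ho : Odd H.index)
    (hle : N.toSubgroup.relIndex U.toSubgroup ≤ H.index) : CG l U N H := by
  refine ⟨ray, spl, le_antisymm ?_ hle⟩
  have h1 := (cgA_spl l h hn).le (cgA_ray hw ray ho) (cgA_sub spl)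
  have h2 : (0 : ℝ) < N.toSubgroup.relIndex U.toSubgroup :=
    Nat.cast_pos.2 (Nat.pos_of_ne_zero (cgA_ne h))
  have h3 : (0 : ℝ) < H.index := Nat.cast_pos.2 ho.pos
  exact_mod_cast (one_div_le_one_div h2 h3).1 h1

theorem cg_of_iff (hw : FixW U) (h : N ≤ U) (hn : NormIn N U) (ray : ∃ m, 0 < m ∧ Pm (Fx U) l m ≤ H)
    (spl : ∀ P : Pr (Fx U) l, P.1 ∈ Spl U N ↔ Finsupp.single P 1 ∈ H) (ho : Odd H.index) :
    CG l U N H := by
  refine ⟨ray, fun P hP => (spl P).1 hP, cgA_idx ((cgA_ray hw ray ho).unique ?_)⟩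
  exact (dens_spl h hn).congr_zero (cgA_Z U l) fun P hP =>
    ⟨fun a => ⟨hP, (spl ⟨P, hP⟩).1 a⟩, fun ⟨_, a⟩ => (spl ⟨P, hP⟩).2 a⟩

theorem CG.inf (hw : FixW U) (c : CG l U N H) (c' : CG l U N' H') (h : N ≤ U) (hn : NormIn N U)
    (h' : N' ≤ U) (hn' : NormIn N' U) (ho : Odd H.index) (ho' : Odd H'.index) :
    CG l U (N ⊓ N') (H ⊓ H') := by
  have ray : ∃ m, 0 < m ∧ Pm (Fx U) l m ≤ H ⊓ H' := by
    obtain ⟨m, hm, e⟩ := c.ray
    obtain ⟨m', -, e'⟩ := c'.ray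
    exact ⟨max m m', lt_max_of_lt_left hm,
      le_inf ((Pm_anti (le_max_left _ _)).trans e) ((Pm_anti (le_max_right _ _)).trans e')⟩
  have hs : ∀ P, P ∈ Spl U (N ⊓ N') ↔ P ∈ Spl U N ∧ P ∈ Spl U N' := fun P =>
    ⟨fun a => ⟨fun A hA g hg hD => (a A hA g hg hD).1, fun A hA g hg hD => (a A hA g hg hD).2⟩,
      fun a A hA g hg hD => ⟨a.1 A hA g hg hD, a.2 A hA g hg hD⟩⟩
  have hodd : Odd (H ⊓ H').index := by
    rw [← AddSubgroup.relIndex_mul_index (H := H ⊓ H') (K := H') inf_le_right,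
      AddSubgroup.inf_relIndex_right]
    exact (ho.of_dvd_nat (AddSubgroup.relIndex_dvd_index_of_normal H H')).mul ho'
  refine ⟨ray, fun P hP => ⟨c.spl P ((hs _).1 hP).1, c'.spl P ((hs _).1 hP).2⟩,
    cgA_idx ((cgA_ray hw ray hodd).unique ?_)⟩
  refine (dens_spl (inf_le_left.trans h)
    fun g hg n hN => ⟨hn g hg n hN.1, hn' g hg n hN.2⟩).congr_zero
    ((cgA_Z U l).union_zero ((cgA_diff hw c h hn ho).union_zero (cgA_diff hw c' h' hn' ho')))
    fun P hP => ?_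
  have hl : (l : 𝓞 (Fx U)) ∉ P.asIdeal := fun a => hP (Or.inl a)
  refine ⟨fun a => ⟨hl, c.spl ⟨P, hl⟩ ((hs _).1 a).1, c'.spl ⟨P, hl⟩ ((hs _).1 a).2⟩,
    fun ⟨_, a⟩ => (hs _).2 ⟨?_, ?_⟩⟩
  · by_contra b
    exact hP (Or.inr (Or.inl ⟨⟨hl, a.1⟩, fun e => b e.1⟩))
  · by_contra b
    exact hP (Or.inr (Or.inr ⟨⟨hl, a.2⟩, fun e => b e.1⟩))

theorem CG.unique (hw : FixW U) (c : CG l U N H) (c' : CG l U N H') (h : N ≤ U) (hn : NormIn N U)
    (ho : Odd H.index) : H = H' := by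
  have e : H'.index = H.index := c'.idx.trans c.idx.symm
  have h1 := (c.inf hw c' h hn h hn ho (e ▸ ho)).idx
  rw [inf_idem, ← c.idx] at h1
  have key : ∀ K : AddSubgroup (Dv (Fx U) l), H ⊓ H' ≤ K → K.index = H.index → K ≤ H ⊓ H' := by
    intro K hK hi
    have h2 := AddSubgroup.relIndex_mul_index hK
    rw [hi, h1] at h2
    exact AddSubgroup.relIndex_eq_one.1 ((Nat.mul_eq_right ho.pos.ne').1 h2)
  exact le_antisymm ((key H inf_le_left rfl).trans inf_le_right)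
    ((key H' inf_le_right e).trans inf_le_left)

theorem CG.map (c : CG l U N H) (g : G1) (h : ∀ u ∈ U, g⁻¹ * u * g ∈ U)
    (h' : ∀ u ∈ U, g * u * g⁻¹ ∈ U) (e : ∀ u, u ∈ N' ↔ g⁻¹ * u * g ∈ N) :
    CG l U N' (H.map (dvMap l (resEq g U h h')).toAddMonoidHom) := by
  refine ⟨?_, fun P hP => ?_, ?_⟩
  · obtain ⟨m, hm, hH⟩ := c.ray
    refine ⟨m, hm, (AddSubgroup.closure_le _).2 ?_⟩
    rintro _ ⟨x, hx, rfl⟩
    obtain ⟨y, rfl⟩ := (resEq g U h h').surjective x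
    refine ⟨dv l y, hH (AddSubgroup.subset_closure ⟨y, ?_, rfl⟩), dvMap_dv _ y⟩
    refine (cg_map (resEq g U h h').toRingHom).1 ?_
    rw [map_one]
    exact hx
  · obtain ⟨P0, rfl⟩ := (prMap l (resEq g U h h')).surjective P
    refine ⟨Finsupp.single P0 1, c.spl P0 fun A hA u hu hD => ?_, dvMap_single _ _ _⟩
    have h1 : Lies (g • A) (inc U) (prMap l (resEq g U h h') P0).1 :=
      (lies_prMap _ _).2 (hA.smul g fun _ => rfl)
    have h2 := (e _).1 (hP _ h1 (g * u * g⁻¹) (h' u hu) (by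
      rw [mem_DD, mul_smul, mul_smul, inv_smul_smul, mem_DD.1 hD]))
    simpa [mul_assoc] using h2
  · rw [AddSubgroup.index_map_of_bijective (dvMap l (resEq g U h h')).bijective, c.idx]
    have h1 : N'.toSubgroup = N.toSubgroup.comap (MulAut.conj g⁻¹).toMonoidHom :=
      Subgroup.ext fun u => by simpa using e u
    have h2 : U.toSubgroup.map (MulAut.conj g⁻¹).toMonoidHom = U.toSubgroup := by
      refine le_antisymm ?_ fun u hu => ⟨g * u * g⁻¹, h' u hu, by simp [mul_assoc]⟩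
      rintro _ ⟨u, hu, rfl⟩
      simpa using h u hu
    rw [h1, Subgroup.relIndex_comap, h2]

theorem exists_cg (hw : FixW U) (hl : l ≠ 2) {k : ℕ} {c : G1 → ZMod (l ^ k)} (hc : IsCh U c)
    (hs : ∀ y, ∃ g ∈ U, c g = y) (hu : Unr l U c) : ∃ H, CG l U hc.ker H := by
  have hle := hc.ker_le
  have hn := hc.normIn
  have hp : l.Prime := Fact.out
  have : NeZero (l ^ k) := ⟨pow_ne_zero _ hp.ne_zero⟩
  have hidx : hc.ker.toSubgroup.relIndex U.toSubgroup = l ^ k := by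
    rw [hc.relIndex_ker hs, Nat.card_zmod]
  have hodd : Odd (l ^ k) := (hp.odd_of_ne_two hl).pow
  let := (incl hle).toAlgebra
  obtain ⟨hG, hcard, res, -, hsurj, hmul, hone, hst⟩ := tow_spec hle hn
  have : IsTotallyComplex (Fx U) := by
    obtain ⟨w, hw, hU⟩ := hw
    have : Fact (Nat.Prime 3) := ⟨Nat.prime_three⟩
    have h3 : w ^ 3 = 1 := by linear_combination (w - 1) * hw
    have h1 : w ≠ 1 := by
      rintro rfl
      norm_num at hw
    exact isTotallyComplex_Fx (IsPrimitiveRoot.iff_orderOf.2 (orderOf_eq_prime h3 h1))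
      (by norm_num) hU
  obtain ⟨g1, hg1, hc1⟩ := hs 1
  have hpow : ∀ j : ℕ, res (g1 ^ j) = res g1 ^ j := by
    intro j
    induction j with
    | zero => rw [pow_zero, pow_zero]; exact (hone 1 U.one_mem).2 hc.ker.one_mem
    | succ j ih => rw [pow_succ, pow_succ, hmul _ (pow_mem hg1 j) _ hg1, ih]
  have hgen : ∀ σ, σ ∈ Subgroup.zpowers (res g1) := by
    intro σ
    obtain ⟨u, hu, rfl⟩ := hsurj σ
    have hj := pow_mem hg1 (c u).val
    have h1 : (g1 ^ (c u).val)⁻¹ * u ∈ U := U.mul_mem (U.inv_mem hj) hu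
    have h2 : c ((g1 ^ (c u).val)⁻¹ * u) = 0 := by
      rw [hc.add _ (U.inv_mem hj) _ hu, hc.inv hj, hc.pow hg1, hc1, nsmul_eq_mul, mul_one,
        ZMod.natCast_zmod_val, neg_add_cancel]
    have h3 := hmul _ hj _ h1
    rw [mul_inv_cancel_left, (hone _ h1).2 ⟨h1, h2⟩, mul_one, hpow] at h3
    rw [h3]
    exact pow_mem (Subgroup.mem_zpowers _) _
  obtain ⟨H, ray, hi, hex, hspl⟩ := herb (K := Fx U) (M := Fx hc.ker) l (res g1) hgen
    (hcard.trans hidx) hodd (by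
      intro P' P hP x
      obtain ⟨A, hA⟩ := exists_val (inc hc.ker) P'.1
      have hA' : Lies A (inc U) P.1 := fun a => (hP a).trans (hA _)
      obtain ⟨p, hp', hAp, hpP⟩ := hA'.exists_ov
      have hpl : p ≠ l := by
        rintro rfl
        exact P.2 hpP
      exact ordP_eq_of_unram (N := hc.ker)
        (fun g hg hI => hc.mem_ker.2 ⟨hg, hu A p hp' hpl hAp g hg hI⟩) hA' hA hle rfl)
  refine ⟨H, cg_of_le hw hle hn ray (fun P hP => ?_)
    (cgA_odd hodd (hodd.pos.trans_le hi).ne' hex) (hidx.trans_le hi)⟩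
  obtain ⟨A, hA⟩ := exists_val (inc U) P.1
  obtain ⟨p, hp', hAp, -⟩ := hA.exists_ov
  obtain ⟨P', hP'⟩ := exists_lies hAp hp' (inc hc.ker)
  refine hspl ⟨P', fun a => P.2 (hA.ov.1 (hP'.ov.2 a))⟩ P
    (fun a => (hA a).trans (hP' (algebraMap _ _ a)).symm) fun σ hσ => ?_
  obtain ⟨g, hg, hD, rfl⟩ := (hst A P' hP' σ).1 hσ
  exact (hone g hg).2 (hP A hA g hg hD)

end Vale.Agent.P024
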