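import Vale.Agent.P024.CgA
import Vale.Agent.P024.NrmD
import Vale.Agent.P024.Cyc

/-! # P024 CgB (TASK; helper lemma names start with `cgB_` or are private)
The class group of a cyclotomic character.  PLAN.  Take `j ≥ 1` and `g0 ∈ U` from `cyc_big`; the image `Z` of `U` in the cyclic group `(ZMod (l^j))ˣ` is cyclic of order divisible by `l^k`, so there is `lam : ZMod (l^j) → ZMod (l^k)`, additive on `Z` and onto; `κ g = lam (cyc (l^j) g)` (`IsCh.of_le`, `exists_cycK`, `cyc_conj`, `cyc_II`).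
`ν` from `exists_nrmD` (`isTotallyComplex_Fx` with the cube root of unity); `ν (single P 1) = nrm P = cyc (Frobenius)` (`exists_frobU`, `cyc_frob`), so all values of `ν` lie in `Z`; `H = ker (lam ∘ ν)`, its index divides `l^k`.
`P ∈ Spl ↔ κ (Frobenius) = 0` (`FrobU.ch_mul`; every `A` over `P` has a Frobenius element with the same value); `cg_of_iff`.  Invariance: `ν ∘ dvMap σ = ν` (check on `single P 1`, `nrm_prMap`, `Finsupp.induction_linear`). -/

namespace Vale.Agent.P024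

open NumberField IsDedekindDomain Filter
open scoped Pointwise Topology

set_option linter.unusedSectionVars false

theorem cgB_lam {G R : Type*} [Group G] [CommMonoid R] [Finite R] [IsCyclic Rˣ] (f : G →* R)
    (U : Subgroup G) {g0 : G} (h0 : g0 ∈ U) {n : ℕ} (hn : n ∣ orderOf (f g0)) :
    ∃ lam : R → ZMod n, (∀ g ∈ U, ∀ h ∈ U, lam (f g * f h) = lam (f g) + lam (f h)) ∧
      ∀ y, ∃ g ∈ U, lam (f g) = y := by
  classical
  have hd : n ∣ Nat.card (U.map f.toHomUnits) := by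
    refine hn.trans ?_
    rw [← MonoidHom.coe_toHomUnits, orderOf_units]
    exact Subgroup.orderOf_dvd_natCard _ ⟨g0, h0, rfl⟩
  let e := zmodCyclicMulEquiv (G := U.map f.toHomUnits) inferInstance
  let φ : U.map f.toHomUnits → ZMod n := fun z => ZMod.castHom hd (ZMod n) (e.symm z).toAdd
  let lam : R → ZMod n := fun x =>
    if h : ∃ z : U.map f.toHomUnits, ((z : Rˣ) : R) = x then φ h.choose else 0
  have key : ∀ g (hg : g ∈ U), lam (f g) = φ ⟨f.toHomUnits g, g, hg, rfl⟩ := fun g hg => by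
    have h : ∃ z : U.map f.toHomUnits, ((z : Rˣ) : R) = f g := ⟨⟨f.toHomUnits g, g, hg, rfl⟩, rfl⟩
    simp only [lam, dif_pos h]
    exact congrArg φ (Subtype.ext (Units.ext h.choose_spec))
  refine ⟨lam, fun g hg h hh => ?_, fun y => ?_⟩
  · rw [← map_mul, key g hg, key h hh, key _ (U.mul_mem hg hh)]
    simp only [φ]
    rw [← map_add, ← toAdd_mul, ← map_mul]
    exact congrArg (fun z => ZMod.castHom hd (ZMod n) (e.symm z).toAdd)
      (Subtype.ext (map_mul _ _ _))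
  · obtain ⟨x, rfl⟩ := ZMod.castHom_surjective hd y
    obtain ⟨g, hg, e'⟩ := (e (Multiplicative.ofAdd x)).2
    refine ⟨g, hg, ?_⟩
    rw [key g hg]
    have : (⟨f.toHomUnits g, g, hg, rfl⟩ : U.map f.toHomUnits) = e (Multiplicative.ofAdd x) :=
      Subtype.ext e'
    simp only [φ, this, MulEquiv.symm_apply_apply, toAdd_ofAdd]

theorem cgB_top {ι : Type*} (K : AddSubgroup (ι →₀ ℤ)) (h : ∀ P, Finsupp.single P 1 ∈ K)
    (D : ι →₀ ℤ) : D ∈ K := by
  induction D using Finsupp.induction_linear with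
  | zero => exact K.zero_mem
  | add f g hf hg => exact K.add_mem hf hg
  | single P n =>
    rw [← Finsupp.smul_single_one]
    exact K.zsmul_mem (h P) n

theorem exists_cg_cyc {l : ℕ} [Fact l.Prime] {U : OpenSubgroup G1} (hw : FixW U) (hl : l ≠ 2) (k : ℕ) :
    ∃ (κ : G1 → ZMod (l ^ k)) (hκ : IsCh U κ), (∀ y, ∃ g ∈ U, κ g = y) ∧ Unr l U κ ∧
      (∀ s u : G1, κ (s * u * s⁻¹) = κ u) ∧ ∃ H, CG l U hκ.ker H ∧
        ∀ (σ : Fx U ≃+* Fx U) (D : Dv (Fx U) l), dvMap l σ D - D ∈ H := by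
  have hp : l.Prime := Fact.out
  obtain ⟨j, hj, g0, h0, hd⟩ := cyc_big rc_Qb U hp hl k 1
  have : NeZero (l ^ j) := ⟨pow_ne_zero _ hp.ne_zero⟩
  have : NeZero (l ^ k) := ⟨pow_ne_zero _ hp.ne_zero⟩
  have : IsCyclic (ZMod (l ^ j))ˣ := ZMod.isCyclic_units_of_prime_pow l hp hl j
  obtain ⟨lam, h1, h2⟩ := cgB_lam (cyc_hom (F := ℚ) rc_Qb (l ^ j)) U.toSubgroup h0 hd
  replace h1 : ∀ g ∈ U, ∀ h ∈ U, lam (cyc (l ^ j) g * cyc (l ^ j) h) =
    lam (cyc (l ^ j) g) + lam (cyc (l ^ j) h) := h1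
  have h3 : lam 1 = 0 := by
    have := h1 1 U.one_mem 1 U.one_mem
    rw [cyc_one rc_Qb, mul_one] at this
    exact left_eq_add.1 this
  obtain ⟨W, hW⟩ := exists_cycK (F := ℚ) rc_Qb (l ^ j)
  have hκ : IsCh U fun g => lam (cyc (l ^ j) g) :=
    IsCh.of_le (fun g hg h hh => by rw [cyc_mul rc_Qb, h1 g hg h hh]) W.toOpenSubgroup
      fun g _ hg => by rw [(hW g).1 hg, h3]
  have nd : ∀ p : ℕ, p.Prime → p ≠ l → ¬p ∣ l ^ j := fun p h hne hd =>
    hne ((Nat.prime_dvd_prime_iff_eq h hp).1 (h.dvd_of_dvd_pow hd))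
  have hu : Unr l U fun g => lam (cyc (l ^ j) g) := fun A p h hne hA g _ hg => by
    beta_reduce
    rw [cyc_II rc_Qb h hA (nd p h hne) hg, h3]
  refine ⟨_, hκ, h2, hu, fun s u => by rw [cyc_conj rc_Qb], ?_⟩
  obtain ⟨w, hw1, hw2⟩ := id hw
  have w3 : IsPrimitiveRoot w 3 := by
    have : Fact (Nat.Prime 3) := ⟨Nat.prime_three⟩
    refine IsPrimitiveRoot.iff_orderOf.2 (orderOf_eq_prime ?_ ?_)
    · linear_combination (w - 1) * hw1
    · rintro rfl
      norm_num at hw1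
  have := isTotallyComplex_Fx w3 (by norm_num) hw2
  obtain ⟨ν, n1, n2, n3, n4⟩ := exists_nrmD (Fx U) l j hj
  have fr : ∀ (P : Pr (Fx U) l) (A : ValuationSubring Qb), Lies A (inc U) P.1 →
      ∃ g p, FrobU U A (nrm P.1) g ∧ p.Prime ∧ p ≠ l ∧ Ov A p ∧
        cyc (l ^ j) g = ν (Finsupp.single P 1) := fun P A hA => by
    obtain ⟨g, hg⟩ := exists_frobU hA
    obtain ⟨p, a, b, c⟩ := hA.exists_ov
    have hne : p ≠ l := fun e => P.2 (e ▸ c)
    exact ⟨g, p, hg, a, hne, b, by rw [n3, cyc_frob rc_Qb a b (nd p a hne) hg.frob]⟩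
  have hZ : ∀ D, ∃ g ∈ U, cyc (l ^ j) g = ν D := cgB_top
    { carrier := {D | ∃ g ∈ U, cyc (l ^ j) g = ν D}
      zero_mem' := ⟨1, U.one_mem, by rw [cyc_one rc_Qb, n2]⟩
      add_mem' := by
        rintro a b ⟨g, hg, e⟩ ⟨h, hh, e'⟩
        exact ⟨g * h, U.mul_mem hg hh, by rw [cyc_mul rc_Qb, n1, e, e']⟩
      neg_mem' := by
        rintro a ⟨g, hg, e⟩
        refine ⟨g⁻¹, U.inv_mem hg, ?_⟩
        rw [← mul_one (cyc _ g⁻¹), ← n2, ← add_neg_cancel a, n1, ← e, ← mul_assoc, ← cyc_mul rc_Qb,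
          inv_mul_cancel, cyc_one rc_Qb, one_mul] } fun P => by
      obtain ⟨A, hA⟩ := exists_val (inc U) P.1
      obtain ⟨g, p, hg, -, -, -, e⟩ := fr P A hA
      exact ⟨g, hg.mem, e⟩
  let φ : Dv (Fx U) l →+ ZMod (l ^ k) := AddMonoidHom.mk' (fun D => lam (ν D)) fun a b => by
    obtain ⟨g, hg, e⟩ := hZ a
    obtain ⟨h, hh, e'⟩ := hZ b
    rw [n1, ← e, ← e', h1 g hg h hh]
  have hφ : ∀ D, D ∈ φ.ker ↔ lam (ν D) = 0 := fun D => Iff.rfl
  refine ⟨φ.ker, cg_of_iff hw hκ.ker_le hκ.normIn ⟨j, hj, fun D hD => ?_⟩ (fun P => ?_) ?_,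
    fun σ D => ?_⟩
  · obtain ⟨x, hx, rfl⟩ := (mem_Pm hj).1 hD
    rw [hφ, n4 x hx, h3]
  · rw [hφ]
    refine ⟨fun h => ?_, fun h A hA u hu' hD => ⟨hu', ?_⟩⟩
    · obtain ⟨A, hA⟩ := exists_val (inc U) P.1
      obtain ⟨g, p, hg, -, -, -, e⟩ := fr P A hA
      rw [← e]
      exact (h A hA g hg.mem hg.frob.1).2
    · obtain ⟨g, p, hg, a, b, c, e⟩ := fr P A hA
      obtain ⟨i, hi⟩ := hg.ch_mul hκ (hu A p a b c) hu' hD
      beta_reduce
      rw [hi, e, h, smul_zero]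
  · refine Odd.of_dvd_nat ((hp.odd_of_ne_two hl).pow (n := k)) ?_
    rw [AddSubgroup.index_ker]
    exact (AddSubgroup.card_addSubgroup_dvd_card _).trans (by rw [Nat.card_zmod])
  · rw [AddMonoidHom.mem_ker, map_sub, sub_eq_zero]
    refine cgB_top ((φ.comp (dvMap l σ).toAddMonoidHom).eqLocus φ) (fun P => ?_) D
    show lam (ν (dvMap l σ (Finsupp.single P 1))) = lam (ν (Finsupp.single P 1))
    rw [dvMap_single, n3, n3, nrm_prMap]

end Vale.Agent.P024
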