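import Vale.Agent.P024.IdxB

/-! # P024 Chi0 (TASK; helper lemma names start with `chi0_` or are private)
The quadratic character.  PLAN.  `sg_DD_res`: `Q` under `B` (`exists_lies`), `Y` from `finiteIndex_res Q`; for `y = z² u`, `w = rt u` has `(w - 1) (w + 1) ∈ B.nonunits`, so `w' = ± w ≡ 1`; `h w' = ± w'` and `h w' ≡ 1` (`DD_nonunits`), and `2` is a unit; `sg_eq_zero_iff` with the root `z w'`.
`exists_chi0`: `Y1 = ⨅ j, Y j` has finite index.  `Z s = {x | ∀ u ∈ core V, sg (α (s u s⁻¹)) x = sg (α u) x}` is a subgroup (`sg_mul_right`, `sg_inv_right`) depending only on the coset `s V` (`u' = v u v⁻¹`, `IsCh.conj`), of infinite index for `s ∉ V`;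
the squares form a subgroup of infinite index (`exists_not_square`).  If `Y1` were covered by these finitely many subgroups, one of the `(Z).subgroupOf Y1` would have finite index (`Subgroup.exists_finiteIndex_of_leftCoset_cover` with trivial cosets), so `Z` would have finite index.  `isSquare_iff_sg`. -/

namespace Vale.Agent.P024

open NumberField IsDedekindDomain Filter
open scoped Pointwise Topology

set_option linter.unusedSectionVars false

variable {F E : Type*} [Field F] [NumberField F] [Field E] [CharZero E] [Algebra F E] [IsGalois F E]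

theorem sg_DD_res (hE : RC E) (T : OpenSubgroup Gal(E/F)) {q : ℕ} (hq : q.Prime) (h2 : q ≠ 2)
    {B : ValuationSubring E} (hB : Ov B q) :
    ∃ Y : Subgroup (Fx T)ˣ, Y.FiniteIndex ∧
      ∀ x ∈ Y, ∀ h ∈ T, h ∈ DD F B → sg h ((x : Fx T) : E) = 0 := by
  have := alg_rat F E
  obtain ⟨Q, hQ⟩ := exists_lies hB hq (inc T)
  obtain ⟨Y, hY, h⟩ := finiteIndex_res Q
  refine ⟨Y, hY, fun x hx g hg hD => ?_⟩
  obtain ⟨z, u, -, e, hu⟩ := h x hx
  have hu' : (u : E) - 1 ∈ B.nonunits := by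
    rcases eq_or_ne u 1 with rfl | h1
    · simp
    · simpa using (hQ.nonunits_iff (sub_ne_zero.2 h1)).2 (hu.resolve_left h1)
  have key : ∀ w : E, w ^ 2 = u → w - 1 ∈ B.nonunits → g w = w := fun w hw h1 => by
    refine (ch_pm hw (mem_Fx.1 u.2 g hg)).resolve_right fun a => ?_
    have h3 := (DD_nonunits hD).2 h1
    rw [map_sub, map_one, a] at h3
    have h4 := neg_mem (add_mem h1 h3)
    rw [show -(w - 1 + (-w - 1)) = ((2 : ℕ) : E) by push_cast; ring, hB.natCast_iff hq] at h4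
    exact h2 ((Nat.prime_dvd_prime_iff_eq hq Nat.prime_two).1 h4)
  have hw := rt_sq hE (u : E)
  generalize rt (u : E) = w at hw
  have h5 : g w = w := by
    by_cases h1 : w - 1 ∈ B.nonunits
    · exact key w hw h1
    have h3 : -w - 1 ∈ B.nonunits := by
      by_contra h3
      rw [ValuationSubring.mem_nonunits_iff, not_lt] at h1 h3
      rw [ValuationSubring.mem_nonunits_iff, ← hw, ← Valuation.map_neg,
        show -(w ^ 2 - 1) = (w - 1) * (-w - 1) by ring, map_mul] at hu'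
      exact hu'.not_ge (one_le_mul h1 h3)
    simpa using key (-w) (by rw [neg_sq, hw]) h3
  refine (sg_eq_zero_iff (y := (z : E) * w) (by rw [mul_pow, hw, e]; rfl)).2 ?_
  rw [map_mul, h5, mem_Fx.1 z.2 g hg]

theorem chi0_cover {G ι : Type*} [Group G] [Finite ι] (Y : Subgroup G) [hY : Y.FiniteIndex]
    (H : ι → Subgroup G) (h : ∀ i, ¬(H i).FiniteIndex) : ∃ y ∈ Y, ∀ i, y ∉ H i := by
  by_contra! hc
  have := Fintype.ofFinite ι
  obtain ⟨i, -, hi⟩ := Subgroup.exists_finiteIndex_of_leftCoset_cover (s := Finset.univ)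
    (H := fun i => (H i).subgroupOf Y) (g := fun _ => 1) (Set.eq_univ_of_forall fun y => by
      obtain ⟨i, hi⟩ := hc y y.2
      exact Set.mem_iUnion₂.2 ⟨i, Finset.mem_univ i, by rw [one_smul]; exact hi⟩)
  refine h i ⟨?_⟩
  rw [← Subgroup.relIndex_top_right]
  exact Subgroup.relIndex_ne_zero_trans hi.1 (by rw [Subgroup.relIndex_top_right]; exact hY.1)

/-- the elements whose quadratic characters agree on related pairs -/
def chi0Z (hE : RC E) (T : OpenSubgroup Gal(E/F)) (R : Gal(E/F) → Gal(E/F) → Prop) :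
    Subgroup (Fx T)ˣ where
  carrier := {x | ∀ g ∈ T, ∀ h ∈ T, R g h → sg g ((x : Fx T) : E) = sg h ((x : Fx T) : E)}
  one_mem' := fun g _ h _ _ => by
    have : ∀ k : Gal(E/F), sg k (1 : E) = 0 := fun k =>
      (sg_eq_zero_iff (one_pow 2)).2 (map_one k)
    exact (this g).trans (this h).symm
  mul_mem' := fun {a b} ha hb g hg h hh hR => by
    have a0 : ((a : Fx T) : E) ≠ 0 := fun e => a.ne_zero (Subtype.ext e)
    have b0 : ((b : Fx T) : E) ≠ 0 := fun e => b.ne_zero (Subtype.ext e)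
    have : ∀ k ∈ T, sg k (((a * b : (Fx T)ˣ) : Fx T) : E) =
        sg k ((a : Fx T) : E) + sg k ((b : Fx T) : E) := fun k hk =>
      sg_mul_right hE a0 b0 (mem_Fx.1 (a : Fx T).2 k hk) (mem_Fx.1 (b : Fx T).2 k hk)
    rw [this g hg, this h hh, ha g hg h hh hR, hb g hg h hh hR]
  inv_mem' := fun {a} ha g hg h hh hR => by
    have : (((a⁻¹ : (Fx T)ˣ) : Fx T) : E) = ((a : Fx T) : E)⁻¹ := by simp
    rw [this, sg_inv_right hE, sg_inv_right hE, ha g hg h hh hR]

theorem exists_chi0 (hE : RC E) {α : OH G1 Gal(E/F)} {T : OpenSubgroup Gal(E/F)}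
    (hT : ∀ g ∈ α.V, α.f g ∈ T)
    (hx : ∀ s, s ∉ α.V → ∀ Y : Subgroup (Fx T)ˣ,
      (∀ x ∈ Y, ∀ u ∈ core α.V,
        sg (α.f (s * u * s⁻¹)) ((x : Fx T) : E) = sg (α.f u) ((x : Fx T) : E)) → ¬Y.FiniteIndex)
    {r : ℕ} (q : Fin r → ℕ) (hq : ∀ j, (q j).Prime) (h2 : ∀ j, q j ≠ 2)
    (B : Fin r → ValuationSubring E) (hB : ∀ j, Ov (B j) (q j)) :
    ∃ η0 : Gal(E/F) → ZMod 2, IsCh T η0 ∧ (∀ j, ∀ h ∈ T, h ∈ DD F (B j) → η0 h = 0) ∧
      (∃ h ∈ T, η0 h ≠ 0) ∧
      ∀ s, s ∉ α.V → ∃ u ∈ core α.V, η0 (α.f (s * u * s⁻¹)) ≠ η0 (α.f u) := by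
  choose Y hY hY' using fun j => sg_DD_res hE T (hq j) (h2 j) (hB j)
  have := Subgroup.finiteIndex_iInf hY
  have s1 : ∀ x : E, sg (1 : Gal(E/F)) x = 0 := fun x => (sg_eq_zero_iff (rt_sq hE x)).2 rfl
  let R : G1 → Gal(E/F) → Gal(E/F) → Prop := fun s g h =>
    ∃ u ∈ core α.V, g = α.f (s * u * s⁻¹) ∧ h = α.f u
  have hZ : ∀ s x, x ∈ chi0Z hE T (R s) ↔ ∀ u ∈ core α.V,
      sg (α.f (s * u * s⁻¹)) ((x : Fx T) : E) = sg (α.f u) ((x : Fx T) : E) := fun s x =>
    ⟨fun h u hu => h _ (hT _ (mem_core.1 hu s)) _ (hT _ (core_le hu)) ⟨u, hu, rfl, rfl⟩,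
      fun h g _ k _ ⟨u, hu, e, e'⟩ => e ▸ e' ▸ h u hu⟩
  obtain ⟨x, hx1, hx2⟩ := chi0_cover (⨅ j, Y j)
    (fun i : Option {c : G1 ⧸ α.V.toSubgroup // c.out ∉ α.V} =>
      chi0Z hE T (i.elim (fun _ h => h = 1) fun c => R c.1.out)) (by
      rintro (_ | c) h
      · obtain ⟨y, hy, h1⟩ := @exists_not_square _ _ _ (chi0Z hE T fun _ h => h = 1) h
        exact h1 ((isSquare_iff_sg hE _).2 fun g hg => (hy g hg 1 T.one_mem rfl).trans (s1 _))
      · exact hx _ c.2 _ (fun x => (hZ _ x).1) h)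
  have hc := isCh_sg hE (mem_Fx.1 (x : Fx T).2)
  refine ⟨_, hc, fun j => hY' j x (Subgroup.mem_iInf.1 hx1 j), ?_, fun s hs => ?_⟩
  · by_contra! h
    exact hx2 none fun g hg k _ e => by rw [show k = 1 from e, s1, h g hg]
  · by_contra! h
    obtain ⟨v, hv⟩ := QuotientGroup.mk_out_eq_mul α.V.toSubgroup s
    refine hx2 (some ⟨s, fun e => hs ?_⟩) ((hZ _ x).2 fun u hu => ?_)
    · rw [hv] at e
      simpa using α.V.mul_mem e (α.V.inv_mem v.2)
    · have h1 := h _ ((core α.V).isNormal'.conj_mem u hu v)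
      have h3 := (IsCh.pre α hc).conj (g := v) (u := u) ⟨v.2, hT _ v.2⟩
        ⟨core_le hu, hT _ (core_le hu)⟩
      have h4 : s * v * u * (s * v)⁻¹ = s * (v * u * (v : G1)⁻¹) * s⁻¹ := by
        simp only [mul_inv_rev, mul_assoc]
      rw [hv, h4, h1, h3]

end Vale.Agent.P024
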