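import Vale.Agent.P024.DenA
import Vale.Agent.P024.Tow
import Vale.Agent.P024.PrC
import Vale.Agent.P024.PrD

/-! # P024 DenB (TASK; helper lemma names start with `denB_` or are private)
The density of split primes and the Frobenius density theorem.  PLAN.  `dens_spl`: `π P'` = the prime of `Fx U` below the prime `P'` of `Fx N` (`exists_val`, `exists_lies`, independent of the choices by `Lies.comap`), `S' = {P' | π P' ∈ Spl U N}`.
`S'` has density one: if `nrm P' = p` is prime and `p` is outside `finite_ram N`, take `A` over `P'`, `g` from `exists_frobU` for `N`, `frobU_of_prime` for `U` and `FrobU.gen`: `U ⊓ DD A ≤ N`; other `A'` over `π P'` are conjugate under `U` (`trans_U`, `DD_conj`, `hn`).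
For `P ∈ Spl`: the fibre is an orbit of `Gal(Fx N / Fx U)` with trivial stabiliser (`tow_spec`, `trans_U`, `Lies.smul`), or `g ↦` prime of `g • A` induces a bijection from `U ⧸ N`; the norms agree because the Frobenius element of `U` lies in `N`, so every residue of `Fx N` satisfies `x ^ nrm P ≡ x`
(a finite field in which `x^N = x` has at most `N` elements; the residue field of `P` embeds).  `Dens.of_fibre`.  `fd`: the complement of `Spl` has positive density.  `fd0`: `dens_univ`.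
`split_DD`: `frobU_of_prime` with `U = ⊤`, `trans_rat`.  `split_emb`: a Frobenius element for `U = ⊤` fixes the image of `τ` (its norm is `p`: `nrm_eq_pow`, `finrank_Fx_rat`); `ordP_eq_one_of_II`: `val_lemma` for `U = ⊤` and a uniformiser; elements of `Fx ⊤` are rational. -/

namespace Vale.Agent.P024

open NumberField IsDedekindDomain Filter
open scoped Pointwise Topology

set_option linter.unusedSectionVars false

theorem denB_pos (U N : OpenSubgroup G1) : 0 < N.toSubgroup.relIndex U.toSubgroup := by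
  have : N.toSubgroup.FiniteIndex := Subgroup.finiteIndex_of_finite_quotient
  exact Nat.pos_of_ne_zero Subgroup.FiniteIndex.index_ne_zero

theorem denB_gen {U N : OpenSubgroup G1} (h : N ≤ U) {A : ValuationSubring Qb} {p : ℕ}
    (hp : p.Prime) (hA : Ov A p) {g : G1} (hg : g ∈ N) (hf : IsFrob A p g)
    (hI : ∀ u ∈ II ℚ A, u ∈ N) : ∀ u ∈ U, u ∈ DD ℚ A → u ∈ N := fun u hu hD => by
  obtain ⟨j, hj⟩ := (frobU_of_prime hp hA (h hg) hf).gen (N' := N.toSubgroup)
    ⟨N, fun _ _ _ k => k⟩ (fun u _ k => hI u k) hu hD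
  have := N.toSubgroup.mul_mem (N.toSubgroup.pow_mem hg j) hj
  rwa [mul_inv_cancel_left] at this

theorem denB_spl {U N : OpenSubgroup G1} (hn : NormIn N U) {A : ValuationSubring Qb}
    {P : HeightOneSpectrum (𝓞 (Fx U))} (hA : Lies A (inc U) P)
    (h : ∀ u ∈ U, u ∈ DD ℚ A → u ∈ N) : P ∈ Spl U N := fun A' hA' g hg hD => by
  obtain ⟨s, hs, rfl⟩ := trans_U hA hA'
  have e : g = s * (s⁻¹ * g * s) * s⁻¹ := by group
  rw [e] at hD ⊢
  exact hn s hs _ (h _ (U.mul_mem (U.mul_mem (U.inv_mem hs) hg) hs) ((DD_conj s).1 hD))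

theorem denB_smul {U : OpenSubgroup G1} {A : ValuationSubring Qb}
    {P : HeightOneSpectrum (𝓞 (Fx U))} (hA : Lies A (inc U) P) {g : G1} (hg : g ∈ U) :
    Lies (g • A) (inc U) P :=
  hA.smul g fun x => (mem_Fx.1 x.2 g hg).symm

theorem denB_pi {U N : OpenSubgroup G1} (h : N ≤ U) :
    ∃ π : HeightOneSpectrum (𝓞 (Fx N)) → HeightOneSpectrum (𝓞 (Fx U)),
      ∀ P' A, Lies A (inc N) P' → Lies A (inc U) (π P') := by
  have : ∀ P' : HeightOneSpectrum (𝓞 (Fx N)), ∃ P : HeightOneSpectrum (𝓞 (Fx U)),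
      ∀ A, Lies A (inc N) P' → Lies A (inc U) P := fun P' => by
    obtain ⟨A0, h0⟩ := exists_val (inc N) P'
    obtain ⟨p, hp, hO, -⟩ := h0.exists_ov
    obtain ⟨P, hP⟩ := exists_lies hO hp (inc U)
    refine ⟨P, fun A hA => ?_⟩
    obtain ⟨s, hs, rfl⟩ := trans_U h0 hA
    exact denB_smul hP (h hs)
  exact Classical.skolem.1 this

theorem denB_fibre {U N : OpenSubgroup G1} (h : N ≤ U) (hn : NormIn N U)
    {π : HeightOneSpectrum (𝓞 (Fx N)) → HeightOneSpectrum (𝓞 (Fx U))}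
    (hπ : ∀ P' A, Lies A (inc N) P' → Lies A (inc U) (π P'))
    {P : HeightOneSpectrum (𝓞 (Fx U))} (hP : P ∈ Spl U N) :
    {P' | π P' = P}.ncard = N.toSubgroup.relIndex U.toSubgroup := by
  obtain ⟨A, hA⟩ := exists_val (inc U) P
  obtain ⟨p, hp, hO, -⟩ := hA.exists_ov
  choose f hf using fun g : U.toSubgroup => exists_lies (hO.smul (g : G1)) hp (inc N)
  have e1 : {P' | π P' = P} = Set.range f := by
    ext P'
    refine ⟨fun k => ?_, ?_⟩
    · obtain ⟨A', hA'⟩ := exists_val (inc N) P'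
      obtain ⟨s, hs, rfl⟩ := trans_U hA ((show π P' = P from k) ▸ hπ P' A' hA')
      exact ⟨⟨s, hs⟩, (hf ⟨s, hs⟩).unique hA'⟩
    · rintro ⟨g, rfl⟩
      exact (hπ _ _ (hf g)).unique (denB_smul hA g.2)
  have e2 : Setoid.ker f = QuotientGroup.leftRel (N.toSubgroup.subgroupOf U.toSubgroup) := by
    ext g g'
    rw [QuotientGroup.leftRel_apply, Subgroup.mem_subgroupOf, Setoid.ker_def]
    refine ⟨fun k => ?_, fun k => ?_⟩
    · obtain ⟨s, hs, e⟩ := trans_U (hf g') (k ▸ hf g)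
      have k1 : (g : G1)⁻¹ * s * g' ∈ N := hP A hA _
        (U.mul_mem (U.mul_mem (U.inv_mem g.2) (h hs)) g'.2)
        (by rw [mem_DD, mul_smul, mul_smul, e, inv_smul_smul])
      have k2 := N.mul_mem (N.inv_mem (hn _ (U.inv_mem g.2) s hs)) k1
      have e3 : ((g : G1)⁻¹ * s * (g : G1)⁻¹⁻¹)⁻¹ * ((g : G1)⁻¹ * s * g') = (g : G1)⁻¹ * g' := by
        group
      rw [e3] at k2
      exact k2
    · have k1 := denB_smul (hf g) (hn g g.2 _ k)
      rw [← mul_smul] at k1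
      have e3 : (g : G1) * ((g⁻¹ * g' : U.toSubgroup) : G1) * (g : G1)⁻¹ * g = g' := by
        rw [Subgroup.coe_mul, Subgroup.coe_inv]
        group
      rw [e3] at k1
      exact k1.unique (hf g')
  rw [e1, ← Nat.card_coe_set_eq, ← Nat.card_congr (Setoid.quotientKerEquivRange f), e2]
  rfl

theorem dens_spl {U N : OpenSubgroup G1} (h : N ≤ U) (hn : NormIn N U) :
    Dens (Spl U N) (1 / (N.toSubgroup.relIndex U.toSubgroup : ℝ)) := by
  obtain ⟨π, hπ⟩ := denB_pi h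
  have hn0 : 0 < N.toSubgroup.relIndex U.toSubgroup := denB_pos U N
  have hZ : Dens ({P' : HeightOneSpectrum (𝓞 (Fx N)) | ¬(nrm P').Prime} ∪
      ⋃ p ∈ {p : ℕ | p.Prime ∧ ∃ A : ValuationSubring Qb, Ov A p ∧ ∃ g ∈ II ℚ A, g ∉ N},
        {P' | (p : 𝓞 (Fx N)) ∈ P'.asIdeal}) 0 :=
    dens_deg.union_zero (dens_finite ((finite_ram N).biUnion fun p hp => finite_over hp.1.ne_zero))
  have h1 : Dens {P' | π P' ∈ Spl U N ∧ (nrm (π P')).Prime} 1 := by
    refine dens_univ.congr_zero hZ fun P' hP' => ⟨fun _ => ?_, fun _ => trivial⟩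
    simp only [Set.mem_union, Set.mem_iUnion, Set.mem_ofPred_eq, not_or, not_not, not_exists] at hP'
    obtain ⟨hp, hr⟩ := hP'
    obtain ⟨A, hA⟩ := exists_val (inc N) P'
    have hm := mem_of_nrm_prime (P := P') rfl
    have hO := hA.ov.2 hm
    obtain ⟨g, hg⟩ := exists_frobU hA
    refine ⟨denB_spl hn (hπ P' A hA) (denB_gen h hp hO hg.mem hg.frob fun u hu => ?_), ?_⟩
    · by_contra hu'
      exact hr _ ⟨hp, A, hO, u, hu, hu'⟩ hm
    · rw [(hπ P' A hA).nrm_eq hp hO fun a => hA.pow_nrm (x := incl h a)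
        (((hπ P' A hA).mem_iff _).2 (ordP_nonneg _ a))]
      exact hp
  have h2 : Dens {P | P ∈ Spl U N ∧ (nrm P).Prime} (1 / N.toSubgroup.relIndex U.toSubgroup) := by
    refine Dens.of_fibre π hn0 (fun P' hP' => ⟨hP', ?_⟩) (fun P hP => ?_) h1
    · obtain ⟨A, hA⟩ := exists_val (inc N) P'
      have hO := (hπ P' A hA).ov.2 (mem_of_nrm_prime rfl)
      obtain ⟨g, hg⟩ := exists_frobU (hπ P' A hA)
      refine hA.nrm_eq hP'.2 hO fun a => ?_
      have k := hg.frob.2 _ ((hA.mem_iff _).2 (ordP_nonneg _ a))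
      rw [show g (inc N a) = inc N a from
        mem_Fx.1 (a : Fx N).2 g (hP'.1 A (hπ P' A hA) g hg.mem hg.frob.1)] at k
      simpa using neg_mem k
    · rw [← denB_fibre h hn hπ hP.1]
      congr 1
      ext P'
      refine ⟨fun k => k.2, fun k => ⟨?_, k⟩⟩
      obtain rfl : π P' = P := k
      exact hP
  exact h2.congr_zero dens_deg fun P hP => ⟨fun k => k.1, fun k => ⟨k, not_not.1 hP⟩⟩

theorem fd {U N : OpenSubgroup G1} (h : N ≤ U) (hn : NormIn N U) (hne : ∃ g ∈ U, g ∉ N) :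
    {p : ℕ | p.Prime ∧ ∃ (A : ValuationSubring Qb) (g : G1), Ov A p ∧ g ∈ U ∧ g ∉ N ∧
      IsFrob A p g}.Infinite := by
  have h1 : (1 : ℝ) < N.toSubgroup.relIndex U.toSubgroup := by
    obtain ⟨g, hg, hg'⟩ := hne
    have k1 := denB_pos U N
    have k2 : N.toSubgroup.relIndex U.toSubgroup ≠ 1 := fun e =>
      hg' (Subgroup.relIndex_eq_one.1 e hg)
    exact_mod_cast (by omega : 1 < N.toSubgroup.relIndex U.toSubgroup)
  have h2 := ((dens_spl h hn).diff dens_univ (Set.subset_univ _)).infinite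
    (sub_pos.2 ((div_lt_one (by linarith)).2 h1))
  refine (h2.sdiff (finite_ram N)).mono ?_
  rintro p ⟨⟨hp, P, ⟨-, hP⟩, rfl⟩, hr⟩
  obtain ⟨A, hA⟩ := exists_val (inc U) P
  have hO := hA.ov.2 (mem_of_nrm_prime rfl)
  obtain ⟨g, hg⟩ := exists_frobU hA
  refine ⟨hp, A, g, hO, hg.mem, fun k => hP (denB_spl hn hA
    (denB_gen h hp hO k hg.frob fun u hu => ?_)), hg.frob⟩
  by_contra hu'
  exact hr ⟨hp, A, hO, u, hu, hu'⟩

theorem fd0 (U : OpenSubgroup G1) :
    {p : ℕ | p.Prime ∧ ∃ (A : ValuationSubring Qb) (g : G1), Ov A p ∧ g ∈ U ∧ IsFrob A p g}.Infinite := by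
  refine ((dens_univ (M := Fx U)).infinite one_pos).mono ?_
  rintro p ⟨hp, P, -, rfl⟩
  obtain ⟨A, hA⟩ := exists_val (inc U) P
  obtain ⟨g, hg⟩ := exists_frobU hA
  exact ⟨hp, A, g, hA.ov.2 (mem_of_nrm_prime rfl), hg.mem, hg.frob⟩

theorem split_DD (W : OpenNormalSubgroup G1) {A : ValuationSubring Qb} {p : ℕ} (hp : p.Prime)
    (hA : Ov A p) {g : G1} (hg : g ∈ W) (h : IsFrob A p g) (hI : ∀ u ∈ II ℚ A, u ∈ W)
    {A' : ValuationSubring Qb} (hA' : Ov A' p) : ∀ u ∈ DD ℚ A', u ∈ W := by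
  intro u hu
  obtain ⟨s, rfl⟩ := trans_rat hp hA hA'
  have e : u = s * (s⁻¹ * u * s) * s⁻¹ := by group
  rw [e] at hu ⊢
  exact W.isNormal'.conj_mem _ (denB_gen (U := ⊤) (N := W.toOpenSubgroup) le_top hp hA hg h hI _
    trivial ((DD_conj s).1 hu)) s

variable {M : Type*} [Field M] [NumberField M]

theorem ordP_eq_one_of_II {A : ValuationSubring Qb} {p : ℕ} (hp : p.Prime) (hA : Ov A p)
    {τ : M →+* Qb} {P : HeightOneSpectrum (𝓞 M)} (h : Lies A τ P)
    (hI : ∀ u ∈ II ℚ A, ∀ x, u (τ x) = τ x) : ordP P (p : M) = 1 := by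
  have hp0 : (p : M) ≠ 0 := Nat.cast_ne_zero.2 hp.ne_zero
  have h1 : ∀ n : ℕ, ordP P (p : M) ∣ ordP P (n : M) := fun n => by
    rcases eq_or_ne n 0 with rfl | hn
    · rw [Nat.cast_zero, ordP_zero]
      exact dvd_zero _
    obtain ⟨k, m, hm, rfl⟩ := Nat.exists_eq_pow_mul_and_not_dvd hn p hp.ne_one
    have m0 : (m : M) ≠ 0 := Nat.cast_ne_zero.2 (right_ne_zero_of_mul hn)
    have k1 : ordP P (m : M) = 0 := (h.val_eq_one m0).1 (by
      rw [map_natCast]
      exact uq_val_one.2 ⟨natCast_mem A m, fun k => hm ((hA.natCast_iff hp m).1 k)⟩)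
    rw [Nat.cast_mul, Nat.cast_pow, ordP_mul P (pow_ne_zero _ hp0) m0, ordP_pow, k1, add_zero]
    exact dvd_mul_left _ _
  have h2 : ∀ n : ℤ, ordP P (p : M) ∣ ordP P (n : M) := fun n => by
    obtain ⟨m, rfl | rfl⟩ := n.eq_nat_or_neg
    · rw [Int.cast_natCast]
      exact h1 m
    · rw [Int.cast_neg, Int.cast_natCast, ordP_neg]
      exact h1 m
  obtain ⟨π, π0, hπ⟩ := exists_unif P
  have π1 : (π : M) ≠ 0 := RingOfIntegers.coe_ne_zero_iff.2 π0
  obtain ⟨x, x0, hx⟩ := val_lemma (U := (⊤ : OpenSubgroup G1)) hp hA ((map_ne_zero τ).2 π1)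
    fun g _ hg => hI g hg _
  obtain ⟨q, hq⟩ := (InfiniteGalois.mem_range_algebraMap_iff_fixed (k := ℚ) (x : Qb)).2
    fun g => mem_Fx.1 x.2 g trivial
  have q0 : q ≠ 0 := fun e => x0 (Subtype.ext (by rw [← hq, e, map_zero]; rfl))
  have k1 : ordP P (q : M) = 1 := by
    rw [← hπ]
    refine (h.val_eq_iff (Rat.cast_ne_zero.2 q0) π1).1 ?_
    rw [← hx, ← hq, map_ratCast]
    rfl
  rw [Rat.cast_def, ordP_div P (Int.cast_ne_zero.2 (Rat.num_ne_zero.2 q0))
    (Nat.cast_ne_zero.2 q.den_ne_zero)] at k1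
  have k2 : 0 < ordP P (p : M) := (h.nonunits_iff hp0).1 (by rw [map_natCast]; exact hA)
  exact Int.eq_one_of_dvd_one k2.le (k1 ▸ dvd_sub (h2 _) (h1 _))

theorem split_emb {A : ValuationSubring Qb} {p : ℕ} (hp : p.Prime) (hA : Ov A p)
    {τ : M →+* Qb} {P : HeightOneSpectrum (𝓞 M)} (h : Lies A τ P)
    (hD : ∀ u ∈ DD ℚ A, ∀ x, u (τ x) = τ x) : nrm P = p ∧ ordP P (p : M) = 1 := by
  refine ⟨?_, ordP_eq_one_of_II hp hA h fun u hu => hD u hu.1⟩
  obtain ⟨P0, h0⟩ := exists_lies hA hp (inc (⊤ : OpenSubgroup G1))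
  obtain ⟨g, hg⟩ := exists_frobU h0
  obtain ⟨f, f0, f1, e⟩ := nrm_eq_pow hp (h0.ov.1 hA)
  rw [finrank_Fx_rat, OpenSubgroup.toSubgroup_top, Subgroup.index_top] at f1
  rw [e, show f = 1 by omega, pow_one] at hg
  refine h.nrm_eq hp hA fun a => ?_
  have k := hg.frob.2 _ ((h.mem_iff _).2 (ordP_nonneg _ a))
  rw [hD g hg.frob.1] at k
  simpa using neg_mem k

theorem exists_split (M : Type*) [Field M] [NumberField M] :
    {p : ℕ | p.Prime ∧ ∀ P : HeightOneSpectrum (𝓞 M), (p : 𝓞 M) ∈ P.asIdeal →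
      nrm P = p ∧ ordP P (p : M) = 1}.Infinite := by
  obtain ⟨W, hW⟩ := exists_fix_emb M
  refine ((fd0 W.toOpenSubgroup).sdiff (finite_ram W.toOpenSubgroup)).mono ?_
  rintro p ⟨⟨hp, A, g, hA, hg, hf⟩, hr⟩
  refine ⟨hp, fun P hP => ?_⟩
  obtain ⟨τ, hτ⟩ := exists_emb_lies hp hA hP
  refine split_emb hp hA hτ fun u hu => hW u (split_DD W hp hA hg hf (fun v hv => ?_) hA u hu) τ
  by_contra hv'
  exact hr ⟨hp, A, hA, v, hv, hv'⟩

end Vale.Agent.P024
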