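import Vale.Agent.P024.Vg
import Vale.Agent.P024.DenB

/-! # P024 CovA (TASK; helper lemma names start with `covA_` or are private)
Comparing quadratic characters at Frobenius elements.  PLAN.  `sg_frob`: with `y = rt x`, `g y = ± y`; `y^p = y * x^((p-1)/2)`; so `g y = ε y` with `ε ≡ a^((p-1)/2)`, `ε = ± 1`; `2` is a unit.  State it through `legendreSym` or `ZMod p` as given.
`frob_sg`: `a` from `Lies.exists_intCast` for `B`; `x - a` has positive order (or is zero), so the congruence holds on both sides (`Lies.nonunits_iff`); `y = rt x ∈ B`, `y^(p²) ≡ y` because `y^(p²-1) = (x^(p-1))^((p+1)/2)`; `Good.frob`.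
`cov_a`: `N = {u ∈ W | ∀ h τ, ∀ x ∈ X0, sg (α (h u h⁻¹)) x = 0 ∧ sg u (τ x) = 0}`, more simply the `core` of `W ⊓ α.pre (⨅ stab (rt x)) ⊓ ⨅ stab (rt (τ x))`.  If `g0 ∈ N` take `h = 1` and any `τ`.  Otherwise `U = N ⊔ zpowers g0` (open, `≤ W`); `g0 * g0` need not lie in `N`,
so enlarge `N` to the first description, for which `W ⧸ N` has exponent two and `U = N ∪ g0 N`.  `fd`; choose `p` odd, outside `hK`, `vg`, `finite_ram W`, and the primes below the divisors of `X0` (`ordP_finite`).  `Q` over `p`, `Good α A' B` with `B` over `Q`, `A'` is over `p` by `hK`,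
`A' = h • A` (`trans_rat`), `g' = h g h⁻¹` (`IsFrob.conj`), `τ` from `exists_emb_lies`, `split_DD`, `split_emb`, `frob_sg`; finally `g' = (h g0 h⁻¹) n` with `n ∈ N` (`sg_mul_left`). -/

namespace Vale.Agent.P024

open NumberField IsDedekindDomain Filter
open scoped Pointwise Topology

set_option linter.unusedSectionVars false

variable {F E : Type*} [Field F] [NumberField F] [Field E] [CharZero E] [Algebra F E] [IsGalois F E]

theorem covA_val {K : Type*} [Field K] {B : ValuationSubring K} {x y : K} (hy : y ^ 2 = x)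
    (hx : B.valuation x = 1) : B.valuation y = 1 := by
  rw [← hy, map_pow] at hx
  exact (pow_eq_one_iff_of_nonneg zero_le two_ne_zero).1 hx

theorem sg_frob (hE : RC E) {B : ValuationSubring E} {p : ℕ} (hp : p.Prime) (h2 : p ≠ 2) (hB : Ov B p)
    {g : Gal(E/F)} {x : E} (hx : g x = x) {a : ℤ} (ha : ¬(p : ℤ) ∣ a) (e : x - a ∈ B.nonunits)
    (h : g (rt x) - rt x ^ p ∈ B.nonunits) : sg g x = 0 ↔ (a : ZMod p) ^ (p / 2) = 1 := by
  haveI := alg_rat F E
  haveI : Fact p.Prime := ⟨hp⟩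
  have hy : rt x ^ 2 = x := rt_sq hE x
  have haB : (a : E) ∈ B := intCast_mem B a
  have hxB : x ∈ B := by
    have : x = (x - a) + a := by ring
    rw [this]; exact add_mem (B.nonunits_subset e) haB
  have hxn : x ∉ B.nonunits := fun hn => ha <| (hB.intCast_iff hp a).1 <| by
    have : (a : E) = x - (x - a) := by ring
    rw [this]; exact sub_mem hn e
  have hvx : B.valuation x = 1 := uq_val_one.2 ⟨hxB, hxn⟩
  have hvy : B.valuation (rt x) = 1 := covA_val hy hvx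
  have hyB : rt x ∈ B := (uq_val_one.1 hvy).1
  have hy0 : rt x ≠ 0 := fun h0 => by simp [h0] at hvy
  have hodd : p = 2 * (p / 2) + 1 := by
    have := hp.eq_two_or_odd.resolve_left h2
    omega
  have e1 : rt x ^ p = rt x * x ^ (p / 2) := by
    conv_lhs => rw [hodd]
    rw [pow_succ, pow_mul, hy, mul_comm]
  have e2 : g (rt x) - rt x * (a : E) ^ (p / 2) ∈ B.nonunits := by
    refine tame_trans h ?_
    rw [e1, ← mul_sub]
    exact uq_mul hyB (tame_cpow e hxB _)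
  rw [sg_eq_zero_iff hy]
  rcases ch_pm hy hx with h1 | h1
  · refine iff_of_true h1 ?_
    rw [h1] at e2
    have h3 := tame_cancel hvy (tame_symm e2)
    have h4 : (((a ^ (p / 2) - 1 : ℤ)) : E) ∈ B.nonunits := by push_cast; exact h3
    have h5 := (ZMod.intCast_zmod_eq_zero_iff_dvd _ p).2 ((hB.intCast_iff hp _).1 h4)
    push_cast at h5
    exact sub_eq_zero.1 h5
  · refine iff_of_false (fun h3 => ?_) (fun h3 => ?_)
    · rw [h3] at h1
      exact hy0 (by linear_combination (1 / 2 : E) * h1)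
    · rw [h1] at e2
      have h4 : rt x * (-(a : E) ^ (p / 2)) - rt x ∈ B.nonunits := by
        have e3 : rt x * (-(a : E) ^ (p / 2)) - rt x = -rt x - rt x * (a : E) ^ (p / 2) := by ring
        rw [e3]; exact e2
      have h5 := tame_cancel hvy h4
      have h6 : (((-a ^ (p / 2) - 1 : ℤ)) : E) ∈ B.nonunits := by push_cast; exact h5
      have h7 := (ZMod.intCast_zmod_eq_zero_iff_dvd _ p).2 ((hB.intCast_iff hp _).1 h6)
      push_cast at h7
      rw [h3] at h7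
      have h8 : ((2 : ℕ) : ZMod p) = 0 := by push_cast; linear_combination -h7
      exact h2 ((Nat.prime_dvd_prime_iff_eq hp Nat.prime_two).1 ((ZMod.natCast_eq_zero_iff _ _).1 h8))

variable {α : OH G1 Gal(E/F)} {T : OpenSubgroup Gal(E/F)}

theorem frob_sg (hE : RC E) {A : ValuationSubring Qb} {B : ValuationSubring E} (h : Good α A B) {p : ℕ}
    (hp : p.Prime) (h2 : p ≠ 2) (hA : Ov A p) {Q : HeightOneSpectrum (𝓞 (Fx T))}
    (hQ : Lies B (inc T) Q) {τ : Fx T →+* Qb} (hτ : Lies A τ Q) (hN : nrm Q = p) {g : G1}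
    (hg : g ∈ α.pre T) (hf : IsFrob A p g) {x : Fx T} (hx : x ≠ 0) (h0 : ordP Q x = 0)
    (e : g (τ x) = τ x) : sg (α.f g) (x : E) = sg g (τ x) := by
  haveI := alg_rat F E
  have hB : Ov B p := hQ.ov.2 (mem_of_nrm_prime hN)
  have hvx : B.valuation (x : E) = 1 := (hQ.val_eq_one hx).2 h0
  have hvt : A.valuation (τ x) = 1 := (hτ.val_eq_one hx).2 h0
  have hxB : (x : E) ∈ B := (uq_val_one.1 hvx).1
  obtain ⟨a, ha⟩ := hQ.exists_intCast (x := x) (hN ▸ hp) hxB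
  have ha : (x : E) - a ∈ B.nonunits := ha
  have hpa : ¬(p : ℤ) ∣ a := fun hd => (uq_val_one.1 hvx).2 <| by
    have : (x : E) = ((x : E) - a) + a := by ring
    rw [this]; exact add_mem ha ((hB.intCast_iff hp a).2 hd)
  have ha' : τ x - a ∈ A.nonunits := by
    have e1 : τ x - a = τ (x - a) := by simp
    rw [e1]
    by_cases h1 : x - a = 0
    · rw [h1, map_zero]; exact zero_mem _
    · rw [hτ.nonunits_iff h1, ← hQ.nonunits_iff h1]
      simpa using ha
  have hy : rt (x : E) ^ 2 = x := rt_sq hE _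
  have hyB : rt (x : E) ∈ B := (uq_val_one.1 (covA_val hy hvx)).1
  have htA : rt (τ x) ∈ A := (uq_val_one.1 (covA_val (rt_sq rc_Qb _) hvt)).1
  obtain ⟨k, hk⟩ : ∃ k, p = 2 * k + 1 := ⟨p / 2, by
    have := hp.eq_two_or_odd.resolve_left h2
    omega⟩
  have f1 : (x : E) ^ (2 * k) - 1 ∈ B.nonunits := by
    refine tame_cancel hvx ?_
    have := hQ.pow_nrm (x := x) hxB
    rw [hN, hk, pow_succ'] at this
    exact this
  have f2 : rt (x : E) ^ p ^ 2 - rt (x : E) ∈ B.nonunits := by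
    have f3 := uq_mul hyB (tame_cpow f1 (pow_mem hxB _) (k + 1))
    have f4 : p ^ 2 = 2 * (2 * k * (k + 1)) + 1 := by rw [hk]; ring
    rw [f4, pow_succ', pow_mul, hy, pow_mul]
    rwa [one_pow, mul_sub, mul_one] at f3
  refine ch_z2 ?_
  rw [sg_frob hE hp h2 hB (mem_Fx.1 x.2 _ hg.2) hpa ha (h.frob hE hp hA hB hg.1 hf hyB f2),
    sg_frob rc_Qb hp h2 hA e hpa ha' (hf.2 _ htA)]

/-- the group generated by `N` and an element whose square lies in `N` -/
def covA_U (N : OpenNormalSubgroup G1) (g0 : G1) (h : g0 * g0 ∈ N) : OpenSubgroup G1 :=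
  ⟨{ carrier := {u | u ∈ N ∨ g0⁻¹ * u ∈ N}
     one_mem' := Or.inl N.one_mem
     mul_mem' := by
       rintro a b (ha | ha) (hb | hb)
       · exact Or.inl (N.mul_mem ha hb)
       · refine Or.inr ?_
         have : g0⁻¹ * (a * b) = g0⁻¹ * a * g0 * (g0⁻¹ * b) := by group
         rw [this]
         exact N.mul_mem (N.isNormal'.conj_mem' a ha g0) hb
       · refine Or.inr ?_
         rw [← mul_assoc]
         exact N.mul_mem ha hb
       · refine Or.inl ?_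
         have : a * b = g0 * (g0⁻¹ * a) * g0⁻¹ * (g0 * g0) * (g0⁻¹ * b) := by group
         rw [this]
         exact N.mul_mem (N.mul_mem (N.isNormal'.conj_mem _ ha g0) h) hb
     inv_mem' := by
       rintro a (ha | ha)
       · exact Or.inl (N.inv_mem ha)
       · refine Or.inr ?_
         have : g0⁻¹ * a⁻¹ = (g0 * g0)⁻¹ * (g0 * (g0⁻¹ * a)⁻¹ * g0⁻¹) := by group
         rw [this]
         exact N.mul_mem (N.inv_mem h) (N.isNormal'.conj_mem _ (N.inv_mem ha) g0) },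
    Subgroup.isOpen_mono (H₁ := N.toSubgroup) (fun _ h => Or.inl h) N.isOpen'⟩

theorem covA_mem {N : OpenNormalSubgroup G1} {g0 : G1} {h : g0 * g0 ∈ N} {u : G1} :
    u ∈ covA_U N g0 h ↔ u ∈ N ∨ g0⁻¹ * u ∈ N := Iff.rfl

theorem covA_fin {M : Type*} [Field M] [NumberField M] (X0 : Finset Mˣ) :
    {p : ℕ | p.Prime ∧ ∃ x ∈ X0, ∃ Q : HeightOneSpectrum (𝓞 M),
      (p : 𝓞 M) ∈ Q.asIdeal ∧ ordP Q (x : M) ≠ 0}.Finite := by
  have h1 : (⋃ x ∈ X0, ⋃ Q ∈ {P : HeightOneSpectrum (𝓞 M) | ordP P (x : M) ≠ 0},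
      {p : ℕ | p.Prime ∧ (p : 𝓞 M) ∈ Q.asIdeal}).Finite :=
    X0.finite_toSet.biUnion fun x _ => (ordP_finite (x : M)).biUnion fun Q _ =>
      Set.Subsingleton.finite fun p hp q hq => prime_mem_unique hp.1 hq.1 hp.2 hq.2
  refine h1.subset ?_
  rintro p ⟨hp, x, hx, Q, hQ, h0⟩
  simp only [Set.mem_iUnion]
  exact ⟨x, hx, Q, h0, hp, hQ⟩

theorem cov_a (hE : RC E) (hK : KeyFin α) (hT : ∀ t ∈ T, FixI t ∧ ∃ g ∈ α.V, α.f g = t)
    (W : OpenNormalSubgroup G1) (hW : ∀ u ∈ W, u ∈ α.pre T)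
    (hf : ∀ u ∈ W, ∀ (τ : Fx T →+* Qb) x, u (τ x) = τ x) (X0 : Finset (Fx T)ˣ) {g0 : G1}
    (hg : g0 ∈ W) :
    ∃ (h : G1) (τ : Fx T →+* Qb), ∀ x ∈ X0,
      sg (α.f (h * g0 * h⁻¹)) ((x : Fx T) : E) = sg (h * g0 * h⁻¹) (τ x) := by
  let c : G1 → (X0 × (Fx T →+* Qb)) → ZMod 2 := fun u i =>
    sg (α.f u) ((i.1.1 : Fx T) : E) - sg u (i.2 i.1.1)
  have hc : IsCh W.toOpenSubgroup c := isCh_pi fun i =>
    (((isCh_sg hE (U := T) (mem_Fx.1 (i.1.1 : Fx T).2)).pre α).mono hW).sub'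
      (isCh_sg rc_Qb fun g hg => hf g hg i.2 i.1.1)
  have hWc : ∀ s, ∀ u ∈ W, s * u * s⁻¹ ∈ W.toOpenSubgroup := fun s u hu =>
    W.isNormal'.conj_mem u hu s
  suffices H : ∃ (h : G1) (τ : Fx T →+* Qb), ∀ x : X0, c (h * g0 * h⁻¹) (x, τ) = 0 by
    obtain ⟨h, τ, H⟩ := H
    exact ⟨h, τ, fun x hx => sub_eq_zero.1 (H ⟨x, hx⟩)⟩
  by_cases hN : g0 ∈ core hc.ker
  · obtain ⟨τ⟩ : Nonempty (Fx T →+* Qb) := ⟨(IsAlgClosed.lift (R := ℚ) (S := Fx T) (M := Qb)).toRingHom⟩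
    exact ⟨1, τ, fun x => congrFun (mem_core.1 hN 1).2 _⟩
  have h2 : g0 * g0 ∈ core hc.ker := mem_core.2 fun s => by
    have e : s * (g0 * g0) * s⁻¹ = s * g0 * s⁻¹ * (s * g0 * s⁻¹) := by group
    refine ⟨hWc s _ (W.mul_mem hg hg), ?_⟩
    rw [e, hc.add _ (hWc s _ hg) _ (hWc s _ hg)]
    funext i
    exact CharTwo.add_self_eq_zero (R := ZMod 2) _
  have hinf := fd (U := covA_U _ g0 h2) (N := (core hc.ker).toOpenSubgroup) (fun _ h => Or.inl h)
    (fun g _ n hn => (core hc.ker).isNormal'.conj_mem n hn g)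
    ⟨g0, Or.inr (by rw [inv_mul_cancel]; exact one_mem _), hN⟩
  obtain ⟨p, ⟨hp, A, g, hA, hgU, hgN, hfr⟩, hbad⟩ := hinf.exists_notMem_finite
    (((((Set.finite_singleton 2).union hK).union (vg hE α hT)).union
      (finite_ram W.toOpenSubgroup)).union (covA_fin X0))
  simp only [Set.mem_union, not_or, Set.mem_singleton_iff, Set.mem_ofPred_eq] at hbad
  obtain ⟨⟨⟨⟨b1, b2⟩, b3⟩, b4⟩, b5⟩ := hbad
  have hn : g0⁻¹ * g ∈ core hc.ker := (covA_mem.1 hgU).resolve_left hgN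
  have hgW : g ∈ W := by
    have : g = g0 * (g0⁻¹ * g) := by group
    rw [this]
    exact W.mul_mem hg (core_le hn).1
  obtain ⟨Q, hQ⟩ := exists_over (Fx T) hp
  obtain ⟨A', B, hG, hB⟩ : ∃ A B, Good α A B ∧ Lies B (inc T) Q := by
    by_contra hne
    exact b3 ⟨hp, Q, hQ, hne⟩
  obtain ⟨p', hp', -, hA'⟩ := hG.ovA
  obtain rfl : p' = p := by
    by_contra hne
    exact b2 ⟨hp, A', B, p', hG, hp', hA', hB.ov.2 hQ, hne⟩
  obtain ⟨h, rfl⟩ := trans_rat hp hA hA'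
  obtain ⟨τ, hτ⟩ := exists_emb_lies hp hA' hQ
  have hI : ∀ u ∈ II ℚ A, u ∈ W := fun u hu => by
    by_contra hne
    exact b4 ⟨hp, A, hA, u, hu, hne⟩
  have hnrm := (split_emb hp hA' hτ fun u hu x =>
    hf u (split_DD W hp hA hgW hfr hI hA' u hu) τ x).1
  refine ⟨h, τ, fun x => ?_⟩
  have e1 : c (h * g * h⁻¹) (x, τ) = 0 := sub_eq_zero.2 <|
    frob_sg hE hG hp b1 hA' hB hτ hnrm (hW _ (hWc h g hgW)) (hfr.conj h) x.1.ne_zero
      (by by_contra hne; exact b5 ⟨hp, x.1, x.2, Q, hQ, hne⟩) (hf _ (hWc h g hgW) τ _)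
  have e2 : h * g * h⁻¹ = h * g0 * h⁻¹ * (h * (g0⁻¹ * g) * h⁻¹) := by group
  rw [e2, hc.add _ (hWc h _ hg) _ (mem_core.1 hn h).1, (mem_core.1 hn h).2, add_zero] at e1
  exact e1

end Vale.Agent.P024
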