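import Vale.Agent.P024.Dv
import Vale.Agent.P319.N.ZetaRay

/-! # P024 DenC1 (TASK; helper lemma names start with `denC1_` or are private)
`L`-functions of ray class characters are holomorphic at `1`.  PLAN.  Use the library `Vale.Agent.P319` (read `N/Defs.lean`, `N/Ideals.lean`, `N/Ray.lean`).  `exists_stp` gives `Stp K`; replace its `M` by `M * l` (all fields of the structure survive), `M0 = MM K`.
For `n : R K` put `X n = χ (dvI l (idl n))`.  If `Ray m 1 x y` then `X x = X y`: `w = u x / y` satisfies `InUq m w`, so `Cg l m w 1` (`l ∣ M`), and `dv l w = dvI (idl x) - dvI (idl y)` (at primes above `M` both sides vanish; elsewhere compare valuations, e.g. clear denominators by powers of `M` and use `spart_mul_idl`, `gen_span`, `dvI_mul`, `dvI_span`).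
`primEquiv` turns the sum over ideals prime to `M0` into `∑' n, ind (Prim n) * X n * nm n ^ (-s) = ∑ α ∈ creps K m, X α * ∑' n, ind (Prim n ∧ Ray m 1 n α) * nm n ^ (-s)` (`sum_creps_ind`, `nm_gen`).
`zeta : ZetaStmt K` gives `Z α` entire with `Z α 1 = κ`; `∑ α, X α = 0`: choose `β` with `X β ≠ 1` (`exists_ideal_approx`), multiplication by `β` permutes the classes (`Ray.mul_left`, `Ray.cancel`).  So `G = ∑ X α * Z α` is entire, `G 1 = 0`; `Lf = dslope G 1`. -/

namespace Vale.Agent.P024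

open NumberField IsDedekindDomain Filter
open scoped Pointwise Topology

set_option linter.unusedSectionVars false

open scoped nonZeroDivisors Classical

section aux

variable {K : Type} [Field K] [NumberField K] {l : ℕ} [Fact l.Prime]

theorem denC1_zero {I : Ideal (𝓞 K)} (hI : I ≠ ⊥) (P : Pr K l) (h : ¬I ≤ P.1.asIdeal) :
    dvI l I P = 0 := by
  change FractionalIdeal.count K P.1 (I : FractionalIdeal (𝓞 K)⁰ K) = 0
  rw [FractionalIdeal.count_coe K P.1 hI, Nat.cast_eq_zero]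
  by_contra h0
  exact h (Ideal.le_of_dvd ((Associates.count_ne_zero_iff_dvd hI P.1.irreducible).1 h0))

variable [P319.Stp K]

theorem denC1_S {x : P319.R K} (hx : x ≠ 0) (P : Pr K l)
    (h : (P319.MM K : 𝓞 K) ∈ P.1.asIdeal) : dvI l (P319.idl x) P = 0 := by
  refine denC1_zero (P319.idl_ne_bot hx) P fun hle => ?_
  obtain ⟨s, hs, t, e⟩ := P319.idl_coprime hx
  refine P.1.isPrime.ne_top ((Ideal.eq_top_iff_one _).2 ?_)
  rw [← e]
  exact add_mem (hle hs) (Ideal.mul_mem_left _ _ h)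

theorem denC1_T {x : P319.R K} (hx : x ≠ 0) (P : Pr K l)
    (h : (P319.MM K : 𝓞 K) ∉ P.1.asIdeal) : dvI l (P319.idl x) P = ordP P.1 (x : K) := by
  obtain ⟨k, t, e⟩ := P319.exists_pow_mul x
  have hu : IsUnit ((P319.MM K : P319.R K) ^ k) := P319.isUnit_MR.pow k
  have ht : t ≠ 0 := by
    rintro rfl
    rw [map_zero] at e
    exact mul_ne_zero hu.ne_zero hx e
  have hs : Ideal.span {t} ≠ ⊥ := by rwa [Ne, Ideal.span_singleton_eq_bot]
  have h1 : P319.idl (P319.gen (Ideal.span {t})) = P319.idl x := by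
    rw [P319.idl_eq_iff, P319.gen_span, ← e]
    exact (P319.associated_pp _).symm.trans (associated_unit_mul_left _ _ hu)
  have h2 := P319.spart_mul_idl (Ideal.span {t})
  have h3 := P319.sId_spart hs
  rw [h1] at h2
  have h4 := dvI_mul (l := l) h3.ne_bot (P319.idl_ne_bot hx)
  rw [h2, dvI_span] at h4
  have h5 : dvI l (P319.spart (Ideal.span {t})) P = 0 := by
    refine denC1_zero h3.ne_bot P fun hle => ?_
    obtain ⟨j, hj⟩ := h3
    exact h (P.1.isPrime.mem_of_pow_mem j (hle hj))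
  have h6 := DFunLike.congr_fun h4 P
  rw [Finsupp.add_apply, h5, zero_add, dv_apply] at h6
  have h7 : (t : K) = (P319.MM K : K) ^ k * (x : K) := by
    rw [← P319.coe_int, ← e, map_mul, map_pow, map_natCast]
  have h8 : ordP P.1 (P319.MM K : K) = 0 := by
    have h9 := ordP_nonneg P.1 (P319.MM K : 𝓞 K)
    have h10 := (ordP_pos_iff P.1 (P319.M_int_ne_zero (K := K))).not.2 h
    have h11 : ((P319.MM K : 𝓞 K) : K) = (P319.MM K : K) := map_natCast (algebraMap (𝓞 K) K) _
    rw [h11] at h9 h10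
    omega
  rw [← h6, h7, ordP_mul _ (pow_ne_zero _ P319.M_ne_zero) (P319.coe_ne_zero hx), ordP_pow, h8,
    mul_zero, zero_add]

theorem denC1_cg (hl : l ∣ P319.MM K) {m : ℕ} {w : K} (h : P319.InUq m w) : Cg l m w 1 := by
  obtain ⟨y, hy, e⟩ := P319.sIn_iff_exists.1 h
  obtain ⟨c, hc⟩ := hl
  have hy' : y ∈ LI K l := by
    refine mem_LI_iff_ordP.2 fun P hP => ?_
    by_cases h0 : y = 0
    · rw [h0, ordP_zero]
    have h1 := P319.sIn_zero_iff_val.1 hy P (by
      rw [hc, Nat.cast_mul]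
      exact Ideal.mul_mem_right _ _ hP)
    have h2 : P.valuation K y ≠ 0 := by simpa using h0
    rw [ordP, neg_nonneg, WithZero.log_le_iff_le_exp h2]
    simpa using h1
  refine cg_iff.2 ⟨(c : K) ^ m * y, mul_mem (pow_mem (natCast_mem _ c) m) hy', ?_⟩
  rw [hc] at e
  push_cast at e
  rw [← mul_assoc, ← mul_pow, ← e]
  ring

theorem denC1_ray (hl : l ∣ P319.MM K) {m : ℕ} (hm : 0 < m) {x y : P319.R K}
    (h : P319.Ray m 1 x y) : dvI l (P319.idl x) - dvI l (P319.idl y) ∈ Pm K l m := by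
  obtain ⟨hx, hy, u, hu⟩ := P319.ray_one_iff.1 h
  refine (mem_Pm hm).2 ⟨_, denC1_cg hl hu, ?_⟩
  have hux : (u : P319.R K) * x ≠ 0 := mul_ne_zero u.ne_zero hx
  have e : P319.idl x = P319.idl ((u : P319.R K) * x) :=
    P319.idl_eq_iff.2 (associated_unit_mul_right _ _ u.isUnit)
  ext P
  rw [Finsupp.sub_apply, dv_apply]
  by_cases hP : (P319.MM K : 𝓞 K) ∈ P.1.asIdeal
  · rw [denC1_S hx P hP, denC1_S hy P hP, ordP, P319.InUq.val_eq_one hm hu hP]
    simp
  · rw [e, denC1_T hux P hP, denC1_T hy P hP,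
      ordP_div _ (P319.coe_ne_zero hux) (P319.coe_ne_zero hy)]

theorem denC1_chi {m : ℕ} {χ : AddChar (Dv K l) ℂ} (hχ : ∀ D ∈ Pm K l m, χ D = 1) {D D' : Dv K l}
    (h : D - D' ∈ Pm K l m) : χ D = χ D' := by
  have := χ.map_add_eq_mul (D - D') D'
  rwa [sub_add_cancel, hχ _ h, one_mul] at this

theorem denC1_sum (hl : l ∣ P319.MM K) {m : ℕ} (hm : 0 < m) {χ : AddChar (Dv K l) ℂ}
    (hχ : ∀ D ∈ Pm K l m, χ D = 1) (h1 : χ ≠ 1) :
    ∑ α ∈ P319.creps K m, χ (dvI l (P319.idl α)) = 0 := by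
  obtain ⟨D, hD⟩ := AddChar.ne_one_iff.1 h1
  obtain ⟨I, hI, hDI⟩ := exists_ideal_approx hm P319.Stp.M_ne hl D
  have hβ : P319.gen I ≠ 0 := ((P319.primEquiv K).symm ⟨I, hI⟩).2.1
  have hX : χ (dvI l (P319.idl (P319.gen I))) ≠ 1 := by
    rwa [P319.idl_gen hI, ← denC1_chi hχ hDI]
  have hmap : Set.MapsTo (fun α => P319.crep m (P319.gen I * α)) (P319.creps K m)
      (P319.creps K m) := fun α hα =>
    P319.crep_mem_creps (mul_ne_zero hβ (P319.ne_zero_of_mem_creps hm hα))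
  have hinj : Set.InjOn (fun α => P319.crep m (P319.gen I * α)) (P319.creps K m) := by
    intro α hα α' hα' e
    have h2 := P319.ne_zero_of_mem_creps hm hα
    have h3 := P319.ne_zero_of_mem_creps hm hα'
    have h4 := (P319.crep_eq_iff hm (mul_ne_zero hβ h2) (mul_ne_zero hβ h3)).1 e
    rw [mul_comm _ α, mul_comm _ α'] at h4
    have h5 := (h4.cancel isCoprime_one_right).crep_eq
    rwa [P319.crep_of_mem hα, P319.crep_of_mem hα'] at h5
  have hsum : ∑ α ∈ P319.creps K m, χ (dvI l (P319.idl (P319.gen I))) * χ (dvI l (P319.idl α)) =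
      ∑ α ∈ P319.creps K m, χ (dvI l (P319.idl α)) := by
    refine Finset.sum_nbij _ hmap hinj
      (Finset.surjOn_of_injOn_of_card_le _ hmap hinj le_rfl) fun α hα => ?_
    have h2 := P319.ne_zero_of_mem_creps hm hα
    rw [← χ.map_add_eq_mul, ← dvI_mul (P319.idl_ne_bot hβ) (P319.idl_ne_bot h2), ← P319.idl_mul]
    exact denC1_chi hχ (denC1_ray hl hm (P319.ray_crep hm (mul_ne_zero hβ h2)))
  rw [← Finset.mul_sum] at hsum
  by_contra h0
  exact hX (mul_right_cancel₀ h0 (hsum.trans (one_mul _).symm))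

theorem denC1_tsum (φ : Ideal (𝓞 K) → ℂ) (s : ℂ) :
    ∑' I : (Ideal (𝓞 K))⁰, (if IsCoprime I.1 (Ideal.span {(P319.MM K : 𝓞 K)}) then φ I.1 else 0) *
        (Ideal.absNorm I.1 : ℂ) ^ (-s) =
      ∑' n : P319.R K, P319.ind (P319.Prim n) * φ (P319.idl n) * (P319.nm n : ℂ) ^ (-s) := by
  let i : {n : P319.R K // P319.Prim n} → (Ideal (𝓞 K))⁰ := fun n =>
    ⟨P319.idl n.1, mem_nonZeroDivisors_of_ne_zero (P319.idl_ne_bot n.2.1)⟩
  have hi : Function.Injective i := fun n n' e =>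
    Subtype.ext (n.2.eq_of_associated n'.2 (P319.idl_eq_iff.1 (congrArg Subtype.val e)))
  rw [← hi.tsum_eq, ← (Subtype.val_injective (p := fun n : P319.R K => P319.Prim n)).tsum_eq]
  · refine tsum_congr fun n => ?_
    simp only [i]
    rw [if_pos (P319.idl_isCoprime n.2.1), P319.absNorm_idl, P319.ind_of n.2, one_mul]
  · intro n hn
    by_contra h
    refine hn ?_
    have : ¬P319.Prim n := fun h' => h ⟨⟨n, h'⟩, rfl⟩
    simp only [P319.ind_of_not this, zero_mul]
  · intro I hI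
    have h : IsCoprime I.1 (Ideal.span {(P319.MM K : 𝓞 K)}) := by
      by_contra h
      refine hI ?_
      simp only [if_neg h, zero_mul]
    exact ⟨(P319.primEquiv K).symm ⟨I.1, h⟩, Subtype.ext (P319.idl_gen h)⟩

theorem denC1_summable (p : P319.R K → Prop) {s : ℂ} (hs : 1 < s.re) :
    Summable fun n : P319.R K => P319.ind (P319.Prim n ∧ p n) * (P319.nm n : ℂ) ^ (-s) := by
  refine (P319.summable_ind_rpow (K := K) hs).of_norm_bounded fun n => ?_
  by_cases h : P319.Prim n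
  · rw [norm_mul, Complex.norm_natCast_cpow_of_pos (P319.nm_pos h.1), Complex.neg_re,
      P319.ind_of h, norm_one]
    exact mul_le_mul_of_nonneg_right (P319.norm_ind_le _) (by positivity)
  · rw [P319.ind_of_not h, P319.ind_of_not fun h' => h h'.1]
    simp

end aux

theorem exists_Lf (K : Type) [Field K] [NumberField K] (hw : ∃ w : K, w ^ 2 + w + 1 = 0) (l : ℕ)
    [Fact l.Prime] {m : ℕ} (hm : 0 < m) :
    ∃ M0 : ℕ, M0 ≠ 0 ∧ l ∣ M0 ∧ ∀ χ : AddChar (Dv K l) ℂ, (∀ D ∈ Pm K l m, χ D = 1) → χ ≠ 1 →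
      ∃ Lf : ℂ → ℂ, DifferentiableAt ℂ Lf 1 ∧ ∀ s : ℂ, 1 < s.re →
        Lf s = ∑' I : (Ideal (𝓞 K))⁰,
          (if IsCoprime I.1 (Ideal.span {(M0 : 𝓞 K)}) then χ (dvI l I.1) else 0) *
            (Ideal.absNorm I.1 : ℂ) ^ (-s) := by
  obtain ⟨w, hw⟩ := hw
  have hint : IsIntegral ℤ w := by
    refine ⟨Polynomial.X ^ 2 + Polynomial.X + 1, ?_, by simpa using hw⟩
    monicity!
  obtain ⟨S, -, hl⟩ := P319.exists_stp_dvd (F := K) ⟨w, hint⟩
    (RingOfIntegers.ext hw) (Fact.out : l.Prime).ne_zero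
  refine ⟨P319.MM K, P319.Stp.M_ne, hl, fun χ hχ h1 => ?_⟩
  obtain ⟨κ, -, hZ⟩ := P319.zeta (K := K) m 1 hm one_ne_zero
  choose! Z hZ1 hZ2 hZ3 using fun (α : P319.R K) (hα : α ∈ P319.creps K m) =>
    hZ α (P319.ne_zero_of_mem_creps hm hα) isCoprime_one_right
  let G : ℂ → ℂ := fun s => ∑ α ∈ P319.creps K m, χ (dvI l (P319.idl α)) * Z α s
  have hG : Differentiable ℂ G := Differentiable.fun_sum fun α hα => (hZ1 α hα).const_mul _
  have hG1 : G 1 = 0 := by
    have : G 1 = ∑ α ∈ P319.creps K m, χ (dvI l (P319.idl α)) * κ :=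
      Finset.sum_congr rfl fun α hα => by rw [hZ2 α hα]
    rw [this, ← Finset.sum_mul, denC1_sum hl hm hχ h1, zero_mul]
  refine ⟨dslope G 1, ?_, fun s hs => ?_⟩
  · exact ((Complex.differentiableOn_dslope univ_mem).2 hG.differentiableOn).differentiableAt
      univ_mem
  have hs1 : s ≠ 1 := by
    rintro rfl
    simp at hs
  rw [dslope_of_ne _ hs1, slope_def_field, hG1, sub_zero, div_eq_iff (sub_ne_zero.2 hs1),
    denC1_tsum (fun I => χ (dvI l I)) s]
  have e1 : G s = (∑ α ∈ P319.creps K m, ∑' n : P319.R K, χ (dvI l (P319.idl α)) *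
      (P319.ind (P319.Prim n ∧ P319.Ray m 1 n α) * (P319.nm n : ℂ) ^ (-s))) * (s - 1) := by
    rw [Finset.sum_mul]
    refine Finset.sum_congr rfl fun α hα => ?_
    rw [hZ3 α hα s hs, tsum_mul_left]
    ring
  rw [e1, ← Summable.tsum_finsetSum fun α _ => (denC1_summable _ hs).mul_left _]
  congr 1
  refine tsum_congr fun n => ?_
  by_cases h : P319.Prim n
  · have e2 : ∀ α ∈ P319.creps K m, χ (dvI l (P319.idl α)) *
        (P319.ind (P319.Prim n ∧ P319.Ray m 1 n α) * (P319.nm n : ℂ) ^ (-s)) =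
        P319.ind (P319.Ray m 1 n α) * (χ (dvI l (P319.idl n)) * (P319.nm n : ℂ) ^ (-s)) := by
      intro α _
      by_cases h' : P319.Ray m 1 n α
      · rw [P319.ind_of ⟨h, h'⟩, P319.ind_of h', denC1_chi hχ (denC1_ray hl hm h')]
        ring
      · rw [P319.ind_of_not fun h2 => h' h2.2, P319.ind_of_not h']
        ring
    rw [Finset.sum_congr rfl e2, ← Finset.sum_mul, P319.sum_creps_ind hm h.1, P319.ind_of h]
    ring
  · rw [P319.ind_of_not h, zero_mul, zero_mul]
    refine Finset.sum_eq_zero fun α _ => ?_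
    rw [P319.ind_of_not fun h2 => h h2.1]
    ring

end Vale.Agent.P024
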