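import Vale.Agent.P024.DenB
import Vale.Agent.P024.Selm

/-! # P024 IdxB (TASK; helper lemma names start with `idxB_` or are private)
Finite index subgroups of `Mˣ` and squares.  PLAN.  `ordP_emb_of_one`: `A` from `exists_val (RingHom.id M') P'`, `P` from `exists_lies` for `φ`; with a uniformiser `π` at `P` and `e = ordP P' (φ π) ≥ 1` one has `ordP P' (φ x) = e * ordP P x`
(`x / π^(ordP P x)` is a unit: `Lies.val_eq_one` twice); `e * ordP P p = 1` gives `e = 1`.  The norm: `Lies.nrm_eq` with `Lies.pow_nrm` for `P'`.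
`exists_not_square`: otherwise every prime `p` lies in the finite set of `idx_finite` (`T = {P}`, `exists_over`).
`exists_twist`: otherwise take `p` in `exists_split M'` outside the finite set of `idx_finite Y`, `P'` over `p`, `P1`, `P2` from `ordP_emb_of_one`; if `P1 ≠ P2` then `T = {P1, P2}` contradicts the choice of `p`; so `P1 = P2` and `emb_eq` gives `φ1 = φ2`. -/

namespace Vale.Agent.P024

open NumberField IsDedekindDomain Filter
open scoped Pointwise Topology

set_option linter.unusedSectionVars false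

variable {M M' : Type*} [Field M] [NumberField M] [Field M'] [NumberField M']

theorem idxB_even (P : HeightOneSpectrum (𝓞 M)) {x : M} (hx : x ≠ 0) (h : IsSquare x) :
    Even (ordP P x) := by
  obtain ⟨r, rfl⟩ := h
  have hr : r ≠ 0 := left_ne_zero_of_mul hx
  exact ⟨ordP P r, ordP_mul P hr hr⟩

theorem ordP_emb_of_one (φ : M →+* M') {p : ℕ} (hp : p.Prime) {P' : HeightOneSpectrum (𝓞 M')}
    {A : ValuationSubring M'} (hA : Lies A (RingHom.id M') P') (hN : nrm P' = p)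
    (h1 : ordP P' (p : M') = 1) :
    ∃ P : HeightOneSpectrum (𝓞 M), Lies A φ P ∧ nrm P = p ∧ ∀ x, ordP P' (φ x) = ordP P x := by
  have hp0 : (p : M) ≠ 0 := Nat.cast_ne_zero.2 hp.ne_zero
  have hp0' : (p : M') ≠ 0 := Nat.cast_ne_zero.2 hp.ne_zero
  have hov : Ov A p := (hA.nonunits_iff hp0').2 (by rw [h1]; exact one_pos)
  obtain ⟨P, hP⟩ := exists_lies hov hp φ
  obtain ⟨π, hπ0, hπ⟩ := exists_unif P
  have hπ1 : (π : M) ≠ 0 := fun e => by
    rw [e, ordP_zero] at hπ
    exact zero_ne_one hπ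
  have hπ2 : φ π ≠ 0 := (map_ne_zero φ).2 hπ1
  have he : 0 < ordP P' (φ π) :=
    (hA.nonunits_iff hπ2).1 ((hP.nonunits_iff hπ1).2 (by rw [hπ]; exact one_pos))
  have key : ∀ x, ordP P' (φ x) = ordP P x * ordP P' (φ π) := fun x => by
    by_cases hx : x = 0
    · rw [hx, map_zero, ordP_zero, ordP_zero, zero_mul]
    have h2 : (π : M) ^ ordP P x ≠ 0 := zpow_ne_zero _ hπ1
    have h3 := (hP.val_eq_iff hx h2).2 (by rw [ordP_zpow, hπ, mul_one])
    have h4 := (hA.val_eq_iff ((map_ne_zero φ).2 hx) ((map_ne_zero φ).2 h2)).1 h3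
    rw [h4, map_zpow₀, ordP_zpow]
  have h5 := key p
  rw [map_natCast, h1] at h5
  have h6 : ordP P' (φ π) = 1 := Int.eq_one_of_mul_eq_one_left he.le h5.symm
  refine ⟨P, hP, hP.nrm_eq hp hov fun a => ?_, fun x => by rw [key, h6, mul_one]⟩
  have h7 := hA.pow_nrm (x := φ a) ((hP.mem_iff a).2 (ordP_nonneg P a))
  rwa [hN] at h7

theorem exists_not_square (Y : Subgroup Mˣ) [Y.FiniteIndex] : ∃ y ∈ Y, ¬IsSquare (y : M) := by
  by_contra hc
  push Not at hc
  refine Nat.infinite_setOfPred_prime ((idx_finite Y).subset fun p hp => ⟨hp, ?_⟩)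
  obtain ⟨P, hP⟩ := exists_over M hp
  refine ⟨{P}, Finset.singleton_nonempty P, fun Q hQ => by rwa [Finset.mem_singleton.1 hQ],
    fun y hy => ?_⟩
  rw [Finset.sum_singleton]
  exact idxB_even P y.ne_zero (hc y hy)

theorem exists_twist {φ1 φ2 : M →+* M'} (h : φ1 ≠ φ2) (Y : Subgroup Mˣ) [Y.FiniteIndex] :
    ∃ y ∈ Y, ¬IsSquare (φ1 y * φ2 y) := by
  classical
  by_contra hc
  push Not at hc
  refine h (emb_eq φ1 φ2 (((exists_split M').sdiff (idx_finite Y)).mono ?_))
  rintro p ⟨⟨hp, hs⟩, hn⟩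
  obtain ⟨P', hP'⟩ := exists_over M' hp
  obtain ⟨A, hA⟩ := exists_val (RingHom.id M') P'
  obtain ⟨P1, a1, b1, c1⟩ := ordP_emb_of_one φ1 hp hA (hs P' hP').1 (hs P' hP').2
  obtain ⟨P2, a2, -, c2⟩ := ordP_emb_of_one φ2 hp hA (hs P' hP').1 (hs P' hP').2
  have hov : Ov A p := hA.ov.2 hP'
  by_cases e : P1 = P2
  · exact ⟨hp, A, P1, b1, a1, e ▸ a2⟩
  refine absurd ⟨hp, {P1, P2}, Finset.insert_nonempty _ _, fun Q hQ => ?_, fun y hy => ?_⟩ hn
  · rcases Finset.mem_insert.1 hQ with rfl | hQ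
    · exact a1.ov.1 hov
    · rw [Finset.mem_singleton.1 hQ]
      exact a2.ov.1 hov
  · have h1 := (map_ne_zero φ1).2 y.ne_zero
    have h2 := (map_ne_zero φ2).2 y.ne_zero
    rw [Finset.sum_pair e, ← c1, ← c2, ← ordP_mul P' h1 h2]
    exact idxB_even P' (mul_ne_zero h1 h2) (hc y hy)

end Vale.Agent.P024
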