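import Vale.Agent.P024.CovA
import Vale.Agent.P024.CovB
import Vale.Agent.P024.IdxB

/-! # P024 Emb (TASK; helper lemma names start with `emb_` or are private)
Equivariant embeddings.  PLAN.  `cov`: `neumann_pair` with `G = W`, `ι = (G1 ⧸ W) × (Fx T →+* Qb)`, `β (h, τ) x g = sg (α (h g h⁻¹)) x + sg (h g h⁻¹) (τ x)` with `h` the chosen representative (`sg_mul_left`, `sg_mul_right`); replacing `h` by `h w`, `w ∈ W`, does not change the values (`IsCh.conj`); `cov_a`.  Then substitute `h⁻¹ g h` for `g`.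
`exists_equiv`: `W` inside `core (α.pre T)` and `exists_fix_emb (Fx T)`; `τ`, `Y` from `cov`.  Fix `v ∈ α.V`, `σ = resE (α v) T T`; `φ1 = v ∘ τ`, `φ2 = τ ∘ σ`, both with values in `Fx W` (`RingHom.codRestrict`); for `x ∈ Y ⊓ comap σ Y`, `g ∈ W`:
`sg g (τ (σ x)) = sg (α g) (α v x) = sg (α (v⁻¹ g v)) x = sg (v⁻¹ g v) (τ x) = sg g (v (τ x))` (`sg_conj`); `isSquare_iff_sg rc_Qb`, `exists_twist`.
`uchida_of_key`: `lim_emb` with `Γ = α.V`; for `s` take `T` open normal inside `exists_fix_finset s`, `exists_fix_roots 4` and `α.imgO ⊤` (`exists_normal_le`), `L = (Fx T).toSubfield`; `alg_rat`. -/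

namespace Vale.Agent.P024

open NumberField IsDedekindDomain Filter
open scoped Pointwise Topology

set_option linter.unusedSectionVars false

variable {F E : Type*} [Field F] [NumberField F] [Field E] [CharZero E] [Algebra F E] [IsGalois F E]

variable {α : OH G1 Gal(E/F)} {T : OpenSubgroup Gal(E/F)}

theorem cov (hE : RC E) (hK : KeyFin α) (hT : ∀ t ∈ T, FixI t ∧ ∃ g ∈ α.V, α.f g = t)
    (W : OpenNormalSubgroup G1) (hW : ∀ u ∈ W, u ∈ α.pre T)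
    (hf : ∀ u ∈ W, ∀ (τ : Fx T →+* Qb) x, u (τ x) = τ x) :
    ∃ (τ : Fx T →+* Qb) (Y : Subgroup (Fx T)ˣ), Y.FiniteIndex ∧
      ∀ x ∈ Y, ∀ g ∈ W, sg (α.f g) ((x : Fx T) : E) = sg g (τ x) := by
  have ch : ∀ (τ : Fx T →+* Qb) (x : (Fx T)ˣ), IsCh W.toOpenSubgroup
      fun g => sg (α.f g) ((x : Fx T) : E) + sg g (τ x) := fun τ x =>
    (((isCh_sg hE (mem_Fx.1 (x : Fx T).2)).pre α).mono hW).add'
      (isCh_sg rc_Qb fun g hg => hf g hg τ x)
  have cj : ∀ h g : G1, g ∈ W → h * g * h⁻¹ ∈ W := fun h g hg => W.isNormal'.conj_mem g hg h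
  obtain ⟨⟨q, τ⟩, Y, hY, h⟩ := neumann_pair (X := (Fx T)ˣ) (G := W.toSubgroup)
    (ι := (G1 ⧸ W.toSubgroup) × (Fx T →+* Qb))
    (fun i x g => sg (α.f (i.1.out * (g : G1) * i.1.out⁻¹)) ((x : Fx T) : E) +
      sg (i.1.out * (g : G1) * i.1.out⁻¹) (i.2 x))
    (fun i x y g => by
      have h1 := cj i.1.out g g.2
      have h0 : ∀ z : (Fx T)ˣ, ((z : Fx T) : E) ≠ 0 := fun z => by simp
      have h2 : ∀ z : (Fx T)ˣ, i.2 z ≠ 0 := fun z => by simp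
      rw [Units.val_mul, map_mul, IntermediateField.coe_mul, sg_mul_right hE (h0 x) (h0 y)
        (mem_Fx.1 (x : Fx T).2 _ (hW _ h1).2) (mem_Fx.1 (y : Fx T).2 _ (hW _ h1).2),
        sg_mul_right rc_Qb (h2 x) (h2 y) (hf _ h1 _ _) (hf _ h1 _ _)]
      abel)
    (fun i x g g' => by
      have e : i.1.out * ((g * g' : W.toSubgroup) : G1) * i.1.out⁻¹ =
          i.1.out * (g : G1) * i.1.out⁻¹ * (i.1.out * (g' : G1) * i.1.out⁻¹) := by
        rw [Subgroup.coe_mul]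
        group
      rw [e]
      exact (ch i.2 x).add _ (cj _ _ g.2) _ (cj _ _ g'.2))
    (fun X0 g => by
      obtain ⟨h, τ, h1⟩ := cov_a hE hK hT W hW hf X0 g.2
      obtain ⟨w, hw⟩ := QuotientGroup.mk_out_eq_mul W.toSubgroup h
      refine ⟨(h, τ), fun x hx => ?_⟩
      have e : h * (w : G1) * (g : G1) * (h * (w : G1))⁻¹ =
        h * (w : G1) * h⁻¹ * (h * (g : G1) * h⁻¹) * (h * (w : G1) * h⁻¹)⁻¹ := by group
      simp only [hw, e]
      refine ((ch τ x).conj (cj _ _ w.2) (cj _ _ g.2)).trans ?_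
      rw [h1 x hx, CharTwo.add_self_eq_zero])
  refine ⟨τ, Y, hY, fun x hx g hg => ?_⟩
  have h1 := h x hx ⟨q.out⁻¹ * g * q.out⁻¹⁻¹, cj _ _ hg⟩
  have e : q.out * (q.out⁻¹ * g * q.out⁻¹⁻¹) * q.out⁻¹ = g := by group
  simp only [e] at h1
  exact CharTwo.add_eq_zero.1 h1

theorem exists_equiv (hE : RC E) (hK : KeyFin α) (hT : ∀ t ∈ T, FixI t ∧ ∃ g ∈ α.V, α.f g = t)
    (hn : ∀ g, ∀ u ∈ T, g * u * g⁻¹ ∈ T) :
    ∃ τ : Fx T →+* Qb, ∀ v ∈ α.V, ∀ x y : Fx T, (y : E) = α.f v x → τ y = v (τ x) := by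
  obtain ⟨W₀, h₀⟩ := exists_fix_emb (Fx T)
  obtain ⟨W, hW⟩ := exists_normal_le (α.pre T ⊓ W₀.toOpenSubgroup)
  have hf : ∀ u ∈ W, ∀ (τ : Fx T →+* Qb) x, u (τ x) = τ x := fun u hu => h₀ u (hW u hu).2
  obtain ⟨τ, Y, hY, h⟩ := cov hE hK hT W (fun u hu => (hW u hu).1) hf
  refine ⟨τ, fun v hv x y hxy => ?_⟩
  let σ := resE (α.f v) T T fun u hu => by simpa using hn (α.f v)⁻¹ u hu
  let r : (Fx T →+* Qb) → (Fx T →+* Fx W.toOpenSubgroup) := fun φ =>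
    φ.codRestrict (Fx W.toOpenSubgroup).toSubfield fun z => mem_Fx.2 fun u hu => hf u hu φ z
  have e : r ((v : Qb →+* Qb).comp τ) = r (τ.comp σ) := by
    by_contra hne
    have : (Y.comap (Units.map (σ : Fx T →* Fx T))).FiniteIndex :=
      ⟨by
        rw [Subgroup.index_comap]
        exact Subgroup.FiniteIndex.index_ne_zero⟩
    obtain ⟨z, ⟨z1, z2⟩, hz⟩ := exists_twist hne (Y ⊓ Y.comap (Units.map (σ : Fx T →* Fx T)))
    refine hz ((isSquare_iff_sg rc_Qb _).2 fun g hg => ?_)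
    change sg g (v (τ z) * τ (σ z)) = 0
    have g1 : v⁻¹ * g * v⁻¹⁻¹ ∈ W := W.isNormal'.conj_mem g hg v⁻¹
    obtain ⟨g', rfl⟩ : ∃ g', g = v * g' * v⁻¹ := ⟨v⁻¹ * g * v, by group⟩
    have g2 : g' ∈ W := by simpa [mul_assoc] using g1
    have g3 : g' ∈ α.V := (hW _ g2).1.1
    have a1 : sg (α.f (v * g' * v⁻¹)) (α.f v ((z : Fx T) : E)) = sg (v * g' * v⁻¹) (τ (σ z)) :=
      h _ z2 _ hg
    rw [α.mul _ (α.V.mul_mem hv g3) _ (α.V.inv_mem hv), α.mul _ hv _ g3, α.inv hv, sg_conj hE,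
      h z z1 g' g2, ← sg_conj rc_Qb v] at a1
    rw [sg_mul_right (x := v (τ z)) (y := τ (σ z)) rc_Qb (by simp) (by simp)
      (hf _ hg ((v : Qb →+* Qb).comp τ) z) (hf _ hg τ _), a1, CharTwo.add_self_eq_zero]
  have e2 : y = σ x := Subtype.ext hxy
  rw [e2]
  exact (congrArg Subtype.val (DFunLike.congr_fun e x)).symm

theorem uchida_of_key (hE : RC E) (hK : KeyFin α) :
    ∃ j : E →+* Qb, ∀ g ∈ α.V, ∀ x, g (j x) = j (α.f g x) := by
  have := alg_rat F E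
  obtain ⟨j, hj⟩ := lim_emb (Γ := α.V) (fun g x => α.f g x) (fun g x => (g : G1) x) fun s => by
    obtain ⟨W₁, h₁⟩ := exists_fix_finset (F := F) s
    obtain ⟨W₂, h₂⟩ := exists_fix_roots (F := F) (E := E) 4 (by norm_num)
    obtain ⟨W, hW⟩ := exists_normal_le (W₁.toOpenSubgroup ⊓ W₂.toOpenSubgroup ⊓ α.imgO ⊤)
    obtain ⟨τ, hτ⟩ := exists_equiv (T := W.toOpenSubgroup) hE hK (fun t ht =>
      ⟨fun i hi => h₂ t (hW t ht).1.2 i (by rw [show 4 = 2 * 2 from rfl, pow_mul, hi]; norm_num), by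
        obtain ⟨g, -, h⟩ := α.mem_imgO.1 (hW t ht).2
        exact ⟨g, h⟩⟩) fun g u hu => W.isNormal'.conj_mem u hu g
    exact ⟨(Fx W.toOpenSubgroup).toSubfield, τ,
      fun x hx => mem_Fx.2 fun g hg => h₁ g (hW g hg).1.1 x hx, fun γ x y => hτ γ γ.2 x y⟩
  exact ⟨j, fun g hg x => (hj ⟨g, hg⟩ x).symm⟩

end Vale.Agent.P024
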