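import Vale.Agent.P024.EtaA
import Vale.Agent.P024.Tame
import Vale.Agent.P024.RedZ

/-! # P024 Eta (TASK; helper lemma names start with `eta_` or are private)
Characters that kill the images of the decomposition groups.  PLAN.  `g` a Frobenius element with `FrobU α.V (A i) N g` (`exists_lies`, `exists_frobU`), `N > 1`, `k = padicValNat (q i) (N - 1) + 1`, `l1`, `l2` from `exists_l12`.
`IsCh.pre`, `IsCh.mono`; `ch_II` with `n = q i ^ k` gives `(N - 1) • l (α τ) = 0` for `τ ∈ α.V ⊓ II (A i)`, so the reduction modulo `q i` vanishes (`red_eq_zero`).  Choose `(a, b) ≠ 0` with `a * red (l1 (α g)) + b * red (l2 (α g)) = 0`; `η = a * red l1 + b * red l2`; `FrobU.ch_mul`. -/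

namespace Vale.Agent.P024

open NumberField IsDedekindDomain Filter
open scoped Pointwise Topology

set_option linter.unusedSectionVars false

variable {F E : Type*} [Field F] [NumberField F] [Field E] [CharZero E] [Algebra F E] [IsGalois F E]

theorem eta_ab {K : Type*} [CommRing K] [Nontrivial K] (x y : K) :
    ∃ a b : K, ¬(a = 0 ∧ b = 0) ∧ a * x + b * y = 0 := by
  by_cases h : x = 0 ∧ y = 0
  · exact ⟨1, 0, fun e => one_ne_zero e.1, by simp [h.1]⟩
  · exact ⟨y, -x, fun e => h ⟨neg_eq_zero.1 e.2, e.1⟩, by ring⟩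

theorem exists_eta (hE : RC E) {α : OH G1 Gal(E/F)} {T : OpenSubgroup Gal(E/F)}
    (hT : ∀ g ∈ α.V, α.f g ∈ T) {r : ℕ} (q : Fin r → ℕ)
    (hq : ∀ j, (q j).Prime) (hi : Function.Injective q) (h2 : ∀ j, q j ≠ 2)
    (hb : ∀ j, Module.finrank ℚ (Fx T) < q j) (B : Fin r → ValuationSubring E)
    (hB : ∀ j, Ov (B j) (q j)) (p : Fin r → ℕ) (hp : ∀ j, (p j).Prime) (hne : ∀ j, p j ≠ q j)
    (A : Fin r → ValuationSubring Qb) (hA : ∀ j, Ov (A j) (p j))
    (hD : ∀ j, ∀ g ∈ α.V, g ∈ DD ℚ (A j) → α.f g ∈ DD F (B j)) (i : Fin r) :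
    ∃ η : Gal(E/F) → ZMod (q i), IsCh T η ∧
      (∀ j, ∀ g ∈ α.V, g ∈ DD ℚ (A j) → η (α.f g) = 0) ∧ ∃ h ∈ T, h ∈ DD F (B i) ∧ η h ≠ 0 := by
  obtain ⟨P, hP⟩ := exists_lies (hA i) (hp i) (inc α.V)
  obtain ⟨g, hg⟩ := exists_frobU hP
  generalize nrm P = N at hg
  have hN : N - 1 ≠ 0 := by
    obtain ⟨p', f, hp', -, hf, rfl⟩ := hg.pw
    have := Nat.one_lt_pow hf.ne' hp'.one_lt
    omega
  have hk : 0 < padicValNat (q i) (N - 1) + 1 := Nat.succ_pos _
  obtain ⟨l1, l2, h1, h2', hz, hab⟩ := exists_l12 hE T q hq hi h2 hb B hB i hk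
  have := Fact.mk (hq i)
  set red := ZMod.castHom (dvd_pow_self (q i) hk.ne') (ZMod (q i)) with hred
  have hpre : ∀ {Q : Type} [AddCommGroup Q] {l : Gal(E/F) → Q}, IsCh T l →
      IsCh α.V fun u => l (α.f u) :=
    fun hl => (IsCh.pre α hl).mono fun u hu => ⟨hu, hT u hu⟩
  have hI : ∀ {l : Gal(E/F) → ZMod (q i ^ (padicValNat (q i) (N - 1) + 1))}, IsCh T l →
      ∀ u ∈ α.V, u ∈ II ℚ (A i) → red (l (α.f u)) = 0 := by
    intro l hl u hu hu'
    have e := ch_II hg (hp i) (hA i) (hpre hl) (n := q i ^ (padicValNat (q i) (N - 1) + 1))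
      (fun h => hne i ((Nat.prime_dvd_prime_iff_eq (hp i) (hq i)).1 ((hp i).dvd_of_dvd_pow h)))
      (fun y => by rw [nsmul_eq_mul, ZMod.natCast_self, zero_mul]) hu hu'
    exact red_eq_zero (hq i) hN (by rw [pow_succ']) _ e
  obtain ⟨a, b, hne0, he⟩ := eta_ab (red (l1 (α.f g))) (red (l2 (α.f g)))
  have hη : IsCh T fun h => a * red (l1 h) + b * red (l2 h) :=
    (h1.comp ((AddMonoidHom.mulLeft a).comp red.toAddMonoidHom)).add'
      (h2'.comp ((AddMonoidHom.mulLeft b).comp red.toAddMonoidHom))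
  refine ⟨fun h => a * red (l1 h) + b * red (l2 h), hη, fun j u hu hu' => ?_, ?_⟩
  · by_cases hj : j = i
    · subst hj
      obtain ⟨n, hn⟩ := hg.ch_mul (hpre hη)
        (fun v hv hv' => by rw [hI h1 v hv hv', hI h2' v hv hv']; simp) hu hu'
      simp only at hn ⊢
      rw [hn, he, smul_zero]
    · obtain ⟨e1, e2⟩ := hz j hj _ (hT u hu) (hD j u hu hu')
      simp only
      rw [e1, e2]; simp
  · by_contra hc
    push Not at hc
    exact hne0 (hab a b hc)

end Vale.Agent.P024
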