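import Vale.Agent.P024.KumT
import Vale.Agent.P024.EtaR
import Vale.Agent.P024.PrD

/-! # P024 EtaA (TASK; helper lemma names start with `etaA_` or are private)
Two cyclotomic characters.  PLAN.  `cyc_ch_DD`: `P` from `exists_lies`, `g` from `exists_frobU`, `nrm P = q'^f` with `0 < f ≤ finrank < q` (`nrm_eq_pow`); `lam (cyc t g) = lam (q'^f) = f • lam q'` (`cyc_frob`); inertia: `cyc_II`, `lam 1 = 0`.
`exists_l12`: `q = q i`; `t j` from `exists_t q i j`, `lam j` from `exists_lam_prime`, `lc` from `exists_lam_pow`.  `l1 = lam i ∘ cyc (t i)`, `l2 = lc ∘ cyc (q^(k+1)) - ∑ j ≠ i, c j * lam j ∘ cyc (t j)` where `c j : ZMod (q^k)` lifts `red (lc (q j)) / red (lam j (q j))`.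
For `j ≠ i` the reductions of `l1`, `l2` kill inertia and one Frobenius element `g` at `B j` (the same `g` and `f` for all moduli), hence `T ⊓ DD (B j)` by `FrobU.ch_mul`.  Independence: `τ` from `exists_II_cyc` gives `b = 0`, then a Frobenius element at `B i` gives `a = 0`. -/

namespace Vale.Agent.P024

open NumberField IsDedekindDomain Filter
open scoped Pointwise Topology

set_option linter.unusedSectionVars false

variable {F E : Type*} [Field F] [NumberField F] [Field E] [CharZero E] [Algebra F E] [IsGalois F E]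

theorem etaA_one {t m : ℕ} {lam : ZMod t → ZMod m}
    (h : ∀ x y, IsUnit x → IsUnit y → lam (x * y) = lam x + lam y) : lam 1 = 0 := by
  have := h 1 1 isUnit_one isUnit_one
  rw [mul_one] at this
  exact left_eq_add.1 this

theorem etaA_pow {t m : ℕ} {lam : ZMod t → ZMod m}
    (h : ∀ x y, IsUnit x → IsUnit y → lam (x * y) = lam x + lam y) {x : ZMod t} (hx : IsUnit x)
    (f : ℕ) : lam (x ^ f) = f * lam x := by
  induction f with
  | zero => simp [etaA_one h]
  | succ f ih =>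
    rw [pow_succ, h _ _ (hx.pow f) hx, ih]
    push_cast
    ring

theorem etaA_unit {t p : ℕ} (hp : p.Prime) (h : ¬p ∣ t) : IsUnit (p : ZMod t) :=
  (ZMod.isUnit_iff_coprime p t).2 ((Nat.Prime.coprime_iff_not_dvd hp).2 h)

theorem cyc_ch_DD (hE : RC E) (T : OpenSubgroup Gal(E/F)) {q' : ℕ} (hq' : q'.Prime)
    {B : ValuationSubring E} (hB : Ov B q') :
    ∃ (N f : ℕ) (g : Gal(E/F)), FrobU T B N g ∧ 0 < f ∧ f ≤ Module.finrank ℚ (Fx T) ∧
      ∀ (t : ℕ) [NeZero t] (m : ℕ) (lam : ZMod t → ZMod m), ¬q' ∣ t →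
        (∀ x y, IsUnit x → IsUnit y → lam (x * y) = lam x + lam y) →
        lam (cyc t g) = f * lam q' ∧ ∀ τ ∈ II F B, lam (cyc t τ) = 0 := by
  obtain ⟨P, hP⟩ := exists_lies hB hq' (inc T)
  obtain ⟨g, hg⟩ := exists_frobU hP
  obtain ⟨f, f0, f1, f2⟩ := nrm_eq_pow hq' (hP.ov.1 hB)
  refine ⟨_, f, g, hg, f0, f1, fun t _ m lam ht hl => ⟨?_, fun τ hτ => ?_⟩⟩
  · rw [cyc_frob hE hq' hB ht hg.frob, f2, Nat.cast_pow, etaA_pow hl (etaA_unit hq' ht)]
  · rw [cyc_II hE hq' hB ht hτ, etaA_one hl]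

theorem exists_l12 (hE : RC E) (T : OpenSubgroup Gal(E/F)) {r : ℕ} (q : Fin r → ℕ)
    (hq : ∀ j, (q j).Prime) (hi : Function.Injective q) (h2 : ∀ j, q j ≠ 2)
    (hb : ∀ j, Module.finrank ℚ (Fx T) < q j) (B : Fin r → ValuationSubring E)
    (hB : ∀ j, Ov (B j) (q j)) (i : Fin r) {k : ℕ} (hk : 0 < k) :
    ∃ l1 l2 : Gal(E/F) → ZMod (q i ^ k), IsCh T l1 ∧ IsCh T l2 ∧
      (∀ j, j ≠ i → ∀ h ∈ T, h ∈ DD F (B j) →
        ZMod.castHom (dvd_pow_self (q i) hk.ne') (ZMod (q i)) (l1 h) = 0 ∧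
        ZMod.castHom (dvd_pow_self (q i) hk.ne') (ZMod (q i)) (l2 h) = 0) ∧
      ∀ a b : ZMod (q i), (∀ h ∈ T, h ∈ DD F (B i) →
        a * ZMod.castHom (dvd_pow_self (q i) hk.ne') (ZMod (q i)) (l1 h) +
        b * ZMod.castHom (dvd_pow_self (q i) hk.ne') (ZMod (q i)) (l2 h) = 0) → a = 0 ∧ b = 0 := by
  classical
  have : Fact (q i).Prime := ⟨hq i⟩
  have : NeZero (q i ^ (k + 1)) := ⟨pow_ne_zero _ (hq i).ne_zero⟩
  choose t t1 t2 t3 t4 t5 using fun j => exists_t q hq hi i j (h2 i) k hk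
  have : ∀ j, NeZero (t j) := fun j => ⟨(t1 j).ne_zero⟩
  choose lam l1 l2 using fun j => exists_lam_prime (t1 j) (hq i) hk (t3 j)
  obtain ⟨lc, c1, c2⟩ := exists_lam_pow (hq i) (h2 i) hk
  set red := ZMod.castHom (dvd_pow_self (q i) hk.ne') (ZMod (q i)) with hred
  have nd : ∀ j j', ¬q j' ∣ t j := fun j j' h =>
    t2 j j' ((Nat.prime_dvd_prime_iff_eq (hq j') (t1 j)).1 h).symm
  have n1 : ∀ j, red (lam j (q j)) ≠ 0 := fun j h =>
    t4 j ((l2 j _ (etaA_unit (hq j) (nd j j))).1 h)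
  have n2 : ∀ j j', j' ≠ j → red (lam j (q j')) = 0 := fun j j' h =>
    (l2 j _ (etaA_unit (hq j') (nd j j'))).2 (t5 j j' h)
  choose c hc using fun j => ZMod.castHom_surjective (dvd_pow_self (q i) hk.ne')
    (red (lc (q j)) / red (lam j (q j)))
  have ch1 : IsCh T fun g => lam i (cyc (t i) g) := isCh_cyc hE T _ (l1 i)
  have ch2 : IsCh T fun g => lc (cyc (q i ^ (k + 1)) g) -
      ∑ j ∈ Finset.univ.erase i, c j * lam j (cyc (t j) g) :=
    (isCh_cyc hE T _ c1).sub' (isCh_sum _ fun j _ =>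
      (isCh_cyc hE T _ (l1 j)).comp (AddMonoidHom.mulLeft (c j)))
  refine ⟨_, _, ch1, ch2, fun j hj h hT hD => ?_, fun a b hab => ?_⟩
  · obtain ⟨N, f, g, hg, -, -, hf⟩ := cyc_ch_DD hE T (hq j) (hB j)
    have hl := fun j' => hf (t j') _ (lam j') (nd j' j) (l1 j')
    have hl' := hf _ _ lc (fun e => hj (hi ((Nat.prime_dvd_prime_iff_eq (hq j) (hq i)).1
      ((hq j).dvd_of_dvd_pow e)))) c1
    constructor
    · obtain ⟨n, hn⟩ := hg.ch_mul (ch1.comp red.toAddMonoidHom)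
        (fun u _ hu => by rw [(hl i).2 u hu, map_zero]) hT hD
      refine hn.trans (smul_eq_zero_of_right _ ?_)
      change red _ = 0
      rw [(hl i).1, map_mul, n2 i j hj, mul_zero]
    · obtain ⟨n, hn⟩ := hg.ch_mul (ch2.comp red.toAddMonoidHom)
        (fun u _ hu => by simp [fun j' => (hl j').2 u hu, hl'.2 u hu]) hT hD
      refine hn.trans (smul_eq_zero_of_right _ ?_)
      change red _ = 0
      rw [map_sub, map_sum, Finset.sum_eq_single j (fun j' _ e => by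
        rw [(hl j').1, map_mul, map_mul, n2 j' j e.symm, mul_zero, mul_zero]) (by simp [hj]),
        (hl j).1, hl'.1, map_mul, map_mul, map_mul, hc]
      field_simp [n1 j]
      ring
  · obtain ⟨N, f, g, hg, f0, f1, hf⟩ := cyc_ch_DD hE T (hq i) (hB i)
    have hl := fun j' => hf (t j') _ (lam j') (nd j' i) (l1 j')
    obtain ⟨τ, hT, hτ, hy⟩ := exists_II_cyc hE (hq i) (h2 i) (hb i) (hB i) hk
    have hb0 : b = 0 := by
      have := hab τ hT hτ.1
      simp only [fun j' => (hl j').2 τ hτ, map_zero, mul_zero, Finset.sum_const_zero, sub_zero,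
        zero_add] at this
      exact (mul_eq_zero.1 this).resolve_right fun e => hy ((c2 _ (isUnit_cyc hE τ)).1 e)
    refine ⟨?_, hb0⟩
    have := hab g hg.mem hg.frob.1
    rw [hb0, zero_mul, add_zero, (hl i).1, map_mul, map_natCast] at this
    refine (mul_eq_zero.1 this).resolve_right (mul_ne_zero (fun e => ?_) (n1 i))
    exact absurd (Nat.le_of_dvd f0 ((ZMod.natCast_eq_zero_iff _ _).1 e)) (by have := hb i; omega)

end Vale.Agent.P024
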