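import Vale.Agent.P024.ExtA

/-! # P024 Ext (TASK; helper lemma names start with `ext_` or are private)
The maximal extension of `α`.  PLAN.  `OH.restrict`: same function; the image is open by `OH.isOpen_img`.
`glue`: `V' = {c * v}` is a subgroup (`V` normalises `C`) containing the open subgroup `V` (`Subgroup.isOpen_mono`); `f g = α v` for a chosen decomposition `g = c * v`, well defined by `hk`; `(c v) (c' v') = c (v c' v⁻¹) v v'`;
continuity on each coset `c V` (there `f g = α (c⁻¹ g)`); the image is that of `α`.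
`ext`: `C T = {s | Deg α T s}` is an open, hence closed, subgroup (contains `α.pre T`); `C = ⨅ T` over open normal `T`; `hk` by `Deg.mem` and `eq_one_of_forall_mem`, `hn` by `Deg.conj`.  `β` from `glue`.
The closed sets `C T \ β.V` decrease (`Deg.anti`) and have empty intersection, so one is empty (`syl_inter` or `IsCompact.nonempty_iInter_of_directed_nonempty_isCompact_isClosed`): `C T1 ≤ β.V`.
Take `T` open normal inside `T1`, `α.imgO ⊤` and `exists_fix_roots 8`; `α' = β.restrict (β.pre T)`, `U = α.pre T`.  If the last clause fails then `Deg α' T s` with `W = core α'.V`, so `Deg α T s` (`Deg.congr`), `s = c v`, `v = c⁻¹ s ∈ C T`, `α v ∈ T`, `s ∈ α'.V`. -/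

namespace Vale.Agent.P024

open NumberField IsDedekindDomain Filter
open scoped Pointwise Topology

set_option linter.unusedSectionVars false

variable {F E : Type*} [Field F] [NumberField F] [Field E] [CharZero E] [Algebra F E] [IsGalois F E]

/-- restriction to a smaller open subgroup -/
def OH.restrict (α : OH G1 Gal(E/F)) (U : OpenSubgroup G1) (h : U ≤ α.V) : OH G1 Gal(E/F) where
  V := U
  f := α.f
  mul := fun g hg g' hg' => α.mul g (h hg) g' (h hg')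
  cont := α.cont.mono h
  opn := by
    have e : α.f '' (U : Set G1) = (α.imgO U : Set Gal(E/F)) := by
      ext t
      exact ⟨fun ⟨g, hg, e⟩ => α.mem_imgO.2 ⟨g, hg, h hg, e⟩, fun ht =>
        let ⟨g, hg, _, e⟩ := α.mem_imgO.1 ht; ⟨g, hg, e⟩⟩
    rw [e]
    exact (α.imgO U).isOpen

theorem glue (α : OH G1 Gal(E/F)) (C : Subgroup G1)
    (hn : ∀ v ∈ α.V, ∀ c ∈ C, v * c * v⁻¹ ∈ C) (hk : ∀ c ∈ C, c ∈ α.V → α.f c = 1) :
    ∃ β : OH G1 Gal(E/F), (∀ g, g ∈ β.V ↔ ∃ c ∈ C, ∃ v ∈ α.V, g = c * v) ∧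
      ∀ c ∈ C, ∀ v ∈ α.V, β.f (c * v) = α.f v := by
  classical
  let S : Subgroup G1 :=
    { carrier := {g | ∃ c ∈ C, ∃ v ∈ α.V, g = c * v}
      one_mem' := ⟨1, C.one_mem, 1, α.V.one_mem, (mul_one 1).symm⟩
      mul_mem' := by
        rintro _ _ ⟨c, hc, v, hv, rfl⟩ ⟨c', hc', v', hv', rfl⟩
        exact ⟨c * (v * c' * v⁻¹), C.mul_mem hc (hn v hv c' hc'), v * v', α.V.mul_mem hv hv',
          by group⟩
      inv_mem' := by
        rintro _ ⟨c, hc, v, hv, rfl⟩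
        exact ⟨v⁻¹ * c⁻¹ * v⁻¹⁻¹, hn _ (α.V.inv_mem hv) _ (C.inv_mem hc), v⁻¹, α.V.inv_mem hv,
          by group⟩ }
  have hle : α.V.toSubgroup ≤ S := fun v hv => ⟨1, C.one_mem, v, hv, (one_mul v).symm⟩
  let f : G1 → Gal(E/F) := fun g => if h : ∃ v ∈ α.V, g * v⁻¹ ∈ C then α.f h.choose else 1
  have hf : ∀ c ∈ C, ∀ v ∈ α.V, f (c * v) = α.f v := fun c hc v hv => by
    have h : ∃ w ∈ α.V, c * v * w⁻¹ ∈ C := ⟨v, hv, by rwa [mul_inv_cancel_right]⟩
    have e : f (c * v) = α.f h.choose := dif_pos h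
    obtain ⟨h1, h2⟩ := h.choose_spec
    rw [mul_assoc, C.mul_mem_cancel_left hc] at h2
    have h3 := hk _ h2 (α.V.mul_mem hv (α.V.inv_mem h1))
    rw [α.mul _ hv _ (α.V.inv_mem h1), α.inv h1, mul_inv_eq_one] at h3
    rw [e, h3]
  refine ⟨⟨⟨S, Subgroup.isOpen_mono hle α.V.isOpen⟩, f, ?_, ?_, ?_⟩, fun _ => Iff.rfl, hf⟩
  · rintro _ ⟨c, hc, v, hv, rfl⟩ _ ⟨c', hc', v', hv', rfl⟩
    have e : c * v * (c' * v') = c * (v * c' * v⁻¹) * (v * v') := by group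
    rw [e, hf _ (C.mul_mem hc (hn v hv c' hc')) _ (α.V.mul_mem hv hv'), hf c hc v hv,
      hf c' hc' v' hv', α.mul v hv v' hv']
  · rintro _ ⟨c, hc, v, hv, rfl⟩
    have h1 : Continuous fun g : G1 => c⁻¹ * g := continuous_const.mul continuous_id
    have h2 : (α.V : Set G1) ∈ 𝓝 (c⁻¹ * (c * v)) :=
      α.V.isOpen.mem_nhds (by rwa [inv_mul_cancel_left])
    refine (((α.cont.continuousAt h2).comp (f := fun g : G1 => c⁻¹ * g)
      h1.continuousAt).congr ?_).continuousWithinAt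
    filter_upwards [h1.continuousAt.preimage_mem_nhds h2] with g hg
    rw [Function.comp_apply, ← hf c hc _ hg, mul_inv_cancel_left]
  · have e : f '' (S : Set G1) = α.f '' (α.V : Set G1) := by
      ext t
      constructor
      · rintro ⟨_, ⟨c, hc, v, hv, rfl⟩, rfl⟩
        exact ⟨v, hv, (hf c hc v hv).symm⟩
      · rintro ⟨v, hv, rfl⟩
        exact ⟨1 * v, ⟨1, C.one_mem, v, hv, rfl⟩, hf 1 C.one_mem v hv⟩
    exact e ▸ α.opn

/-- the degenerate elements form a subgroup -/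
def ext_C (hE : RC E) (α : OH G1 Gal(E/F)) (T : OpenNormalSubgroup Gal(E/F)) : Subgroup G1 where
  carrier := {s | Deg α T.toOpenSubgroup s}
  one_mem' := deg_of_mem hE (α.pre _).one_mem
  mul_mem' := Deg.mul
  inv_mem' := Deg.inv

theorem ext (hE : RC E) (α : OH G1 Gal(E/F)) :
    ∃ (α' : OH G1 Gal(E/F)) (T : OpenSubgroup Gal(E/F)), α'.Onto T ∧
      (∀ t ∈ T, ∀ z : E, z ^ 8 = 1 → t z = z) ∧
      (∃ U : OpenSubgroup G1, U ≤ α.V ∧ U ≤ α'.V ∧ ∀ g ∈ U, α'.f g = α.f g) ∧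
      ∀ s, s ∉ α'.V → ∀ Y : Subgroup (Fx T)ˣ,
        (∀ x ∈ Y, ∀ u ∈ core α'.V,
          sg (α'.f (s * u * s⁻¹)) ((x : Fx T) : E) = sg (α'.f u) ((x : Fx T) : E)) →
        ¬Y.FiniteIndex := by
  obtain ⟨β, hV, hf⟩ := glue α (⨅ T, ext_C hE α T)
    (fun v hv c hc => Subgroup.mem_iInf.2 fun T => Deg.conj hE
      (fun g u hu => T.isNormal'.conj_mem u hu g) (Subgroup.mem_iInf.1 hc T) hv)
    (fun c hc hv => eq_one_of_forall_mem fun T => Deg.mem hE (Subgroup.mem_iInf.1 hc T) hv)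
  have hV1 : ∀ v ∈ α.V, v ∈ β.V := fun v hv =>
    (hV v).2 ⟨1, Subgroup.one_mem _, v, hv, (one_mul v).symm⟩
  have hf1 : ∀ v ∈ α.V, β.f v = α.f v := fun v hv => by
    rw [← hf 1 (Subgroup.one_mem _) v hv, one_mul]
  obtain ⟨T1, hT1⟩ : ∃ T1, ∀ s ∈ ext_C hE α T1, s ∈ β.V := by
    by_contra hc
    push Not at hc
    haveI : Nonempty (OpenNormalSubgroup Gal(E/F)) := ⟨core ⊤⟩
    obtain ⟨x, hx⟩ := syl_inter (fun T => (ext_C hE α T : Set G1) ∩ (β.V : Set G1)ᶜ)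
      (fun T T' => ⟨T ⊓ T', fun s hs => ⟨Deg.anti hs.1 fun _ h => h.1, hs.2⟩,
        fun s hs => ⟨Deg.anti hs.1 fun _ h => h.2, hs.2⟩⟩) hc
      fun T => (Subgroup.isClosed_of_isOpen _ (Subgroup.isOpen_mono
        (H₁ := (α.pre T.toOpenSubgroup).toSubgroup) (fun _ h => deg_of_mem hE h)
        (α.pre _).isOpen)).inter β.V.isOpen.isClosed_compl
    exact (hx (core ⊤)).2 ((hV x).2 ⟨x, Subgroup.mem_iInf.2 fun T => (hx T).1, 1, α.V.one_mem,
      (mul_one x).symm⟩)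
  obtain ⟨W, hW⟩ := exists_fix_roots (F := F) (E := E) 8 (by norm_num)
  set T : OpenNormalSubgroup Gal(E/F) := T1 ⊓ (core (α.imgO ⊤) ⊓ W) with hT
  refine ⟨β.restrict (β.pre T.toOpenSubgroup) fun _ h => h.1, T.toOpenSubgroup,
    ⟨fun g hg => hg.2, fun t ht => ?_⟩, fun t ht => hW t ht.2.2,
    ⟨α.pre T.toOpenSubgroup, fun _ h => h.1, fun g hg => ⟨hV1 g hg.1, (hf1 g hg.1).symm ▸ hg.2⟩,
      fun g hg => hf1 g hg.1⟩, fun s hs Y hY hfin => hs ?_⟩
  · obtain ⟨g, -, hg, rfl⟩ := α.mem_imgO.1 (core_le (U := α.imgO ⊤) ht.2.1)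
    exact ⟨g, ⟨hV1 g hg, (hf1 g hg).symm ▸ ht⟩, hf1 g hg⟩
  · have h1 : Deg (β.restrict (β.pre T.toOpenSubgroup) fun _ h => h.1) T.toOpenSubgroup s :=
      ⟨core _, fun u hu => ⟨core_le hu, (core_le hu).2⟩, Y, hfin, hY⟩
    have h2 : s ∈ ext_C hE α T := h1.congr α.V le_rfl fun g hg => (hf1 g hg).symm
    have h3 := hT1 s (Deg.anti h2 fun _ h => h.1)
    obtain ⟨c, hc, v, hv, rfl⟩ := (hV s).1 h3
    rw [Subgroup.mul_mem_cancel_left _ (Subgroup.mem_iInf.1 hc T)] at h2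
    exact ⟨h3, (hf c hc v hv).symm ▸ Deg.mem hE h2 hv⟩

end Vale.Agent.P024
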