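import Vale.Agent.P024.IdxB

/-! # P024 ExtA (TASK; helper lemma names start with `extA_` or are private)
Elements of `G1` that almost commute with `α` on quadratic characters.  PLAN.  `Deg.mul`, `Deg.inv`: intersect the `W` and the `Y`, and substitute `u' = t u t⁻¹`, `u' = s⁻¹ u s`.  `deg_of_mem`: `W = core (α.pre T)`, `Y = ⊤`, `OH.conj`, `IsCh.conj` for `isCh_sg`.
`Deg.mem`: if `σ = α s ∉ T` put `T' = α.imgO W ≤ T` (normalised by `σ`), `φ1 = incl`, `φ2 = resE σ⁻¹ T T'`; they differ by `mem_of_fix`.  For `x ∈ Y`, `t = α u ∈ T'`: `sg t x = sg (σ t σ⁻¹) x = sg t (σ⁻¹ x)` (`sg_conj`), so `sg t (x * σ⁻¹ x) = 0` (`sg_mul_right`) and `isSquare_iff_sg` contradicts `exists_twist`.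
`Deg.anti`: same `W`, and the comap of `Y` under `Units.map (incl h)`.  `Deg.conj`: same `W`, comap of `Y` under `resE (α v)⁻¹ T T`; `u' = v⁻¹ u v`, `sg_conj` twice.  `Deg.congr`: `W ⊓ core U`. -/

namespace Vale.Agent.P024

open NumberField IsDedekindDomain Filter
open scoped Pointwise Topology

set_option linter.unusedSectionVars false

variable {F E : Type*} [Field F] [NumberField F] [Field E] [CharZero E] [Algebra F E] [IsGalois F E]

/-- `s` almost commutes with `α` on the quadratic characters of `T` -/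
def Deg (α : OH G1 Gal(E/F)) (T : OpenSubgroup Gal(E/F)) (s : G1) : Prop :=
  ∃ W : OpenNormalSubgroup G1, (∀ u ∈ W, u ∈ α.pre T) ∧ ∃ Y : Subgroup (Fx T)ˣ, Y.FiniteIndex ∧
    ∀ x ∈ Y, ∀ u ∈ W, sg (α.f (s * u * s⁻¹)) ((x : Fx T) : E) = sg (α.f u) ((x : Fx T) : E)

variable {α : OH G1 Gal(E/F)} {T T' : OpenSubgroup Gal(E/F)} {s t : G1}

theorem extA_comap {A B : Type*} [Group A] [Group B] (f : A →* B) (Y : Subgroup B)
    (h : Y.FiniteIndex) : (Y.comap f).FiniteIndex :=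
  ⟨by rw [Subgroup.index_comap]; exact Subgroup.FiniteIndex.index_ne_zero⟩

theorem extA_conj (W : OpenNormalSubgroup G1) {u : G1} (hu : u ∈ W) (g : G1) : g * u * g⁻¹ ∈ W :=
  W.isNormal'.conj_mem u hu g

theorem extA_conj' (W : OpenNormalSubgroup G1) {u : G1} (hu : u ∈ W) (g : G1) : g⁻¹ * u * g ∈ W :=
  W.isNormal'.conj_mem' u hu g

theorem extA_sg (hE : RC E) (g h : Gal(E/F)) (x : E) : sg (g * h * g⁻¹) x = sg h (g⁻¹ x) := by
  rw [← sg_conj hE g h, ← AlgEquiv.mul_apply, mul_inv_cancel, AlgEquiv.one_apply]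

theorem Deg.mul (h : Deg α T s) (h' : Deg α T t) : Deg α T (s * t) := by
  obtain ⟨W, hW, Y, hY, h⟩ := h
  obtain ⟨W', hW', Y', hY', h'⟩ := h'
  refine ⟨W ⊓ W', fun u hu => hW u hu.1, Y ⊓ Y', inferInstance, fun x hx u hu => ?_⟩
  have e : s * t * u * (s * t)⁻¹ = s * (t * u * t⁻¹) * s⁻¹ := by group
  rw [e, h x hx.1 _ (extA_conj W hu.1 t), h' x hx.2 u hu.2]

theorem Deg.inv (h : Deg α T s) : Deg α T s⁻¹ := by
  obtain ⟨W, hW, Y, hY, h⟩ := h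
  refine ⟨W, hW, Y, hY, fun x hx u hu => ?_⟩
  have h1 := h x hx _ (extA_conj W hu s⁻¹)
  have e : s * (s⁻¹ * u * s⁻¹⁻¹) * s⁻¹ = u := by group
  rw [e] at h1
  exact h1.symm

theorem deg_of_mem (hE : RC E) (h : s ∈ α.pre T) : Deg α T s := by
  refine ⟨core (α.pre T), fun u hu => core_le hu, ⊤, inferInstance, fun x _ u hu => ?_⟩
  have hu' := core_le hu
  rw [α.conj h.1 hu'.1]
  exact (isCh_sg hE (mem_Fx.1 (x : Fx T).2)).conj h.2 hu'.2

theorem Deg.mem (hE : RC E) (h : Deg α T s) (hs : s ∈ α.V) : α.f s ∈ T := by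
  obtain ⟨W, hW, Y, hY, h⟩ := h
  by_contra hcon
  have hle : α.imgO W.toOpenSubgroup ≤ T := by
    rintro _ ⟨u, hu, -, rfl⟩
    exact (hW u hu).2
  have hc : ∀ t ∈ α.imgO W.toOpenSubgroup, (α.f s)⁻¹⁻¹ * t * (α.f s)⁻¹ ∈ T := by
    rintro _ ⟨u, hu, hu', rfl⟩
    rw [inv_inv, ← α.conj hs hu']
    exact (hW _ (extA_conj W hu s)).2
  have hne : incl hle ≠ resE (α.f s)⁻¹ T _ hc := fun e => by
    refine hcon (T.toSubgroup.inv_mem_iff.1 (mem_of_fix fun x hx => ?_))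
    exact (congrArg Subtype.val (DFunLike.congr_fun e ⟨x, hx⟩)).symm
  obtain ⟨y, hy, hsq⟩ := exists_twist hne Y
  refine hsq ((isSquare_iff_sg hE _).2 fun t ht => ?_)
  have h1 := mem_Fx.1 (incl hle y).2 t ht
  have h2 := mem_Fx.1 (resE (α.f s)⁻¹ T _ hc y).2 t ht
  have hy0 : ((y : Fx T) : E) ≠ 0 := fun e => y.ne_zero (Subtype.ext e)
  obtain ⟨u, hu, hu', rfl⟩ := ht
  have h3 := h y hy u hu
  rw [α.conj hs hu', extA_sg hE] at h3
  change sg (α.f u) (((y : Fx T) : E) * (α.f s)⁻¹ ((y : Fx T) : E)) = 0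
  rw [sg_mul_right hE hy0 ((map_ne_zero _).2 hy0) h1 h2, h3]
  exact CharTwo.add_self_eq_zero _

theorem Deg.anti (h : Deg α T' s) (hT : T' ≤ T) : Deg α T s := by
  obtain ⟨W, hW, Y, hY, h⟩ := h
  exact ⟨W, fun u hu => ⟨(hW u hu).1, hT (hW u hu).2⟩,
    Y.comap (Units.map (incl hT : Fx T →* Fx T')), extA_comap _ Y hY, fun x hx u hu => h _ hx u hu⟩

theorem Deg.conj (hE : RC E) (hn : ∀ g, ∀ u ∈ T, g * u * g⁻¹ ∈ T) (h : Deg α T s) {v : G1}
    (hv : v ∈ α.V) : Deg α T (v * s * v⁻¹) := by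
  obtain ⟨W, hW, Y, hY, h⟩ := h
  have hc : ∀ t ∈ T, (α.f v)⁻¹⁻¹ * t * (α.f v)⁻¹ ∈ T := fun t ht => by
    rw [inv_inv]
    exact hn _ t ht
  refine ⟨W, hW, Y.comap (Units.map (resE (α.f v)⁻¹ T T hc : Fx T →* Fx T)), extA_comap _ Y hY,
    fun x hx u hu => ?_⟩
  have hu' := extA_conj' W hu v
  have h1 : sg (α.f (s * (v⁻¹ * u * v) * s⁻¹)) ((α.f v)⁻¹ ((x : Fx T) : E)) =
      sg (α.f (v⁻¹ * u * v)) ((α.f v)⁻¹ ((x : Fx T) : E)) := h _ hx _ hu'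
  rw [← extA_sg hE, ← extA_sg hE, ← α.conj hv (hW _ (extA_conj W hu' s)).1,
    ← α.conj hv (hW _ hu').1] at h1
  have e1 : v * s * v⁻¹ * u * (v * s * v⁻¹)⁻¹ = v * (s * (v⁻¹ * u * v) * s⁻¹) * v⁻¹ := by group
  have e2 : v * (v⁻¹ * u * v) * v⁻¹ = u := by group
  rw [e2] at h1
  rw [e1]
  exact h1

theorem Deg.congr (h : Deg α T s) {α' : OH G1 Gal(E/F)} (U : OpenSubgroup G1) (hU : U ≤ α'.V)
    (e : ∀ g ∈ U, α'.f g = α.f g) : Deg α' T s := by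
  obtain ⟨W, hW, Y, hY, h⟩ := h
  refine ⟨W ⊓ core U, fun u hu => ⟨hU (core_le hu.2), ?_⟩, Y, hY, fun x hx u hu => ?_⟩
  · rw [e u (core_le hu.2)]
    exact (hW u hu.1).2
  · rw [e u (core_le hu.2), e _ (mem_core.1 hu.2 s)]
    exact h x hx u hu.1

end Vale.Agent.P024
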