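import Vale.Agent.P024.Key
import Vale.Agent.P024.Emb
import Vale.Agent.P024.Red
import Vale.Agent.P024.Solv

/-! # P024 Fin: the final assembly -/

namespace Vale.Agent.P024

theorem uchida (F₁ F₂ E₁ E₂ : Type*) [Field F₁] [NumberField F₁] [Field F₂] [NumberField F₂]
    [Field E₁] [Algebra F₁ E₁] [IsGalois F₁ E₁] [Field E₂] [Algebra F₂ E₂] [IsGalois F₂ E₂]
    (h₂ : ∀ L : IntermediateField E₂ (AlgebraicClosure E₂), IsAbelianGalois E₂ L → L = ⊥)
    (α : Gal(E₁/F₁) →* Gal(E₂/F₂)) (hc : Continuous α) (ho : IsOpen (Set.range α)) :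
    ∃ j : E₂ →+* E₁, ∀ (g : Gal(E₁/F₁)) (x : E₂), g (j x) = j (α g x) := by
  haveI : CharZero E₁ := charZero_of_injective_algebraMap (algebraMap F₁ E₁).injective
  haveI : CharZero E₂ := charZero_of_injective_algebraMap (algebraMap F₂ E₂).injective
  have hE := rc_of_solv E₂ h₂
  obtain ⟨e, ρ, h1, h2, h3⟩ := exists_res_OH F₁ E₁
  let β : OH G1 Gal(E₂/F₂) :=
    { V := ρ.V
      f := fun g => α (ρ.f g)
      mul := fun g hg g' hg' => by rw [ρ.mul g hg g' hg', map_mul]
      cont := hc.comp_continuousOn ρ.cont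
      opn := by
        convert ho using 1
        ext t
        constructor
        · rintro ⟨g, -, rfl⟩
          exact ⟨_, rfl⟩
        · rintro ⟨σ, rfl⟩
          obtain ⟨g, hg, rfl⟩ := h2 σ
          exact ⟨g, hg, rfl⟩ }
  obtain ⟨j0, hj⟩ := uchida_of_key hE (key hE β)
  have hr : ∀ x, ∃ y, e y = j0 x := fun x => h3 _ fun g hg e1 => by
    have := hj g hg x
    simpa [β, e1] using this
  choose j hj' using hr
  refine ⟨⟨⟨⟨j, ?_⟩, fun x y => ?_⟩, ?_, fun x y => ?_⟩, fun σ x => ?_⟩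
  · exact e.injective (by rw [hj', map_one, map_one])
  · exact e.injective (by rw [map_mul, hj', hj', hj', map_mul])
  · exact e.injective (by rw [hj', map_zero, map_zero])
  · exact e.injective (by rw [map_add, hj', hj', hj', map_add])
  · obtain ⟨g, hg, rfl⟩ := h2 σ
    refine e.injective ?_
    change e (ρ.f g (j x)) = e (j (α (ρ.f g) x))
    rw [← h1 g hg, hj', hj']
    exact hj g hg x

end Vale.Agent.P024
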