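import Vale.Agent.P024.KeyC
import Vale.Agent.P024.KeyA
import Vale.Agent.P024.Chi0
import Vale.Agent.P024.Eta
import Vale.Agent.P024.Ext
import Vale.Agent.P024.LocD

/-! # P024 Key (TASK; helper lemma names start with `key_` or are private)
Residue characteristics agree.  PLAN.  `onto_core`: `m = (core V).index`, `g^m ∈ core V` (`Subgroup.pow_index_mem`); `u i = (g i ^ m)^(∏ j ≠ i, q j)` has `η i (u i) ≠ 0`, `η j (u i) = 0`; a product of powers of the `u i` (induction over finsets, `IsCh.add`, `IsCh.pow`).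
`key`: suppose the set is infinite; `α'`, `T` from `ext`; `Good.congr` transfers to `α'`.  `Rel p q := p.Prime ∧ q.Prime ∧ p ≠ q ∧ ∃ A B, Good α' A B ∧ Ov A p ∧ Ov B q`; `exists_pairs` (`good_finite`) with `d = α'.V.index`, `r = d (4 d + 1)`, `b = (core α'.V).index + finrank ℚ (Fx T) + 2 r + 2`.
`Good.DD`, `exists_eta`, `exists_chi0`; `l` from `Nat.exists_prime_gt_modEq_one` with modulus `∏ q i`, larger than `2 + ∑ p i`; `U2` the kernel; `keyA`; `key_g1` with `Δ = ∀ i, ZMod (q i)` (`ZMod.card`, `Fintype.card_pi`), `η0 ∘ α'.f`, `prod_le_two_mul`. -/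

namespace Vale.Agent.P024

open NumberField IsDedekindDomain Filter
open scoped Pointwise Topology

set_option linter.unusedSectionVars false

variable {F E : Type*} [Field F] [NumberField F] [Field E] [CharZero E] [Algebra F E] [IsGalois F E]

theorem onto_core {V : OpenSubgroup G1} {r : ℕ} (q : Fin r → ℕ) (hq : ∀ j, (q j).Prime)
    (hi : Function.Injective q) (hb : ∀ j, (core V).toSubgroup.index < q j)
    {η : ∀ i, G1 → ZMod (q i)} (c1 : ∀ i, IsCh V (η i)) (h : ∀ i, ∃ g ∈ V, η i g ≠ 0)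
    (ν : ∀ i, ZMod (q i)) : ∃ u ∈ core V, ∀ i, η i u = ν i := by
  classical
  let S : AddSubmonoid (∀ i, ZMod (q i)) :=
    { carrier := {z | ∃ u ∈ core V, ∀ i, η i u = z i}
      zero_mem' := ⟨1, (core V).toSubgroup.one_mem, fun i => (c1 i).one⟩
      add_mem' := by
        rintro a b ⟨u, hu, ha⟩ ⟨v, hv, hb⟩
        exact ⟨u * v, (core V).toSubgroup.mul_mem hu hv, fun i => by
          rw [(c1 i).add u (core_le hu) v (core_le hv), ha, hb, Pi.add_apply]⟩ }
  have hm : (core V).toSubgroup.index ≠ 0 := by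
    have := Subgroup.quotient_finite_of_isOpen (core V).toSubgroup (core V).isOpen
    exact Subgroup.index_ne_zero_of_finite
  have key : ∀ i, Pi.single i (ν i) ∈ S := by
    intro i
    have := Fact.mk (hq i)
    obtain ⟨g, hg, h0⟩ := h i
    set n := (core V).toSubgroup.index * ∏ j ∈ Finset.univ.erase i, q j with hn
    have hn0 : (n : ZMod (q i)) ≠ 0 := by
      rw [Ne, ZMod.natCast_eq_zero_iff, hn, (hq i).dvd_mul]
      rintro (hd | hd)
      · exact absurd (Nat.le_of_dvd (Nat.pos_of_ne_zero hm) hd) (not_le.2 (hb i))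
      · obtain ⟨j, hj, hd⟩ := ((hq i).prime.dvd_finsetProd_iff _).1 hd
        exact (Finset.mem_erase.1 hj).1
          (hi ((Nat.prime_dvd_prime_iff_eq (hq i) (hq j)).1 hd)).symm
    refine ⟨g ^ (n * (ν i / (n * η i g)).val), ?_, fun j => ?_⟩
    · rw [hn, mul_assoc, pow_mul]
      exact (core V).toSubgroup.pow_mem (Subgroup.pow_index_mem (core V).toSubgroup g) _
    · rw [(c1 j).pow hg, nsmul_eq_mul, Nat.cast_mul]
      by_cases hj : j = i
      · subst hj
        rw [Pi.single_eq_same, ZMod.natCast_zmod_val]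
        field_simp
      · have : (n : ZMod (q j)) = 0 := by
          rw [ZMod.natCast_eq_zero_iff, hn]
          exact (Finset.dvd_prod_of_mem q (Finset.mem_erase.2 ⟨hj, Finset.mem_univ j⟩)).mul_left _
        rw [Pi.single_eq_of_ne hj, this, zero_mul, zero_mul]
  have := S.sum_mem (t := Finset.univ) fun i _ => key i
  rw [Finset.univ_sum_single] at this
  exact this

theorem key (hE : RC E) (α : OH G1 Gal(E/F)) : KeyFin α := by
  classical
  by_contra hinf
  obtain ⟨α', T, hT, h8, ⟨U, hU, hU', e⟩, hx⟩ := ext hE α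
  obtain ⟨p, q, hR, hpi, hqi, hne, hb⟩ := exists_pairs
    (fun p q => p.Prime ∧ q.Prime ∧ p ≠ q ∧ ∃ (A : ValuationSubring Qb) (B : ValuationSubring E),
      Good α' A B ∧ Ov A p ∧ Ov B q)
    (Set.Infinite.mono (by
      rintro q ⟨hq, A, B, p, h1, h2, h3, h4, h5⟩
      exact ⟨p, h2, hq, h5, A, B, h1.congr U hU hU' e, h3, h4⟩) hinf)
    (fun p => by
      by_cases hp : p.Prime
      · exact (good_finite hE α' hp).subset fun q hq => ⟨hq.2.1, hq.2.2.2⟩
      · exact Set.finite_empty.subset fun q hq => hp hq.1)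
    (fun p q h => h.2.2.1) (α'.V.toSubgroup.index * (4 * α'.V.toSubgroup.index + 1))
    ((core α'.V).toSubgroup.index + Module.finrank ℚ (Fx T) +
      2 * (α'.V.toSubgroup.index * (4 * α'.V.toSubgroup.index + 1)) + 2)
  generalize hr : α'.V.toSubgroup.index * (4 * α'.V.toSubgroup.index + 1) = r at p q hR hpi hqi hne hb
  choose hp hq _ A B hG hA hB using hR
  have h2 : ∀ j, q j ≠ 2 := fun j => by have := hb j; omega
  have hD : ∀ j, ∀ g ∈ α'.V, g ∈ DD ℚ (A j) → α'.f g ∈ DD F (B j) :=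
    fun j g hg hd => (hG j).DD hE hg hd
  choose η c1 hη0 hη1 using exists_eta hE hT.1 q hq hqi h2 (fun j => by have := hb j; omega) B hB p hp
    (fun j => hne j j) A hA hD
  obtain ⟨η0, c0, h00, h01, h02⟩ := exists_chi0 hE hT.1 hx q hq h2 B hB
  obtain ⟨l, hl, hlt, hmod⟩ := Nat.exists_prime_gt_modEq_one (k := ∏ i, q i) (2 + ∑ i, p i)
    (Finset.prod_ne_zero_iff.2 fun i _ => (hq i).ne_zero)
  have := Fact.mk hl
  have := fun i => (NeZero.mk (hq i).ne_zero : NeZero (q i))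
  have hl2 : l ≠ 2 := by omega
  have c0' : IsCh α'.V fun g => η0 (α'.f g) := hT.pre_eq ▸ IsCh.pre α' c0
  have c1' : ∀ i, IsCh α'.V fun g => η i (α'.f g) := fun i => hT.pre_eq ▸ IsCh.pre α' (c1 i)
  have hU2 : ∀ g, g ∈ c0'.ker ⊓ (isCh_pi c1').ker ↔
      g ∈ α'.V ∧ η0 (α'.f g) = 0 ∧ ∀ i, η i (α'.f g) = 0 := fun g =>
    ⟨fun a => ⟨a.1.1, a.1.2, fun i => congrFun a.2.2 i⟩,
      fun a => ⟨⟨a.1, a.2.1⟩, a.1, funext a.2.2⟩⟩
  obtain ⟨ι, _, hι, hc⟩ := keyA hE hT h8 q hq hqi h2 c0 c1 h01 B hB hη1 A hD hl2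
    (fun i => (Finset.dvd_prod_of_mem q (Finset.mem_univ i)).trans
      ((Nat.modEq_iff_dvd' hl.one_le).1 hmod.symm)) hU2
  have hΔ : Fintype.card (∀ i, ZMod (q i)) = ∏ i, q i := by
    rw [Fintype.card_pi]
    exact Finset.prod_congr rfl fun i _ => ZMod.card _
  refine key_g1 (Δ := ∀ i, ZMod (q i)) (U2 := c0'.ker ⊓ (isCh_pi c1').ker) ?_ c0' (isCh_pi c1') ?_ ?_
    h02 (fun g => ?_) hr.symm p hp hpi A hA (fun i g hg hd => ?_) hl2 (fun i => ?_) (ι := ι) ?_
    fun k => ?_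
  · rw [hΔ]
    exact Finset.prod_induction _ Odd (fun a b => Odd.mul) odd_one
      fun i _ => (hq i).odd_of_ne_two (h2 i)
  · obtain ⟨h, hh, h0⟩ := h01
    obtain ⟨g, hg, rfl⟩ := hT.2 h hh
    exact ⟨g, hg, h0⟩
  · intro ν
    obtain ⟨u, hu, hν⟩ := onto_core q hq hqi (fun j => by have := hb j; omega) c1' (fun i => by
      obtain ⟨h, hh, -, h0⟩ := hη1 i
      obtain ⟨g, hg, rfl⟩ := hT.2 h hh
      exact ⟨g, hg, h0⟩) ν
    exact ⟨u, hu, funext hν⟩
  · rw [hU2, funext_iff]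
    rfl
  · exact (hU2 g).2 ⟨hg, h00 i _ (hT.1 g hg) (hD i g hg hd), fun j => hη0 j i g hg hd⟩
  · have := Finset.single_le_sum (f := p) (fun j _ => Nat.zero_le _) (Finset.mem_univ i)
    omega
  · rw [hΔ, hι]
    exact prod_le_two_mul q fun j => by have := hb j; omega
  · obtain ⟨c, a1, a2, a3, a4, a5⟩ := hc k
    exact ⟨c, a1, a2, a3, fun a δ hδ b1 b2 => a4 a δ hδ b1 fun i => congrFun b2 i, a5⟩

end Vale.Agent.P024
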