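import Vale.Agent.P024.Cf
import Vale.Agent.P024.Dep

/-! # P024 KeyB (TASK; helper lemma names start with `keyB_` or are private)
From characters to congruences.  PLAN.  `ω` with `ω² + ω + 1 = 0`, `W = U ⊓ stab ω` (every `g` sends `ω` to `ω` or `ω² `, so `W` is normalised by `U` and `δ`, and `u * u ∈ W`), `ι1 ∈ U` with `U = W ∪ ι1 W` (`ι1 = 1` if `U ≤ W`).  `K = Fx U`, `K' = Fx W`, `hh = (Pm K' l 1).index ≠ 0` (`Pm_index`).
Apply `dep` with `a = card ι` (`finrank_Fx_rat`, `mem_of_fix`).  For `k`: `cf` for `W` (onto: `u * u` with `c u = y / 2`; `IsCh.mono`, `IsCh.conj`), `Y = {x : Kˣ | dv l (incl x) ∈ H}` (comap by `dvH`).  `γ i ∈ Y`: `dv_mem_of_support`, `Lies.val_eq_one`.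
Index: `H.index = H.relIndex (H ⊔ Pm 1) * (H ⊔ Pm 1).index`, the last factor is at most `hh`; the map `Vm → Dv ⧸ H` has kernel `Y ⊓ Vm` and its image contains that of `Pm 1`: for `x ≡ 1` in `K'`, `y = x * ι1 x ∈ K`, `dv y ≡ 2 dv x`, `y / δ y ∈ Vm`, `dv (y / δ y) ≡ 4 dv x`, and `4 e ≡ 1 mod l^k` for some natural `e`. -/

namespace Vale.Agent.P024

open NumberField IsDedekindDomain Filter
open scoped Pointwise Topology

set_option linter.unusedSectionVars false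

theorem keyB_om {w : Qb} (hw : w ^ 2 + w + 1 = 0) (g : G1) : g w = w ∨ g w = -1 - w := by
  have h := congrArg g hw
  simp only [map_add, map_pow, map_one, map_zero] at h
  have : (g w - w) * (g w - (-1 - w)) = 0 := by linear_combination h - hw
  exact (mul_eq_zero.1 this).imp sub_eq_zero.1 sub_eq_zero.1

theorem keyB_conj {w : Qb} (hw : w ^ 2 + w + 1 = 0) (s : G1) {u : G1} (hu : u w = w) :
    (s * u * s⁻¹) w = w := by
  have h : u (s⁻¹ w) = s⁻¹ w := by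
    rcases keyB_om hw s⁻¹ with h | h <;> rw [h] <;> simp [hu]
  rw [AlgEquiv.mul_apply, AlgEquiv.mul_apply, h, ← AlgEquiv.mul_apply, mul_inv_cancel,
    AlgEquiv.one_apply]

theorem keyB_sq {w : Qb} (hw : w ^ 2 + w + 1 = 0) (u : G1) : (u * u) w = w := by
  rw [AlgEquiv.mul_apply]
  rcases keyB_om hw u with h | h
  · rw [h, h]
  · rw [h]; simp [h]

theorem keyB_W (U : OpenSubgroup G1) : ∃ (W : OpenSubgroup G1) (ι1 : G1), FixW W ∧ W ≤ U ∧
    ι1 ∈ U ∧ (∀ u ∈ U, u * u ∈ W) ∧ (∀ u ∈ U, u ∈ W ∨ ι1⁻¹ * u ∈ W) ∧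
    ∀ s, ∀ u ∈ W, s * u * s⁻¹ ∈ U → s * u * s⁻¹ ∈ W := by
  obtain ⟨w, hw⟩ := rc_Qb.prim 3 (by norm_num)
  have hw : w ^ 2 + w + 1 = 0 := by
    have := hw.geom_sum_eq_zero (by norm_num)
    simp only [Finset.sum_range_succ, Finset.sum_range_zero] at this
    linear_combination this
  obtain ⟨ι1, h1, h2⟩ : ∃ ι1 ∈ U, ∀ u ∈ U, u w = w ∨ (ι1⁻¹ * u) w = w := by
    by_cases h : ∀ u ∈ U, u w = w
    · exact ⟨1, U.one_mem, fun u hu => Or.inl (h u hu)⟩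
    · push Not at h
      obtain ⟨ι1, h1, h2⟩ := h
      refine ⟨ι1, h1, fun u _ => (keyB_om hw u).imp id fun h => ?_⟩
      rw [AlgEquiv.mul_apply, h, ← (keyB_om hw ι1).resolve_left h2, ← AlgEquiv.mul_apply,
        inv_mul_cancel, AlgEquiv.one_apply]
  refine ⟨U ⊓ stab w, ι1, ⟨w, hw, fun g hg => hg.2⟩, inf_le_left, h1,
    fun u hu => ⟨U.mul_mem hu hu, keyB_sq hw u⟩, fun u hu => (h2 u hu).imp (fun h => ⟨hu, h⟩)
      fun h => ⟨U.mul_mem (U.inv_mem h1) hu, h⟩, fun s u hu h => ⟨h, keyB_conj hw s hu.2⟩⟩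

theorem keyB_cop {X : Type*} [AddCommGroup X] {L : AddSubgroup X} {m n : ℕ} (h : m.Coprime n)
    {a : X} (h1 : m • a ∈ L) (h2 : n • a ∈ L) : a ∈ L := by
  obtain ⟨u, v, e⟩ := Nat.isCoprime_iff_coprime.2 h
  have : a = u • (m • a) + v • (n • a) := by
    rw [← natCast_zsmul, ← natCast_zsmul, smul_smul, smul_smul, ← add_smul, e, one_smul]
  rw [this]
  exact add_mem (zsmul_mem h1 u) (zsmul_mem h2 v)

theorem keyB_idx {X Z : Type*} [AddCommGroup X] [AddCommGroup Z] (ψ : Z →+ X)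
    {H P : AddSubgroup X} {V : AddSubgroup Z} (h0 : H.index ≠ 0) (hP : P.index ≠ 0)
    (h : P ≤ H ⊔ V.map ψ) : H.index ≤ P.index * (H.comap ψ).relIndex V := by
  rw [AddSubgroup.relIndex_comap, ← AddSubgroup.relIndex_sup_left (V.map ψ) H,
    ← AddSubgroup.relIndex_mul_index (le_sup_left : H ≤ H ⊔ V.map ψ), mul_comm]
  exact Nat.mul_le_mul_right _ (Nat.le_of_dvd (Nat.pos_of_ne_zero hP)
    (AddSubgroup.index_dvd_of_le h))

/-- divisors in the larger field of elements of the smaller field -/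
noncomputable def keyB_psi (l : ℕ) [Fact l.Prime] {U W : OpenSubgroup G1} (h : W ≤ U) :
    Additive (Fx U)ˣ →+ Dv (Fx W) l :=
  (dvH (Fx W) l).comp (MonoidHom.toAdditive (Units.map (incl h : Fx U →* Fx W)))

theorem keyB_psi_apply (l : ℕ) [Fact l.Prime] {U W : OpenSubgroup G1} (h : W ≤ U) (x : (Fx U)ˣ) :
    keyB_psi l h (Additive.ofMul x) = dv l (incl h (x : Fx U)) := rfl

theorem keyB_le {l : ℕ} [Fact l.Prime] (hl : l ≠ 2) {U W : OpenSubgroup G1} (hle : W ≤ U)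
    {δ ι1 : G1} (hδ : ∀ u ∈ U, δ⁻¹ * u * δ ∈ U) (h2 : δ * δ ∈ U) (hι2 : ι1 * ι1 ∈ W)
    (hι : ∀ u ∈ W, ι1⁻¹ * u * ι1 ∈ W) (hU : ∀ u ∈ U, u ∈ W ∨ ι1⁻¹ * u ∈ W)
    {H : AddSubgroup (Dv (Fx W) l)} {k : ℕ} (hk : ∀ D, l ^ k • D ∈ H)
    (e1 : ∀ x y : Fx W, (y : Qb) = δ x → dv l y + dv l x ∈ H)
    (e2 : ∀ x y : Fx W, (y : Qb) = ι1 x → dv l y - dv l x ∈ H) :
    Pm (Fx W) l 1 ≤ H ⊔ (Vm l (resE δ U U hδ)).toAddSubgroup.map (keyB_psi l hle) := by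
  intro D hD
  obtain ⟨x, hx, rfl⟩ := (mem_Pm one_pos).1 hD
  have hx0 : x ≠ 0 := hx.ne_zero one_pos
  set x' : Fx W := resE ι1 W W hι x with hx'
  have cx' : Cg l 1 x' 1 := by
    have := (cg_map (resE ι1 W W hι)).2 hx
    rwa [map_one] at this
  have hx'0 : x' ≠ 0 := cx'.ne_zero one_pos
  have hy : ((x * x' : Fx W) : Qb) ∈ Fx U := mem_Fx.2 fun u hu => by
    rcases hU u hu with h | h
    · exact mem_Fx.1 (x * x').2 u h
    · have e : u = ι1 * (ι1⁻¹ * u) := by group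
      rw [e, AlgEquiv.mul_apply, mem_Fx.1 (x * x').2 _ h]
      change ι1 ((x : Qb) * ι1 x) = x * ι1 x
      rw [map_mul, ← AlgEquiv.mul_apply, mem_Fx.1 x.2 _ hι2, mul_comm]
  set y : Fx U := ⟨_, hy⟩ with hyd
  have ey : incl hle y = x * x' := Subtype.ext (coe_incl hle y)
  have cy : Cg l 1 y 1 := by
    rw [← cg_map (incl hle), ey, map_one]
    simpa using hx.mul cx' (one_mem _) (one_mem _)
  set y' : Fx U := resE δ U U hδ y with hy'
  have cy' : Cg l 1 y' 1 := by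
    have := (cg_map (resE δ U U hδ)).2 cy
    rwa [map_one] at this
  have y0 : y ≠ 0 := cy.ne_zero one_pos
  have y'0 : y' ≠ 0 := cy'.ne_zero one_pos
  have eδ : resE δ U U hδ y' = y := Subtype.ext (by
    change δ (δ (y : Qb)) = y
    rw [← AlgEquiv.mul_apply, mem_Fx.1 y.2 _ h2])
  have hz : Units.mk0 (y * y'⁻¹) (mul_ne_zero y0 (inv_ne_zero y'0)) ∈ Vm l (resE δ U U hδ) := by
    refine ⟨(mem_VV one_pos).2 ?_, ?_⟩
    · simpa using cy.mul (cy'.inv one_pos) (one_mem _) (one_mem _)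
    · rw [Units.val_mk0, map_mul, map_inv₀, eδ, ← hy']
      field_simp
  have hV : dv l (incl hle (y * y'⁻¹)) ∈
      (Vm l (resE δ U U hδ)).toAddSubgroup.map (keyB_psi l hle) := ⟨Additive.ofMul _, hz, rfl⟩
  rw [map_mul, map_inv₀, dv_mul ((map_ne_zero _).2 y0) (inv_ne_zero ((map_ne_zero _).2 y'0)),
    dv_inv] at hV
  have f1 := e1 (incl hle y) (incl hle y') (by rw [coe_incl, coe_incl]; rfl)
  have f2 := e2 x x' rfl
  rw [ey, dv_mul hx0 hx'0] at hV f1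
  refine keyB_cop (m := 2 ^ 2) (n := l ^ k)
    (Nat.Coprime.pow _ _ ((Nat.coprime_primes Nat.prime_two Fact.out).2 hl.symm)) ?_
    (AddSubgroup.mem_sup_left (hk _))
  have : 2 ^ 2 • dv l x = (dv l (incl hle y') + (dv l x + dv l x') - 2 • (dv l x' - dv l x)) +
      (dv l x + dv l x' + -dv l (incl hle y')) := by
    rw [show 2 ^ 2 = 4 from rfl]; abel
  rw [this]
  exact AddSubgroup.add_mem_sup (sub_mem f1 (nsmul_mem f2 2)) hV

theorem keyB {l : ℕ} [Fact l.Prime] (hl : l ≠ 2) {U : OpenSubgroup G1} {δ : G1}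
    (hδ : ∀ u ∈ U, δ⁻¹ * u * δ ∈ U) (hδ' : ∀ u ∈ U, δ * u * δ⁻¹ ∈ U) (h2 : δ * δ ∈ U) (hn : δ ∉ U)
    {D' : ℕ} (hD : U.toSubgroup.index = 2 * D') {ι : Type*} [Fintype ι] {I : Type*} [Finite I]
    (γ : I → (Fx U)ˣ) (hγ : ∀ i, γ i ∈ Vm l (resE δ U U hδ))
    (hc : ∀ k : ℕ, ∃ c : ι → G1 → ZMod (l ^ k), (∀ a, IsCh U (c a)) ∧ (∀ a, Unr l U (c a)) ∧
      (∀ y : ι → ZMod (l ^ k), ∃ g ∈ U, ∀ a, c a g = y a) ∧
      (∀ a, ∀ u ∈ U, c a (δ * u * δ⁻¹) = -c a u) ∧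
      ∀ a i (A : ValuationSubring Qb), A.valuation ((γ i : Fx U) : Qb) ≠ 1 →
        ∀ u ∈ U, u ∈ DD ℚ A → c a u = 0) :
    ∃ n0 : ℕ, n0 + Fintype.card ι ≤ D' ∧ ∀ R : ℕ, ∃ u : Fin n0 → Fx U, (∀ t, Cg l 1 (u t) 1) ∧
      ∀ i, ∃ z : Fin n0 → ℕ, Cg l R (γ i : Fx U) (∏ t, u t ^ z t) := by
  obtain ⟨W, ι1, hw, hle, h1, hsq, hU, hcj⟩ := keyB_W U
  have hcj' : ∀ s, ∀ u ∈ W, s⁻¹ * u * s ∈ U → s⁻¹ * u * s ∈ W := fun s u hu h => by
    have := hcj s⁻¹ u hu (by rwa [inv_inv])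
    rwa [inv_inv] at this
  have hι : ∀ u ∈ W, ι1⁻¹ * u * ι1 ∈ W := fun u hu =>
    hcj' ι1 u hu (U.mul_mem (U.mul_mem (U.inv_mem h1) (hle hu)) h1)
  refine dep hl (resE δ U U hδ) (fun x => Subtype.ext ?_) ?_ (by rw [finrank_Fx_rat, hD]) γ hγ
    (hh := (Pm (Fx W) l 1).index) fun k => ?_
  · change δ (δ (x : Qb)) = x
    rw [← AlgEquiv.mul_apply, mem_Fx.1 x.2 _ h2]
  · by_contra h
    push Not at h
    exact hn (mem_of_fix fun x hx => congrArg Subtype.val (h ⟨x, hx⟩))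
  obtain ⟨c, c1, c2, c3, c4, c5⟩ := hc k
  obtain ⟨t, ht⟩ : ∃ t : ZMod (l ^ k), t * 2 = 1 :=
    ((ZMod.isUnit_iff_coprime 2 (l ^ k)).2 (Nat.Coprime.pow_right _
      ((Nat.coprime_primes Nat.prime_two Fact.out).2 hl.symm))).exists_left_inv
  obtain ⟨H, ⟨m, hm, ray⟩, idx, hk, spl, e1, e2⟩ := cf hw hl c (fun a => (c1 a).mono hle)
    (fun a A p hp hne hA g hg hI => c2 a A p hp hne hA g (hle hg) hI)
    (fun y => by
      obtain ⟨g, hg, e⟩ := c3 fun a => t * y a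
      refine ⟨g * g, hsq g hg, fun a => ?_⟩
      rw [(c1 a).add g hg g hg, e]
      linear_combination y a * ht)
    (fun u hu => hcj' δ u hu (hδ u (hle hu))) (fun u hu => hcj δ u hu (hδ' u (hle hu))) hι
    (fun u hu => hcj ι1 u hu (U.mul_mem (U.mul_mem h1 (hle hu)) (U.inv_mem h1)))
    (fun a u hu => c4 a u (hle hu)) fun a u hu => (c1 a).conj h1 (hle hu)
  have hY : ∀ x : (Fx U)ˣ, x ∈ Subgroup.toAddSubgroup.symm (H.comap (keyB_psi l hle)) ↔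
      dv l (incl hle (x : Fx U)) ∈ H := fun x => Iff.rfl
  refine ⟨Subgroup.toAddSubgroup.symm (H.comap (keyB_psi l hle)), m, fun x _ hx => ?_,
    fun x _ => ?_, fun i => ?_, ?_⟩
  · refine (hY x).2 (ray ((mem_Pm hm).2 ⟨_, ?_, rfl⟩))
    have := (cg_map (incl hle)).2 ((mem_VV hm).1 hx)
    rwa [map_one] at this
  · rw [hY, Units.val_pow_eq_pow_val, map_pow, dv_pow]
    exact hk _
  · refine (hY _).2 (dv_mem_of_support fun P hP => spl P fun A hA g hg hD a => ?_)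
    refine c5 a i A (fun h => hP ?_) g (hle hg) hD
    refine (hA.val_eq_one ((map_ne_zero _).2 (γ i).ne_zero)).1 ?_
    change A.valuation ((incl hle (γ i : Fx U) : Fx W) : Qb) = 1
    rwa [coe_incl]
  · rw [← idx, ← Subgroup.relIndex_toAddSubgroup, OrderIso.apply_symm_apply]
    refine keyB_idx _ ?_ (Pm_index _ l 1) (keyB_le hl hle hδ h2 (hsq ι1 h1) hι hU hk e1 e2)
    rw [idx]
    exact pow_ne_zero _ (Fact.out : l.Prime).ne_zero

end Vale.Agent.P024
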