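import Vale.Agent.P024.KeyC1
import Vale.Agent.P024.KeyB
import Vale.Agent.P024.Rank
import Vale.Agent.P024.Wald

/-! # P024 KeyC (TASK; helper lemma names start with `keyC_` or are private)
The transcendence step.  PLAN.  `δ0`, `s`, `τ` from `KeyC1`, `π i` from `exists_pi U2` for `A i`; `U2` is normalised by `U'` and contains its commutators.  `I = Fin r × Δ`, `γ (i, ν) = s ν (π i) / (s ν * δ0) (π i)` in `Fx U2` (`resE`, `Units.mk0`); it lies in `Vm l (resE δ0 ..)` (`cg_map`, `Cg.inv`, `mem_VV`; `δ0 s ν` and `s ν δ0` agree modulo `U2`, `δ0 δ0 ∈ U2`).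
`keyB` with `D' = d * card Δ`: if `A'.valuation (γ (i,ν)) ≠ 1` then `A'.valuation (g π) ≠ 1` for `g = s ν` or `s ν δ0`, so `g⁻¹ • A' = u • A i` and `A' = (g u) • A i`.
`wald` with `M = Fx (core U2)`, `J = Fin d × Δ`, embeddings `e j = resE (τ j.1 * s j.2) U2 (core U2)`, `γ' i j = Units.map (e j) (γ i)`, `u k j = e j (u k)`, `μ = 4 d + 1`.  `hμ`: `S0` from `rank_lower`, `S = univ ×ˢ S0`.
For `b` supported in `S` fix `i`; apply `rank_lower` with `D = DD (A i)`, `w` the indicator, `b (i, ·)`: apply `g` to the relation and take `(A i).valuation`; factors with `i' ≠ i` have valuation one; `v (y π) = v π ^ w y`; `v π ≠ 0`, `v π < 1`, `zpow_right_injective₀` / `zpow_eq_one_iff_right₀`.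
Finally `μ * (d * card Δ - n0) ≤ 2 * n0`, `n0 + a ≤ d * card Δ`, `card Δ ≤ 2 a` give `μ a ≤ 4 d a`. -/

namespace Vale.Agent.P024

open NumberField IsDedekindDomain Filter
open scoped Pointwise Topology

set_option linter.unusedSectionVars false

theorem keyC_zpow {Γ ι : Type*} [LinearOrderedCommGroupWithZero Γ] {v : Γ} (h0 : v ≠ 0)
    (s : Finset ι) (n : ι → ℤ) : ∏ i ∈ s, v ^ n i = v ^ ∑ i ∈ s, n i := by
  classical
  induction s using Finset.induction_on with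
  | empty => simp
  | insert a s ha ih => rw [Finset.prod_insert ha, Finset.sum_insert ha, ih, zpow_add₀ h0]

theorem keyC_num {d c a n0 : ℕ} (hc : 0 < c) (h1 : n0 + a ≤ d * c) (h2 : c ≤ 2 * a)
    (h : (4 * d + 1) * (d * c - n0) ≤ 2 * n0) : False := by
  have h3 : (4 * d + 1) * a ≤ (4 * d + 1) * (d * c - n0) := Nat.mul_le_mul_left _ (by omega)
  have h4 : d * c ≤ d * (2 * a) := Nat.mul_le_mul_left _ h2
  nlinarith

theorem key_g1 {U' U2 : OpenSubgroup G1} {Δ : Type*} [AddCommGroup Δ] [Fintype Δ]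
    (hΔ : Odd (Fintype.card Δ)) {η0 : G1 → ZMod 2} {η : G1 → Δ} (c0 : IsCh U' η0) (c1 : IsCh U' η)
    (h0 : ∃ h ∈ U', η0 h ≠ 0) (hη : ∀ ν, ∃ u ∈ core U', η u = ν)
    (hτ : ∀ s, s ∉ U' → ∃ u ∈ core U', η0 (s * u * s⁻¹) ≠ η0 u)
    (hU2 : ∀ g, g ∈ U2 ↔ g ∈ U' ∧ η0 g = 0 ∧ η g = 0) {r : ℕ}
    (hr : r = U'.toSubgroup.index * (4 * U'.toSubgroup.index + 1)) (p : Fin r → ℕ)
    (hp : ∀ i, (p i).Prime) (hi : Function.Injective p) (A : Fin r → ValuationSubring Qb)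
    (hA : ∀ i, Ov (A i) (p i)) (hD : ∀ i, ∀ g ∈ U', g ∈ DD ℚ (A i) → g ∈ U2) {l : ℕ} [Fact l.Prime]
    (hl2 : l ≠ 2) (hl : ∀ i, p i ≠ l) {ι : Type*} [Fintype ι]
    (hι : Fintype.card Δ ≤ 2 * Fintype.card ι)
    (hc : ∀ k : ℕ, ∃ c : ι → G1 → ZMod (l ^ k), (∀ a, IsCh U2 (c a)) ∧ (∀ a, Unr l U2 (c a)) ∧
      (∀ y : ι → ZMod (l ^ k), ∃ g ∈ U2, ∀ a, c a g = y a) ∧
      (∀ a, ∀ δ ∈ U', η0 δ ≠ 0 → η δ = 0 → ∀ u ∈ U2, c a (δ * u * δ⁻¹) = -c a u) ∧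
      ∀ a i, ∀ g ∈ U', ∀ u ∈ U2, u ∈ DD ℚ (g • A i) → c a u = 0) : False := by
  classical
  obtain ⟨⟨δ0, hδ1, hδ2, hδ3⟩, ⟨s, hs⟩, hidx⟩ :=
    exists_sec hΔ c0 c1 h0 (fun ν => (hη ν).imp fun u hu => ⟨core_le hu.1, hu.2⟩) hU2
  choose π hπ1 hπ2 hπ3 hπ4 hπ5 hπ6 using fun i => exists_pi (l := l) U2 (hp i) (hl i) (hA i)
  have hn' : ∀ g ∈ U', ∀ u ∈ U2, g * u * g⁻¹ ∈ U2 := fun g hg u hu => by
    obtain ⟨h1, h2, h3⟩ := (hU2 u).1 hu
    exact (hU2 _).2 ⟨U'.mul_mem (U'.mul_mem hg h1) (U'.inv_mem hg), by rw [c0.conj hg h1, h2],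
      by rw [c1.conj hg h1, h3]⟩
  have hn : ∀ g ∈ U', ∀ u ∈ U2, g⁻¹ * u * g ∈ U2 := fun g hg u hu => by
    simpa using hn' g⁻¹ (U'.inv_mem hg) u hu
  have same : ∀ g ∈ U', ∀ g' ∈ U', η0 g = η0 g' → η g = η g' → ∀ x : Fx U2,
      g (x : Qb) = g' (x : Qb) := fun g hg g' hg' e0 e1 x => by
    have : g⁻¹ * g' ∈ U2 := (hU2 _).2 ⟨U'.mul_mem (U'.inv_mem hg) hg',
      by rw [c0.add _ (U'.inv_mem hg) _ hg', c0.inv hg, e0, neg_add_cancel],
      by rw [c1.add _ (U'.inv_mem hg) _ hg', c1.inv hg, e1, neg_add_cancel]⟩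
    conv_lhs => rw [← mem_Fx.1 x.2 _ this, ← AlgEquiv.mul_apply, mul_inv_cancel_left]
  have hsδ : ∀ ν, s ν * δ0 ∈ U' := fun ν => U'.mul_mem (hs ν).1 hδ1
  have hπ0 : ∀ i, (π i : Qb) ≠ 0 := fun i h => (hπ1 i).ne_zero one_pos (Subtype.ext h)
  have hγ : ∀ x : Fin r × Δ, ∃ γ : (Fx U2)ˣ, γ ∈ Vm l (resE δ0 U2 U2 (hn δ0 hδ1)) ∧
      ((γ : Fx U2) : Qb) = s x.2 (π x.1) / (s x.2 * δ0) (π x.1) := by
    rintro ⟨i, ν⟩
    have k : ∀ g (hg : g ∈ U'), Cg l 1 (resE g U2 U2 (hn g hg) (π i)) 1 := fun g hg => by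
      simpa using (cg_map (resE g U2 U2 (hn g hg))).2 (hπ1 i)
    have k1 := k _ (hs ν).1
    have k2 := k _ (hsδ ν)
    have k3 := k1.mul (k2.inv one_pos) (one_mem _) (one_mem _)
    rw [mul_one] at k3
    refine ⟨Units.mk0 _ (k3.ne_zero one_pos), ⟨(mem_VV one_pos).2 k3, Subtype.ext ?_⟩, ?_⟩
    · have e1 : δ0 (s ν (π i)) = (s ν * δ0) (π i) := by
        rw [← AlgEquiv.mul_apply]
        exact same _ (U'.mul_mem hδ1 (hs ν).1) _ (hsδ ν)
          (by rw [c0.add _ hδ1 _ (hs ν).1, c0.add _ (hs ν).1 _ hδ1, add_comm])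
          (by rw [c1.add _ hδ1 _ (hs ν).1, c1.add _ (hs ν).1 _ hδ1, add_comm]) _
      have e2 : δ0 ((s ν * δ0) (π i)) = s ν (π i) := by
        rw [← AlgEquiv.mul_apply]
        exact same _ (U'.mul_mem hδ1 (hsδ ν)) _ (hs ν).1
          (by rw [c0.add _ hδ1 _ (hsδ ν), c0.add _ (hs ν).1 _ hδ1, hδ2, (hs ν).2.1]; rfl)
          (by rw [c1.add _ hδ1 _ (hsδ ν), c1.add _ (hs ν).1 _ hδ1, hδ3, zero_add, add_zero]) _
      have n1 : s ν (π i) ≠ 0 := (map_ne_zero _).2 (hπ0 i)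
      have n2 : (s ν * δ0) (π i) ≠ 0 := (map_ne_zero _).2 (hπ0 i)
      change s ν (π i) * ((s ν * δ0) (π i))⁻¹ * δ0 (s ν (π i) * ((s ν * δ0) (π i))⁻¹) = 1
      rw [map_mul, map_inv₀, e1, e2]
      field_simp
    · exact (div_eq_mul_inv _ _).symm
  choose γ hγ1 hγ2 using hγ
  obtain ⟨n0, hn0, hdep⟩ := keyB (ι := ι) hl2 (hn δ0 hδ1) (hn' δ0 hδ1)
    ((hU2 _).2 ⟨U'.mul_mem hδ1 hδ1, by rw [c0.add _ hδ1 _ hδ1, hδ2]; rfl,
      by rw [c1.add _ hδ1 _ hδ1, hδ3, add_zero]⟩)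
    (fun h => by have := ((hU2 _).1 h).2.1; rw [hδ2] at this; exact one_ne_zero this)
    hidx γ hγ1 fun k => by
      obtain ⟨c, k1, k2, k3, k4, k5⟩ := hc k
      refine ⟨c, k1, k2, k3, fun a => k4 a δ0 hδ1 (by rw [hδ2]; exact one_ne_zero) hδ3,
        fun a x A' hv u hu hD' => ?_⟩
      have key : ∀ g ∈ U', A'.valuation (g (π x.1)) ≠ 1 → c a u = 0 := fun g hg hv => by
        obtain ⟨u', hu', e⟩ := hπ3 x.1 (g⁻¹ • A') fun h => hv (by
          have := (val_smul_eq_one g).2 h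
          rwa [smul_inv_smul] at this)
        refine k5 a x.1 (g * u') (U'.mul_mem hg ((hU2 _).1 hu').1) u hu ?_
        rwa [mul_smul, ← e, smul_inv_smul]
      by_cases h1 : A'.valuation (s x.2 (π x.1)) = 1
      · refine key _ (hsδ x.2) fun h2 => hv ?_
        rw [hγ2, map_div₀, h1, h2, div_one]
      · exact key _ (hs x.2).1 h1
  obtain ⟨τ, hτ'⟩ := exists_tau U' η0 hτ
  generalize U'.toSubgroup.index = d at τ hτ' hr hn0
  let W : OpenSubgroup G1 := (core U2).toOpenSubgroup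
  let e : Fin d × Δ → (Fx U2 →+* Fx W) := fun j =>
    resE (τ j.1 * s j.2) U2 W fun u hu => by simpa using mem_core.1 hu (τ j.1 * s j.2)⁻¹
  let γ' : Fin r × Δ → Fin d × Δ → (Fx W)ˣ := fun x j => Units.map (e j : Fx U2 →* Fx W) (γ x)
  have hw := wald (l := l) γ' (n0 := n0) (μ := 4 * d + 1) (fun x j => by
      simpa [γ'] using (cg_map (e j)).2 ((mem_VV one_pos).1 (hγ1 x).1))
    (fun R => by
      obtain ⟨u, hu1, hu2⟩ := hdep R
      refine ⟨fun k j => e j (u k), fun k j => by simpa using (cg_map (e j)).2 (hu1 k), fun x => ?_⟩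
      obtain ⟨z, hz⟩ := hu2 x
      exact ⟨z, fun j => by simpa [γ'] using (cg_map (e j)).2 hz⟩)
    (fun c lam hlam => by
      have := (core U').isNormal'
      obtain ⟨S0, hS, hr0⟩ := rank_lower U'.toSubgroup (core U').toSubgroup (fun _ h => core_le h) hΔ
        η0 η c0.add c1.add hη s hs δ0 ⟨hδ1, hδ2, hδ3⟩ τ hτ' lam hlam
      refine ⟨Finset.univ ×ˢ S0, ?_, fun b hb hrel => ?_⟩
      · rw [Finset.card_product, Finset.card_univ, Fintype.card_fin, hr]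
        calc (4 * d + 1) * c ≤ (4 * d + 1) * (d * S0.card) := Nat.mul_le_mul_left _ hS
          _ = _ := by ring
      ext ⟨i, ν⟩
      let w : G1 → ℤ := fun g => if ∃ x ∈ DD ℚ (A i), ∃ u ∈ U2, g = x * u then 1 else 0
      have hiff : ∀ g, (∃ x ∈ DD ℚ (A i), ∃ u ∈ U'.toSubgroup, η0 u = 0 ∧ η u = 0 ∧ g = x * u) ↔
          ∃ x ∈ DD ℚ (A i), ∃ u ∈ U2, g = x * u := fun g =>
        ⟨fun ⟨x, hx, u, h1, h2, h3, h4⟩ => ⟨x, hx, u, (hU2 u).2 ⟨h1, h2, h3⟩, h4⟩,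
          fun ⟨x, hx, u, h1, h4⟩ => ⟨x, hx, u, ((hU2 u).1 h1).1, ((hU2 u).1 h1).2.1,
            ((hU2 u).1 h1).2.2, h4⟩⟩
      have hv : ∀ g : G1, (A i).valuation (g (π i)) = (A i).valuation (π i : Qb) ^ w g := fun g => by
        by_cases h : ∃ x ∈ DD ℚ (A i), ∃ u ∈ U2, g = x * u
        · rw [hπ4 i g h]; simp only [w, if_pos h, zpow_one]
        · rw [hπ5 i g h]; simp only [w, if_neg h, zpow_zero]
      have v0 : (A i).valuation (π i : Qb) ≠ 0 := (map_ne_zero _).2 (hπ0 i)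
      refine congrFun (hr0 (DD ℚ (A i)) w (fun ν => b (i, ν))
        (fun g hg hg' => ((hU2 g).1 (hD i g hg' hg)).2) (fun g h => if_pos ((hiff g).1 h))
        (fun g h => if_neg fun h' => h ((hiff g).2 h'))
        (fun ν h => hb _ fun h' => h (Finset.mem_product.1 h').2) fun t g => ?_) ν
      let φ : (Fx W)ˣ →* (A i).ValueGroup :=
        ((((A i).valuation : Qb →* (A i).ValueGroup).comp (g : Qb →* Qb)).comp
          (inc W : Fx W →* Qb)).comp (Units.coeHom _)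
      have hφ : ∀ x j, φ (γ' x j) = (A i).valuation ((g * τ j.1 * s j.2 * s x.2) (π x.1)) /
          (A i).valuation ((g * τ j.1 * s j.2 * s x.2 * δ0) (π x.1)) := fun x j => by
        change (A i).valuation (g ((τ j.1 * s j.2) ((γ x : Fx U2) : Qb))) = _
        rw [hγ2, map_div₀, map_div₀, map_div₀]
        rfl
      have h1 := congrArg φ (hrel t)
      simp only [map_prod, map_zpow, map_one] at h1
      rw [Fintype.prod_prod_type, Finset.prod_eq_single i (fun i' _ hi' => by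
        refine Finset.prod_eq_one fun ν _ => Finset.prod_eq_one fun j _ => ?_
        rw [hφ, hπ6 i' (A i) (p i) _ (hp i) (fun h => hi' (hi h).symm) (hA i),
          hπ6 i' (A i) (p i) _ (hp i) (fun h => hi' (hi h).symm) (hA i), div_one, one_zpow])
        (fun h => absurd (Finset.mem_univ i) h)] at h1
      simp only [hφ, hv, ← zpow_sub₀ v0, ← zpow_mul, keyC_zpow v0] at h1
      rw [zpow_eq_one_iff_right₀ zero_le (hπ2 i).ne, Finset.sum_comm] at h1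
      rw [← h1]
      exact Finset.sum_congr rfl fun j _ => Finset.sum_congr rfl fun ν _ => mul_comm _ _)
  rw [Fintype.card_prod, Fintype.card_fin] at hw
  exact keyC_num Fintype.card_pos hn0 hι hw

end Vale.Agent.P024
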