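import Vale.Agent.P024.DenB
import Vale.Agent.P024.Cyc
import Vale.Agent.P024.KumH

/-! # P024 KumT (TASK; helper lemma names start with `kumT_` or are private)
Primes `t` with prescribed power residues.  PLAN.  `exists_move_root`: suppose all `g` with `cyc (q^k) g = 1` fix `y`; they fix `ζ` (primitive `q`-th root, `cyc_cast`), hence all roots `ζ^x y`, and they contain all commutators (`cyc_mul`).  Pick `h0` with `h0 ζ ≠ ζ`
(`cyc_totient_le` with `U = ⊤`, or irreducibility of the cyclotomic polynomial, or `cyc_big`): `h0 ζ = ζ^a`, `h0 y = ζ^b y`, `a ≠ 1` in `ZMod q`; `h0` has exactly one fixed root `y' = ζ^x0 y`.  For every `g`, `h0 (g y') = g (h0 y') = g y'`, so `g y' = y'`, contradicting `exists_II_sqrt`.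
`exists_t`: `q = q i`, `y j'` with `y j' ^ q = q j'`, `U = {cyc (q^k) = 1}` (`exists_cycK`), Kummer characters `κ j'` on `U` (`exists_kum_ch`).  For `j' ≠ i` an element `τ j'` of an inertia group at `q j'` (`exists_II_sqrt`) lies in `U` (`cyc_II`), moves `y j'` and fixes the other `y` (`II_root_unit`).
So some `g ∈ U` moves `y j` and fixes the others (for `j = i`: `exists_move_root`, corrected by powers of the `τ j'`).  `U1 = U ⊓ ⨅ j' ≠ j, stab (y j')`, `N = U1 ⊓ stab (y j)`, `fd`; choose `t` outside the finite set of the `q j'`.  `cyc_frob` gives `t ≡ 1`.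
If `g y = y` and `g` is Frobenius then `y^t ≡ y`, so `y ≡ a` for an integer `a` (`X^t - X = ∏ (X - a)` in the residue field, `FiniteField.prod...` or `ZMod` roots count), `Ov.intCast_iff`.  If `q j ≡ a^q` then `y ≡ a ζ^m`, so `y^t ≡ y`, `g y / y ≡ 1`, `eq_one_of_pow_eq_one`. -/

namespace Vale.Agent.P024

open NumberField IsDedekindDomain Filter
open scoped Pointwise Topology

set_option linter.unusedSectionVars false

theorem kumT_ov {p : ℕ} (hp : p.Prime) : ∃ A : ValuationSubring Qb, Ov A p := by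
  obtain ⟨P, hP⟩ := exists_over (Fx (⊤ : OpenSubgroup G1)) hp
  obtain ⟨A, hA⟩ := exists_val (inc (⊤ : OpenSubgroup G1)) P
  exact ⟨A, hA.ov.2 hP⟩

theorem kumT_cyc {q : ℕ} (hq : q.Prime) (h2 : q ≠ 2) : ∃ g : G1, cyc q g ≠ 1 := by
  have : NeZero q := ⟨hq.ne_zero⟩
  by_contra! hc
  have h1 := cyc_totient_le (F := ℚ) rc_Qb ⊤ q
  have h3 : (⊤ : OpenSubgroup G1).toSubgroup.map (cyc_hom (F := ℚ) rc_Qb q).toHomUnits = ⊥ := by
    rw [eq_bot_iff]
    rintro x ⟨g, -, rfl⟩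
    rw [Subgroup.mem_bot]
    exact Units.ext (hc g)
  rw [h3, Subgroup.card_bot, OpenSubgroup.toSubgroup_top, Subgroup.index_top, Module.finrank_self,
    Nat.totient_prime hq] at h1
  have := hq.two_le
  omega

theorem kumT_ratio {q a : ℕ} (ha : a ≠ 0) {y : Qb} (hy : y ^ q = a) (g : G1) :
    (g y / y) ^ q = 1 := by
  rw [div_pow, ← map_pow, hy, map_natCast, div_self (Nat.cast_ne_zero.2 ha)]

theorem kumT_ne {q a : ℕ} (hq : q ≠ 0) (ha : a ≠ 0) {y : Qb} (hy : y ^ q = a) : y ≠ 0 := by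
  rintro rfl
  rw [zero_pow hq] at hy
  exact ha (Nat.cast_eq_zero.1 hy.symm)

theorem kumT_prim {q : ℕ} (hq : q.Prime) {z : Qb} (hz : z ^ q = 1) (h1 : z ≠ 1) :
    IsPrimitiveRoot z q := by
  have : Fact q.Prime := ⟨hq⟩
  have := IsPrimitiveRoot.orderOf z
  rwa [orderOf_eq_prime hz h1] at this

theorem exists_move_root {q k : ℕ} (hq : q.Prime) (h2 : q ≠ 2) {y : Qb} (hy : y ^ q = q) :
    ∃ g : G1, cyc (q ^ k) g = 1 ∧ g y ≠ y := by
  have : NeZero q := ⟨hq.ne_zero⟩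
  have : NeZero (q ^ k) := ⟨pow_ne_zero _ hq.ne_zero⟩
  have : Fact q.Prime := ⟨hq⟩
  by_contra! hc
  obtain ⟨h0, hh0⟩ := kumT_cyc hq h2
  obtain ⟨ζ, hζ⟩ := rc_Qb.prim q hq.pos
  have y0 := kumT_ne hq.ne_zero hq.ne_zero hy
  have hcomm : ∀ (t : ℕ) [NeZero t] (g h : G1), cyc t ((h * g)⁻¹ * (g * h)) = 1 := by
    intro t _ g h
    have e : cyc t (g * h) = cyc t (h * g) := by rw [cyc_mul rc_Qb, cyc_mul rc_Qb, mul_comm]
    rw [cyc_mul rc_Qb, e, ← cyc_mul rc_Qb, inv_mul_cancel, cyc_one rc_Qb]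
  obtain ⟨b, -, hb⟩ := hζ.eq_pow_of_pow_eq_one (kumT_ratio hq.ne_zero hy h0)
  set c := cyc q h0 with hcdef
  set x0 : ZMod q := -(b : ZMod q) / (c - 1) with hx0
  have hx : x0 * c + b = x0 := by
    have : c - 1 ≠ 0 := sub_ne_zero.2 hh0
    rw [hx0]; field_simp; ring
  set y' := ζ ^ x0.val * y with hy'
  have hz1 : (ζ ^ x0.val) ^ q = 1 := by rw [← pow_mul, mul_comm, pow_mul, hζ.pow_eq_one, one_pow]
  have hy'q : y' ^ q = q := by rw [hy', mul_pow, hz1, one_mul, hy]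
  have y'0 := kumT_ne hq.ne_zero hq.ne_zero hy'q
  have hfix : h0 y' = y' := by
    have e1 : h0 y = ζ ^ b * y := by rw [hb, div_mul_cancel₀ _ y0]
    rw [hy', map_mul, cyc_spec rc_Qb h0 hz1, e1, ← mul_assoc, ← hcdef,
      ← pow_val_mul hζ.pow_eq_one, ← pow_val_natCast hζ.pow_eq_one b,
      ← pow_val_add hζ.pow_eq_one, hx]
  obtain ⟨A, hA⟩ := kumT_ov hq
  obtain ⟨g, -, hg⟩ := exists_II_sqrt hq hA hq.one_lt hy'q
  apply hg
  have e1 : ((h0 * g)⁻¹ * (g * h0)) y' = y' := by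
    rw [hy', map_mul, hc _ (hcomm _ g h0), (cyc_eq_one_iff rc_Qb).1 (hcomm q g h0) _ hz1]
  have e2 : h0 (g y') = g y' := by
    have := congrArg (h0 * g) e1
    rw [← AlgEquiv.mul_apply, mul_inv_cancel_left, AlgEquiv.mul_apply, AlgEquiv.mul_apply,
      hfix] at this
    exact this.symm
  by_contra hne
  have hz := kumT_ratio hq.ne_zero hy'q g
  have hp := kumT_prim hq hz fun e => hne ((div_eq_one_iff_eq y'0).1 e)
  have e3 : h0 (g y' / y') = g y' / y' := by rw [map_div₀, e2, hfix]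
  rw [cyc_spec rc_Qb h0 hz] at e3
  refine hh0 (pow_val_inj hp ?_)
  rw [e3, ← Nat.cast_one, pow_val_natCast hz, pow_one]

theorem kumT_euler {t q m : ℕ} (ht : t.Prime) (hm : t - 1 = q * m) {a : ZMod t} (ha : a ≠ 0) :
    a ^ m = 1 ↔ ∃ x : ZMod t, x ^ q = a := by
  have : Fact t.Prime := ⟨ht⟩
  have hm0 : 0 < m := by
    have := ht.two_le
    rcases Nat.eq_zero_or_pos m with rfl | h
    · omega
    · exact h
  constructor
  · intro h
    obtain ⟨γ, hγ⟩ := IsCyclic.exists_monoid_generator (α := (ZMod t)ˣ)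
    obtain ⟨n, hn⟩ := hγ (Units.mk0 a ha)
    have ho : orderOf γ = q * m := by
      rw [orderOf_eq_card_of_forall_mem_powers hγ, Nat.card_eq_fintype_card, ZMod.card_units, hm]
    have h1 : γ ^ (n * m) = 1 := by
      rw [pow_mul]
      simp only at hn
      rw [hn]
      exact Units.ext (by simpa using h)
    have h2 := orderOf_dvd_of_pow_eq_one h1
    rw [ho] at h2
    obtain ⟨d, rfl⟩ := Nat.dvd_of_mul_dvd_mul_right hm0 h2
    refine ⟨(γ ^ d : (ZMod t)ˣ), ?_⟩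
    have := congrArg Units.val hn
    simp only [Units.val_pow_eq_pow_val, Units.val_mk0] at this ⊢
    rw [← pow_mul, mul_comm, this]
  · rintro ⟨x, rfl⟩
    have hx : x ≠ 0 := by
      rintro rfl
      rcases Nat.eq_zero_or_pos q with rfl | h
      · have := ht.two_le
        omega
      · exact ha (zero_pow h.ne')
    rw [← pow_mul, ← hm]
    exact ZMod.pow_card_sub_one_eq_one hx

theorem kumT_val {A : ValuationSubring Qb} {t q a : ℕ} (ht : t.Prime) (hA : Ov A t) (hq : q ≠ 0)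
    (ha : ¬t ∣ a) {y : Qb} (hy : y ^ q = a) : A.valuation y = 1 := by
  refine (pow_eq_one_iff_of_nonneg zero_le hq).1 ?_
  rw [← map_pow, hy]
  exact uq_val_one.2 ⟨natCast_mem A _, fun h => ha ((hA.natCast_iff ht _).1 h)⟩

theorem frob_fix_iff {A : ValuationSubring Qb} {t q a : ℕ} (ht : t.Prime) (hA : Ov A t) (hq : q.Prime)
    (h1 : q ∣ t - 1) (ha : ¬t ∣ a) {y : Qb} (hy : y ^ q = a) {g : G1} (hg : IsFrob A t g) :
    g y = y ↔ ∃ x : ZMod t, x ^ q = a := by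
  obtain ⟨m, hm⟩ := h1
  have ha0 : a ≠ 0 := fun e => ha (e ▸ dvd_zero t)
  have hv := kumT_val ht hA hq.ne_zero ha hy
  have y0 := kumT_ne hq.ne_zero ha0 hy
  have htq : ¬t ∣ q := fun h => by
    have h2 : t ∣ t - 1 := hm ▸ h.mul_right m
    have h3 := ht.two_le
    have := Nat.le_of_dvd (by omega) h2
    omega
  have haZ : (a : ZMod t) ≠ 0 := fun e => ha ((ZMod.natCast_eq_zero_iff a t).1 e)
  rw [← kumT_euler ht hm haZ]
  have e1 : y ^ t = y * (a : Qb) ^ m := by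
    rw [← hy, ← pow_mul, ← hm, ← pow_succ']
    have := ht.pos
    congr 1; omega
  have e2 : (a : ZMod t) ^ m = 1 ↔ ((a : Qb) ^ m - 1) ∈ A.nonunits := by
    have := hA.intCast_iff ht ((a : ℤ) ^ m - 1)
    push_cast at this
    rw [this, ← ZMod.intCast_zmod_eq_zero_iff_dvd]
    push_cast
    rw [sub_eq_zero]
  have hf : g y / y - (a : Qb) ^ m ∈ A.nonunits := by
    have h3 := hg.2 y (uq_val_one.1 hv).1
    have : g y / y - (a : Qb) ^ m = (g y - y ^ t) / y := by rw [e1]; field_simp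
    rw [this, ValuationSubring.mem_nonunits_iff, map_div₀, hv, div_one]
    exact (ValuationSubring.mem_nonunits_iff _).1 h3
  rw [e2]
  constructor
  · intro h
    rw [h, div_self y0] at hf
    simpa using neg_mem hf
  · intro h
    refine (div_eq_one_iff_eq y0).1 (eq_one_of_pow_eq_one hA ht htq (kumT_ratio ha0 hy g) ?_)
    simpa using add_mem hf h

theorem kumT_inf {ι : Type*} (s : Finset ι) (f : ι → OpenSubgroup G1) :
    ∃ U : OpenSubgroup G1, ∀ g, g ∈ U ↔ ∀ j ∈ s, g ∈ f j := by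
  classical
  induction s using Finset.induction_on with
  | empty => exact ⟨⊤, fun g => by simp⟩
  | insert a s _ ih =>
    obtain ⟨U, hU⟩ := ih
    exact ⟨f a ⊓ U, fun g => by rw [OpenSubgroup.mem_inf, hU, Finset.forall_mem_insert]⟩

theorem kumT_pow {τ : G1} {z y : Qb} (hz : τ z = z) (hy : τ y = z * y) (m : ℕ) :
    (τ ^ m) y = z ^ m * y := by
  induction m with
  | zero => simp
  | succ m ih => rw [pow_succ', AlgEquiv.mul_apply, ih, map_mul, map_pow, hz, hy, pow_succ, mul_assoc]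

theorem exists_t {r : ℕ} (q : Fin r → ℕ) (hq : ∀ j, (q j).Prime) (hi : Function.Injective q)
    (i j : Fin r) (h2 : q i ≠ 2) (k : ℕ) (hk : 0 < k) :
    ∃ t : ℕ, t.Prime ∧ (∀ j', t ≠ q j') ∧ q i ^ k ∣ t - 1 ∧ (¬∃ x : ZMod t, x ^ q i = q j) ∧
      ∀ j', j' ≠ j → ∃ x : ZMod t, x ^ q i = q j' := by
  classical
  have hQ := hq i
  have : NeZero (q i ^ k) := ⟨pow_ne_zero _ hQ.ne_zero⟩
  choose y hy using fun j' => rc_Qb.root (q i) (q j' : Qb) hQ.pos
  have y0 : ∀ j', y j' ≠ 0 := fun j' => kumT_ne hQ.ne_zero (hq j').ne_zero (hy j')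
  have hroot : ∀ g : G1, cyc (q i ^ k) g = 1 → ∀ z : Qb, z ^ q i = 1 → g z = z := fun g hg z hz =>
    (cyc_eq_one_iff rc_Qb).1 hg z (by
      obtain ⟨c, hc⟩ := dvd_pow_self (q i) hk.ne'
      rw [hc, pow_mul, hz, one_pow])
  have hnd : ∀ a b, a ≠ b → ¬q a ∣ q b := fun a b hab h =>
    hab (hi ((Nat.prime_dvd_prime_iff_eq (hq a) (hq b)).1 h))
  have hτ : ∀ a, a ≠ i → ∃ τ : G1, cyc (q i ^ k) τ = 1 ∧ τ (y a) ≠ y a ∧
      ∀ b, b ≠ a → τ (y b) = y b := fun a ha => by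
    obtain ⟨A, hA⟩ := kumT_ov (hq a)
    obtain ⟨τ, h1, h3⟩ := exists_II_sqrt (hq a) hA hQ.one_lt (hy a)
    refine ⟨τ, cyc_II rc_Qb (hq a) hA (fun h => hnd a i ha ((hq a).dvd_of_dvd_pow h)) h1, h3,
      fun b hb => II_root_unit hA (hq a) (hnd a i ha) h1
        (kumT_val (hq a) hA hQ.ne_zero (hnd a b hb.symm) (hy b)) (by rw [hy b, map_natCast])⟩
  have hg : ∃ g : G1, cyc (q i ^ k) g = 1 ∧ g (y j) ≠ y j ∧ ∀ b, b ≠ j → g (y b) = y b := by
    rcases ne_or_eq j i with hji | rfl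
    · exact hτ j hji
    have key : ∀ S : Finset (Fin r), ∃ g : G1, cyc (q j ^ k) g = 1 ∧ g (y j) ≠ y j ∧
        ∀ b ∈ S, b ≠ j → g (y b) = y b := by
      intro S
      induction S using Finset.induction_on with
      | empty =>
        obtain ⟨g, h1, h3⟩ := exists_move_root (k := k) hQ h2 (hy j)
        exact ⟨g, h1, h3, fun b hb => absurd hb (Finset.notMem_empty b)⟩
      | insert a S _ ih =>
        obtain ⟨g, g1, g2, g3⟩ := ih
        rcases eq_or_ne a j with rfl | haj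
        · refine ⟨g, g1, g2, fun b hb hb' => g3 b ?_ hb'⟩
          exact (Finset.mem_insert.1 hb).resolve_left hb'
        obtain ⟨τ, t1, t2, t3⟩ := hτ a haj
        have hz := kumT_ratio (hq a).ne_zero (hy a) τ
        have hp := kumT_prim hQ hz fun e => t2 ((div_eq_one_iff_eq (y0 a)).1 e)
        have : NeZero (q j) := ⟨hQ.ne_zero⟩
        obtain ⟨n, hn, hn'⟩ := hp.eq_pow_of_pow_eq_one (kumT_ratio (hq a).ne_zero (hy a) g)
        have t4 : ∀ m b, b ≠ a → (τ ^ m) (y b) = y b := fun m b hb => by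
          rw [kumT_pow (map_one τ) (by rw [one_mul]; exact t3 b hb), one_pow, one_mul]
        refine ⟨g * τ ^ (q j - n), by rw [cyc_mul rc_Qb, cyc_pow rc_Qb, g1, t1, one_pow, one_mul],
          by rw [AlgEquiv.mul_apply, t4 _ _ haj.symm]; exact g2, fun b hb hb' => ?_⟩
        rcases eq_or_ne b a with rfl | hba
        · rw [AlgEquiv.mul_apply, kumT_pow (hroot τ t1 _ hz) (div_mul_cancel₀ _ (y0 b)).symm, map_mul,
            map_pow, hroot g g1 _ hz, ← div_mul_cancel₀ (g (y b)) (y0 b), ← hn', ← mul_assoc,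
            ← pow_add, Nat.sub_add_cancel hn.le, hz, one_mul]
        · rw [AlgEquiv.mul_apply, t4 _ _ hba]
          exact g3 b ((Finset.mem_insert.1 hb).resolve_left hba) hb'
    obtain ⟨g, g1, g2, g3⟩ := key Finset.univ
    exact ⟨g, g1, g2, fun b => g3 b (Finset.mem_univ b)⟩
  obtain ⟨W, hW⟩ := exists_cycK (F := ℚ) rc_Qb (q i ^ k)
  obtain ⟨V, hV⟩ := kumT_inf (Finset.univ.erase j) fun b => stab (y b)
  have hU : ∀ g, g ∈ W.toOpenSubgroup ⊓ V ↔ cyc (q i ^ k) g = 1 ∧ ∀ b, b ≠ j → g (y b) = y b :=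
    fun g => by
      rw [OpenSubgroup.mem_inf, hV, ← hW]
      simp only [Finset.mem_erase, Finset.mem_univ, and_true, mem_stab]
      rfl
  have hinf := fd (U := W.toOpenSubgroup ⊓ V) (N := (W.toOpenSubgroup ⊓ V) ⊓ stab (y j)) inf_le_left
    (fun g hg n hn => by
      refine ⟨(W.toOpenSubgroup ⊓ V).mul_mem ((W.toOpenSubgroup ⊓ V).mul_mem hg hn.1)
        ((W.toOpenSubgroup ⊓ V).inv_mem hg), mem_stab.2 ?_⟩
      have e : n (g⁻¹ (y j)) = g⁻¹ (y j) := by
        rw [← div_mul_cancel₀ (g⁻¹ (y j)) (y0 j), map_mul, mem_stab.1 hn.2,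
          hroot n ((hU n).1 hn.1).1 _ (kumT_ratio (hq j).ne_zero (hy j) g⁻¹)]
      rw [AlgEquiv.mul_apply, AlgEquiv.mul_apply, e, ← AlgEquiv.mul_apply, mul_inv_cancel]
      rfl)
    (by
      obtain ⟨g, g1, g2, g3⟩ := hg
      exact ⟨g, (hU g).2 ⟨g1, g3⟩, fun h => g2 (mem_stab.1 h.2)⟩)
  obtain ⟨t, ⟨ht, A, g, hA, g1, g2, g3⟩, ht'⟩ := hinf.exists_notMem_finset (Finset.univ.image q)
  have hne : ∀ j', t ≠ q j' := fun j' e => ht' (Finset.mem_image.2 ⟨j', Finset.mem_univ _, e.symm⟩)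
  have hnd' : ∀ j', ¬t ∣ q j' := fun j' h => hne j' ((Nat.prime_dvd_prime_iff_eq ht (hq j')).1 h)
  have hd : q i ^ k ∣ t - 1 := by
    have h3 := cyc_frob (t := q i ^ k) rc_Qb ht hA (fun h => hnd' i (ht.dvd_of_dvd_pow h)) g3
    rw [((hU g).1 g1).1, ← Nat.cast_one, ZMod.natCast_eq_natCast_iff] at h3
    exact (Nat.modEq_iff_dvd' ht.one_le).1 h3
  have hd' : q i ∣ t - 1 := (dvd_pow_self _ hk.ne').trans hd
  refine ⟨t, ht, hne, hd, fun h => g2 ⟨g1, mem_stab.2 ?_⟩, fun b hb => ?_⟩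
  · exact (frob_fix_iff ht hA hQ hd' (hnd' j) (hy j) g3).2 h
  · exact (frob_fix_iff ht hA hQ hd' (hnd' b) (hy b) g3).1 (((hU g).1 g1).2 b hb)

end Vale.Agent.P024
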